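import Mathlib

/-!
Courtade-Kumar, reduction part 1: definitions, and the induction on the dimension which turns a
two-point inequality for a state function `B` into a lower bound for the dissipation on the cube.
-/

namespace Vale.Agent.P322

open Finset

/-- Binary entropy in nats of a sign with mean `x`. -/
noncomputable def hh (x : ℝ) : ℝ := Real.binEntropy ((1 + x) / 2)

/-- The cost of an edge. -/
noncomputable def KK (a b : ℝ) : ℝ := (a - b) * (Real.artanh a - Real.artanh b) / 4

/-- Uniform average over the cube. -/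
noncomputable def EE {n : ℕ} (u : (Fin n → Bool) → ℝ) : ℝ := (∑ x, u x) / 2 ^ n

/-- Flip of the coordinate `j`. -/
def flp {n : ℕ} (j : Fin n) (x : Fin n → Bool) : Fin n → Bool := Function.update x j (!(x j))

/-- The dissipation. -/
noncomputable def DD {n : ℕ} (u : (Fin n → Bool) → ℝ) : ℝ :=
  ∑ j, EE (fun x => KK (u x) (u (flp j x)))

/-- The two-point inequality for the state function `B`. -/
def TwoPoint (B : ℝ → ℝ → ℝ) : Prop :=
  ∀ (n : ℕ) (a b : (Fin n → Bool) → ℝ), (∀ x, a x ∈ Set.Ioo (-1 : ℝ) 1) →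
    (∀ x, b x ∈ Set.Ioo (-1 : ℝ) 1) →
    B ((EE a + EE b) / 2) ((EE (fun x => hh (a x)) + EE (fun x => hh (b x))) / 2) ≤
      (B (EE a) (EE (fun x => hh (a x))) + B (EE b) (EE (fun x => hh (b x)))) / 2
        + EE (fun x => KK (a x) (b x))

theorem KK_comm (a b : ℝ) : KK a b = KK b a := by
  unfold KK; ring

theorem flp_flp {n : ℕ} (j : Fin n) (x : Fin n → Bool) : flp j (flp j x) = x := by
  unfold flp; simp

/-- flipping is a bijection, so it preserves averages -/
theorem EE_flp {n : ℕ} (j : Fin n) (u : (Fin n → Bool) → ℝ) :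
    EE (fun x => u (flp j x)) = EE u := by
  unfold EE
  congr 1
  exact Equiv.sum_comp (⟨flp j, flp j, flp_flp j, flp_flp j⟩ : (Fin n → Bool) ≃ (Fin n → Bool)) u

theorem EE_add {n : ℕ} (u v : (Fin n → Bool) → ℝ) :
    EE (fun x => u x + v x) = EE u + EE v := by
  unfold EE; rw [Finset.sum_add_distrib]; ring

theorem EE_sub {n : ℕ} (u v : (Fin n → Bool) → ℝ) :
    EE (fun x => u x - v x) = EE u - EE v := by
  unfold EE; rw [Finset.sum_sub_distrib]; ring

theorem EE_mul_left {n : ℕ} (c : ℝ) (u : (Fin n → Bool) → ℝ) :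
    EE (fun x => c * u x) = c * EE u := by
  unfold EE; rw [← Finset.mul_sum]; ring

theorem EE_const {n : ℕ} (c : ℝ) : EE (fun _ : Fin n → Bool => c) = c := by
  unfold EE; simp

theorem EE_mono {n : ℕ} {u v : (Fin n → Bool) → ℝ} (h : ∀ x, u x ≤ v x) : EE u ≤ EE v := by
  unfold EE; gcongr with x; exact h x

theorem EE_lt {n : ℕ} {u v : (Fin n → Bool) → ℝ} (h : ∀ x, u x < v x) : EE u < EE v := by
  unfold EE
  have : (∑ x, u x) < ∑ x, v x := Finset.sum_lt_sum_of_nonempty Finset.univ_nonempty (fun x _ => h x)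
  exact div_lt_div_of_pos_right this (by positivity)

theorem EE_zero (u : (Fin 0 → Bool) → ℝ) (x : Fin 0 → Bool) : EE u = u x := by
  unfold EE
  rw [Fintype.sum_subsingleton _ x]; simp

theorem EE_succ {n : ℕ} (u : (Fin (n + 1) → Bool) → ℝ) :
    EE u = (EE (fun x => u (Fin.cons true x)) + EE (fun x => u (Fin.cons false x))) / 2 := by
  unfold EE
  rw [← Equiv.sum_comp (Fin.consEquiv (fun _ : Fin (n + 1) => Bool)) u, Fintype.sum_prod_type]
  simp only [Fintype.sum_bool, Fin.consEquiv, Equiv.coe_fn_mk]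
  rw [pow_succ]
  field_simp

theorem flp_cons_zero {n : ℕ} (b : Bool) (x : Fin n → Bool) :
    flp (0 : Fin (n + 1)) (Fin.cons b x) = Fin.cons (!b) x := by
  unfold flp; rw [Fin.update_cons_zero]; simp

theorem flp_cons_succ {n : ℕ} (j : Fin n) (b : Bool) (x : Fin n → Bool) :
    flp j.succ (Fin.cons b x : Fin (n + 1) → Bool) = Fin.cons b (flp j x) := by
  unfold flp; rw [Fin.cons_update]; simp

theorem DD_succ {n : ℕ} (u : (Fin (n + 1) → Bool) → ℝ) :
    DD u = (DD (fun x => u (Fin.cons true x)) + DD (fun x => u (Fin.cons false x))) / 2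
      + EE (fun x : Fin n → Bool => KK (u (Fin.cons true x)) (u (Fin.cons false x))) := by
  unfold DD
  rw [Fin.sum_univ_succ, EE_succ]
  simp only [flp_cons_zero, Bool.not_true, Bool.not_false]
  have h1 : EE (fun x : Fin n → Bool => KK (u (Fin.cons false x)) (u (Fin.cons true x)))
      = EE (fun x : Fin n → Bool => KK (u (Fin.cons true x)) (u (Fin.cons false x))) := by
    congr 1; funext x; exact KK_comm _ _
  rw [h1]
  have h2 : ∀ j : Fin n, EE (fun x : Fin (n + 1) → Bool => KK (u x) (u (flp j.succ x)))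
      = (EE (fun x => KK (u (Fin.cons true x)) (u (Fin.cons true (flp j x))))
        + EE (fun x => KK (u (Fin.cons false x)) (u (Fin.cons false (flp j x))))) / 2 := by
    intro j
    rw [EE_succ]
    simp only [flp_cons_succ]
  rw [Finset.sum_congr rfl (fun j _ => h2 j), ← Finset.sum_div, Finset.sum_add_distrib]
  ring

/-- The induction on the dimension. -/
theorem DD_ge_of_twoPoint (B : ℝ → ℝ → ℝ) (hB0 : ∀ x ∈ Set.Ioo (-1 : ℝ) 1, B x (hh x) ≤ 0)
    (hB : TwoPoint B) : ∀ (n : ℕ) (u : (Fin n → Bool) → ℝ), (∀ x, u x ∈ Set.Ioo (-1 : ℝ) 1) →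
      B (EE u) (EE (fun x => hh (u x))) ≤ DD u := by
  intro n
  induction n with
  | zero =>
    intro u hu
    rw [EE_zero u default, EE_zero (fun x => hh (u x)) default]
    have : DD u = 0 := by unfold DD; simp
    rw [this]
    exact hB0 _ (hu _)
  | succ n ih =>
    intro u hu
    have h := hB n (fun x => u (Fin.cons true x)) (fun x => u (Fin.cons false x))
      (fun x => hu _) (fun x => hu _)
    have h1 := ih (fun x => u (Fin.cons true x)) (fun x => hu _)
    have h2 := ih (fun x => u (Fin.cons false x)) (fun x => hu _)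
    rw [DD_succ, EE_succ u, EE_succ (fun x => hh (u x))]
    linarith

end Vale.Agent.P322
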