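import Mathlib
import Vale.Agent.Lib.P322.Basic

/-!
Courtade-Kumar, reduction part 2: the noise operator, its derivative, and the derivative of the
entropy along the noise operator.
-/

namespace Vale.Agent.P322

open Finset

/-- `1` if the bits agree, `-1` otherwise. -/
def sg (b c : Bool) : ℝ := if b = c then 1 else -1

/-- Transition kernel of the product of `n` symmetric channels with correlation `ρ`. -/
noncomputable def ker {n : ℕ} (ρ : ℝ) (x y : Fin n → Bool) : ℝ :=
  ∏ i, (1 + ρ * sg (x i) (y i)) / 2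

/-- The noise operator. -/
noncomputable def TT {n : ℕ} (ρ : ℝ) (f : (Fin n → Bool) → ℝ) (y : Fin n → Bool) : ℝ :=
  ∑ x, f x * ker ρ x y

theorem sg_abs (b c : Bool) : sg b c = 1 ∨ sg b c = -1 := by
  unfold sg; split_ifs <;> simp

theorem sg_comm (b c : Bool) : sg b c = sg c b := by
  unfold sg; simp only [eq_comm]

theorem sg_not (b c : Bool) : sg b (!c) = - sg b c := by
  cases b <;> cases c <;> simp [sg]

theorem ker_comm {n : ℕ} (ρ : ℝ) (x y : Fin n → Bool) : ker ρ x y = ker ρ y x := by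
  unfold ker; simp only [sg_comm]

theorem ker_pos {n : ℕ} {ρ : ℝ} (h0 : 0 ≤ ρ) (h1 : ρ < 1) (x y : Fin n → Bool) :
    0 < ker ρ x y := by
  unfold ker
  apply Finset.prod_pos
  intro i _
  rcases sg_abs (x i) (y i) with h | h <;> rw [h] <;> linarith

theorem ker_nonneg {n : ℕ} {ρ : ℝ} (h0 : 0 ≤ ρ) (h1 : ρ ≤ 1) (x y : Fin n → Bool) :
    0 ≤ ker ρ x y := by
  unfold ker
  apply Finset.prod_nonneg
  intro i _
  rcases sg_abs (x i) (y i) with h | h <;> rw [h] <;> linarith

theorem ker_sum_right {n : ℕ} (ρ : ℝ) (x : Fin n → Bool) : ∑ y, ker ρ x y = 1 := by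
  unfold ker
  rw [← Fintype.prod_sum (fun i b => (1 + ρ * sg (x i) b) / 2)]
  apply Finset.prod_eq_one
  intro i _
  rw [Fintype.sum_bool]
  cases x i <;> simp [sg] <;> ring

theorem ker_sum_left {n : ℕ} (ρ : ℝ) (y : Fin n → Bool) : ∑ x, ker ρ x y = 1 := by
  simp only [ker_comm ρ _ y]; exact ker_sum_right ρ y

theorem EE_TT {n : ℕ} (ρ : ℝ) (f : (Fin n → Bool) → ℝ) : EE (TT ρ f) = EE f := by
  unfold EE TT
  rw [Finset.sum_comm]
  congr 1
  apply Finset.sum_congr rfl
  intro x _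
  rw [← Finset.mul_sum, ker_sum_right, mul_one]

theorem TT_continuous {n : ℕ} (f : (Fin n → Bool) → ℝ) (y : Fin n → Bool) :
    Continuous (fun ρ => TT ρ f y) := by
  unfold TT ker
  fun_prop

theorem ker_sub_flp {n : ℕ} (ρ : ℝ) (x y : Fin n → Bool) (j : Fin n) :
    ker ρ x y - ker ρ x (flp j y) =
      ρ * ((∏ i ∈ Finset.univ.erase j, (1 + ρ * sg (x i) (y i)) / 2) * sg (x j) (y j)) := by
  unfold ker
  rw [← Finset.mul_prod_erase Finset.univ (fun i => (1 + ρ * sg (x i) (y i)) / 2) (Finset.mem_univ j),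
    ← Finset.mul_prod_erase Finset.univ (fun i => (1 + ρ * sg (x i) (flp j y i)) / 2)
      (Finset.mem_univ j)]
  have h1 : flp j y j = !(y j) := by unfold flp; simp
  have h2 : ∏ i ∈ Finset.univ.erase j, (1 + ρ * sg (x i) (flp j y i)) / 2
      = ∏ i ∈ Finset.univ.erase j, (1 + ρ * sg (x i) (y i)) / 2 := by
    apply Finset.prod_congr rfl
    intro i hi
    have : flp j y i = y i := by
      unfold flp; rw [Function.update_of_ne (Finset.ne_of_mem_erase hi)]
    rw [this]
  rw [h1, h2, sg_not]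
  ring

theorem ker_hasDerivAt {n : ℕ} {ρ : ℝ} (hρ : ρ ≠ 0) (x y : Fin n → Bool) :
    HasDerivAt (fun r => ker r x y) (∑ j, (ker ρ x y - ker ρ x (flp j y)) / (2 * ρ)) ρ := by
  have h : HasDerivAt (fun r => ∏ i, (1 + r * sg (x i) (y i)) / 2)
      (∑ j, (∏ i ∈ Finset.univ.erase j, (1 + ρ * sg (x i) (y i)) / 2) • (sg (x j) (y j) / 2)) ρ := by
    apply HasDerivAt.fun_finsetProd
    intro i _
    have := ((((hasDerivAt_id ρ).mul_const (sg (x i) (y i))).const_add 1).div_const 2)
    simpa using this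
  have h2 : (∑ j, (∏ i ∈ Finset.univ.erase j, (1 + ρ * sg (x i) (y i)) / 2) • (sg (x j) (y j) / 2))
      = (∑ j, (ker ρ x y - ker ρ x (flp j y)) / (2 * ρ)) := by
    apply Finset.sum_congr rfl
    intro j _
    rw [ker_sub_flp, smul_eq_mul]
    field_simp
  rw [h2] at h
  exact h

theorem TT_hasDerivAt {n : ℕ} {ρ : ℝ} (hρ : ρ ≠ 0) (f : (Fin n → Bool) → ℝ) (y : Fin n → Bool) :
    HasDerivAt (fun r => TT r f y) (∑ j, (TT ρ f y - TT ρ f (flp j y)) / (2 * ρ)) ρ := by
  have h : HasDerivAt (fun r => ∑ x, f x * ker r x y)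
      (∑ x, f x * ∑ j, (ker ρ x y - ker ρ x (flp j y)) / (2 * ρ)) ρ := by
    apply HasDerivAt.fun_sum
    intro x _
    exact (ker_hasDerivAt hρ x y).const_mul (f x)
  have h2 : (∑ x, f x * ∑ j, (ker ρ x y - ker ρ x (flp j y)) / (2 * ρ))
      = ∑ j, (TT ρ f y - TT ρ f (flp j y)) / (2 * ρ) := by
    unfold TT
    simp only [Finset.mul_sum]
    rw [Finset.sum_comm]
    apply Finset.sum_congr rfl
    intro j _
    rw [← Finset.sum_sub_distrib, Finset.sum_div]
    apply Finset.sum_congr rfl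
    intro x _
    ring
  rw [h2] at h
  exact h

/-- derivative of the entropy function -/
theorem hh_hasDerivAt {x : ℝ} (hx : x ∈ Set.Ioo (-1 : ℝ) 1) :
    HasDerivAt hh (-Real.artanh x) x := by
  obtain ⟨h1, h2⟩ := hx
  have hp0 : (1 + x) / 2 ≠ 0 := by
    have : 0 < (1 + x) / 2 := by linarith
    exact this.ne'
  have hp1 : (1 + x) / 2 ≠ 1 := by
    intro h; linarith
  have h := (Real.hasDerivAt_binEntropy hp0 hp1).comp x
    (((hasDerivAt_id x).const_add 1).div_const 2)
  have h3 : (Real.log (1 - (1 + x) / 2) - Real.log ((1 + x) / 2)) * (1 / 2) = -Real.artanh x := by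
    rw [Real.artanh_eq_half_log ⟨h1.le, h2.le⟩]
    rw [show 1 - (1 + x) / 2 = (1 - x) / 2 by ring]
    rw [Real.log_div (by linarith) (by norm_num), Real.log_div (by linarith) (by norm_num),
      Real.log_div (by linarith) (by linarith)]
    ring
  rw [← h3]
  exact h

theorem hh_continuous : Continuous hh := by
  unfold hh; fun_prop

/-- entropy along the flow -/
noncomputable def HJ {n : ℕ} (f : (Fin n → Bool) → ℝ) (ρ : ℝ) : ℝ :=
  EE (fun y => hh (TT ρ f y))

theorem HJ_continuous {n : ℕ} (f : (Fin n → Bool) → ℝ) : Continuous (HJ f) := by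
  unfold HJ EE
  apply Continuous.div_const
  apply continuous_finsetSum
  intro y _
  exact hh_continuous.comp (TT_continuous f y)

theorem sum_EE_artanh {n : ℕ} (u : (Fin n → Bool) → ℝ) :
    ∑ j, EE (fun y => Real.artanh (u y) * (u y - u (flp j y))) = 2 * DD u := by
  unfold DD
  rw [Finset.mul_sum]
  apply Finset.sum_congr rfl
  intro j _
  have h1 : EE (fun y => Real.artanh (u (flp j y)) * (u (flp j y) - u y))
      = EE (fun y => Real.artanh (u y) * (u y - u (flp j y))) := by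
    have := EE_flp j (fun y => Real.artanh (u y) * (u y - u (flp j y)))
    simp only [flp_flp] at this
    exact this
  have h2 : EE (fun y => Real.artanh (u y) * (u y - u (flp j y))
      + Real.artanh (u (flp j y)) * (u (flp j y) - u y)) = 4 * EE (fun y => KK (u y) (u (flp j y))) := by
    rw [← EE_mul_left]
    congr 1
    funext y
    unfold KK
    ring
  rw [EE_add, h1] at h2
  linarith

theorem HJ_hasDerivAt {n : ℕ} (f : (Fin n → Bool) → ℝ) {ρ : ℝ} (hρ : ρ ≠ 0)
    (hu : ∀ y, TT ρ f y ∈ Set.Ioo (-1 : ℝ) 1) :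
    HasDerivAt (HJ f) (-(DD (TT ρ f) / ρ)) ρ := by
  have h : HasDerivAt (fun r => (∑ y, hh (TT r f y)) / 2 ^ n)
      ((∑ y, (-Real.artanh (TT ρ f y)) * ∑ j, (TT ρ f y - TT ρ f (flp j y)) / (2 * ρ)) / 2 ^ n) ρ := by
    apply HasDerivAt.div_const
    apply HasDerivAt.fun_sum
    intro y _
    have h5 : HasDerivAt hh (-Real.artanh (TT ρ f y)) ((fun r => TT r f y) ρ) := hh_hasDerivAt (hu y)
    exact HasDerivAt.comp (h₂ := hh) (h := fun r => TT r f y) ρ h5 (TT_hasDerivAt hρ f y)
  have h2 : ((∑ y, (-Real.artanh (TT ρ f y)) * ∑ j, (TT ρ f y - TT ρ f (flp j y)) / (2 * ρ)) / 2 ^ n)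
      = -(DD (TT ρ f) / ρ) := by
    have h3 := sum_EE_artanh (TT ρ f)
    have h4 : DD (TT ρ f) / ρ
        = (∑ j, EE (fun y => Real.artanh (TT ρ f y) * (TT ρ f y - TT ρ f (flp j y)))) / (2 * ρ) := by
      rw [h3]; field_simp
    rw [h4]
    unfold EE
    rw [← Finset.sum_div, Finset.sum_comm]
    simp only [Finset.mul_sum]
    rw [div_div, ← neg_div, ← Finset.sum_neg_distrib, Finset.sum_div, Finset.sum_div]
    apply Finset.sum_congr rfl
    intro y _
    rw [Finset.sum_div, ← Finset.sum_neg_distrib, Finset.sum_div]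
    apply Finset.sum_congr rfl
    intro j _
    field_simp
  rw [h2] at h
  exact h

/-- strict bounds for the noisy version of a non-constant sign function -/
theorem TT_mem_Ioo {n : ℕ} {f : (Fin n → Bool) → ℝ} (hf : ∀ x, f x = 1 ∨ f x = -1)
    (h1 : ∃ x, f x = 1) (h2 : ∃ x, f x = -1) {ρ : ℝ} (h0 : 0 ≤ ρ) (hρ : ρ < 1)
    (y : Fin n → Bool) : TT ρ f y ∈ Set.Ioo (-1 : ℝ) 1 := by
  obtain ⟨x1, hx1⟩ := h1
  obtain ⟨x2, hx2⟩ := h2
  have hs := ker_sum_left (n := n) ρ y
  constructor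
  · have : ∑ x, (f x + 1) * ker ρ x y > 0 := by
      apply Finset.sum_pos'
      · intro x _
        apply mul_nonneg _ (ker_nonneg h0 hρ.le x y)
        rcases hf x with h | h <;> rw [h] <;> norm_num
      · refine ⟨x1, Finset.mem_univ _, ?_⟩
        rw [hx1]; have := ker_pos h0 hρ x1 y; linarith
    have h3 : ∑ x, (f x + 1) * ker ρ x y = TT ρ f y + 1 := by
      unfold TT
      conv_rhs => rw [← hs]
      rw [← Finset.sum_add_distrib]
      apply Finset.sum_congr rfl
      intro x _; ring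
    linarith
  · have : ∑ x, (1 - f x) * ker ρ x y > 0 := by
      apply Finset.sum_pos'
      · intro x _
        apply mul_nonneg _ (ker_nonneg h0 hρ.le x y)
        rcases hf x with h | h <;> rw [h] <;> norm_num
      · refine ⟨x2, Finset.mem_univ _, ?_⟩
        rw [hx2]; have := ker_pos h0 hρ x2 y; linarith
    have h3 : ∑ x, (1 - f x) * ker ρ x y = 1 - TT ρ f y := by
      unfold TT
      conv_rhs => rw [← hs]
      rw [← Finset.sum_sub_distrib]
      apply Finset.sum_congr rfl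
      intro x _; ring
    linarith

theorem EE_mem_Ioo {n : ℕ} {f : (Fin n → Bool) → ℝ} (hf : ∀ x, f x = 1 ∨ f x = -1)
    (h1 : ∃ x, f x = 1) (h2 : ∃ x, f x = -1) : EE f ∈ Set.Ioo (-1 : ℝ) 1 := by
  have h := fun y => TT_mem_Ioo hf h1 h2 (le_refl (0:ℝ)) one_pos y
  rw [← EE_TT 0 f]
  constructor
  · have := EE_lt (n := n) (u := fun _ => (-1:ℝ)) (v := TT 0 f) (fun x => (h x).1)
    rwa [EE_const] at this
  · have := EE_lt (n := n) (v := fun _ => (1:ℝ)) (u := TT 0 f) (fun x => (h x).2)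
    rwa [EE_const] at this

end Vale.Agent.P322
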