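import Mathlib
import Vale.Agent.Lib.P322.Noise

/-!
Courtade-Kumar, reduction part 3: comparison of a differential inequality.
-/

namespace Vale.Agent.P322

open Finset

theorem hh_zero : hh 0 = Real.log 2 := by
  unfold hh; norm_num [Real.binEntropy_two_inv]
  rw [show (1 / 2 : ℝ) = 2⁻¹ by norm_num, Real.binEntropy_two_inv]

theorem hh_one : hh 1 = 0 := by
  unfold hh; norm_num

theorem hh_neg (x : ℝ) : hh (-x) = hh x := by
  unfold hh
  rw [show (1 + -x) / 2 = 1 - (1 + x) / 2 by ring, Real.binEntropy_one_sub]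

theorem hh_pos {x : ℝ} (hx : x ∈ Set.Ioo (-1 : ℝ) 1) : 0 < hh x := by
  unfold hh
  apply Real.binEntropy_pos <;> [linarith [hx.1]; linarith [hx.2]]

theorem hh_le (x : ℝ) : hh x ≤ Real.log 2 := Real.binEntropy_le_log_two

theorem hh_strictAnti : StrictAntiOn hh (Set.Icc 0 1) := by
  intro x hx y hy hxy
  unfold hh
  apply Real.binEntropy_strictAntiOn
  · constructor <;> [norm_num; skip] <;> linarith [hx.1, hx.2]
  · constructor <;> [norm_num; skip] <;> linarith [hy.1, hy.2]
  · linarith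

theorem exists_hh_eq {T : ℝ} (h0 : 0 < T) (h1 : T ≤ Real.log 2) :
    ∃ r ∈ Set.Ico (0 : ℝ) 1, hh r = T := by
  have h := intermediate_value_Icc' (zero_le_one (α := ℝ)) hh_continuous.continuousOn
  rw [hh_zero, hh_one] at h
  obtain ⟨r, hr, hr2⟩ := h ⟨h0.le, h1⟩
  refine ⟨r, ⟨hr.1, lt_of_le_of_ne hr.2 ?_⟩, hr2⟩
  rintro rfl
  rw [hh_one] at hr2
  linarith

/-- Comparison for the differential inequality `J' ≥ Ψ(J)/ρ`. -/
theorem ode_compare (J D : ℝ → ℝ) (hc : Continuous J)
    (hd : ∀ ρ ∈ Set.Ioo (0 : ℝ) 1, HasDerivAt J (D ρ / ρ) ρ)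
    (hJ : ∀ ρ ∈ Set.Ioo (0 : ℝ) 1, J ρ < Real.log 2)
    (hD : ∀ ρ ∈ Set.Ioo (0 : ℝ) 1, ∀ r ∈ Set.Ico (0 : ℝ) 1, J ρ = Real.log 2 - hh r →
      r * Real.artanh r ≤ D ρ) :
    ∀ ρ ∈ Set.Ioo (0 : ℝ) 1, J ρ ≤ Real.log 2 - hh ρ := by
  intro ρ hρ
  by_contra hcon
  push Not at hcon
  -- choose the dilation factor
  obtain ⟨c, hc1, hc2, hc3⟩ : ∃ c : ℝ, 1 < c ∧ c * ρ < 1 ∧ Real.log 2 - hh (c * ρ) < J ρ := by
    have h1 : ∀ᶠ c in nhdsWithin (1 : ℝ) (Set.Ioi 1), c * ρ < 1 := by
      apply Filter.Eventually.filter_mono nhdsWithin_le_nhds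
      have : Filter.Tendsto (fun c : ℝ => c * ρ) (nhds 1) (nhds (1 * ρ)) :=
        (continuous_id.mul continuous_const).tendsto 1
      exact this.eventually (gt_mem_nhds (by linarith [hρ.2]))
    have h2 : ∀ᶠ c in nhdsWithin (1 : ℝ) (Set.Ioi 1), Real.log 2 - hh (c * ρ) < J ρ := by
      apply Filter.Eventually.filter_mono nhdsWithin_le_nhds
      have : Filter.Tendsto (fun c : ℝ => Real.log 2 - hh (c * ρ)) (nhds 1)
          (nhds (Real.log 2 - hh (1 * ρ))) := by
        apply Continuous.tendsto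
        exact continuous_const.sub (hh_continuous.comp (continuous_id.mul continuous_const))
      exact this.eventually (gt_mem_nhds (by rw [one_mul]; exact hcon))
    have h3 : ∀ᶠ c in nhdsWithin (1 : ℝ) (Set.Ioi 1), 1 < c := eventually_mem_nhdsWithin
    obtain ⟨c, hc⟩ := (h1.and (h2.and h3)).exists
    exact ⟨c, hc.2.2, hc.1, hc.2.1⟩
  have hc0 : 0 < c := by linarith
  set W : ℝ → ℝ := fun t => J t - (Real.log 2 - hh (c * t)) with hW
  have hWc : Continuous W :=
    hc.sub (continuous_const.sub (hh_continuous.comp (continuous_const.mul continuous_id)))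
  have hρc : ρ < 1 / c := by rw [lt_div_iff₀ hc0]; linarith
  have hc4 : 1 / c < 1 := by rw [div_lt_one hc0]; exact hc1
  have hWend : W (1 / c) < 0 := by
    simp only [hW]
    rw [mul_one_div_cancel hc0.ne', hh_one]
    have := hJ (1 / c) ⟨by positivity, hc4⟩
    linarith
  have hWstart : 0 < W ρ := by simp only [hW]; linarith
  -- first zero
  obtain ⟨σ, hσ1, hσ2, hσ3⟩ : ∃ σ : ℝ, σ ∈ Set.Icc ρ (1 / c) ∧ W σ ≤ 0 ∧
      ∀ t ∈ Set.Ico ρ σ, 0 < W t := by
    set S : Set ℝ := Set.Icc ρ (1 / c) ∩ {t | W t ≤ 0} with hS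
    have hSc : IsClosed S := isClosed_Icc.inter (isClosed_le hWc continuous_const)
    have hSne : S.Nonempty := ⟨1 / c, ⟨hρc.le, le_refl _⟩, hWend.le⟩
    have hSb : BddBelow S := ⟨ρ, fun t ht => ht.1.1⟩
    have hmem := hSc.csInf_mem hSne hSb
    refine ⟨sInf S, hmem.1, hmem.2, ?_⟩
    intro t ht
    by_contra hneg
    push Not at hneg
    have : t ∈ S := ⟨⟨ht.1, le_trans ht.2.le hmem.1.2⟩, hneg⟩
    have := csInf_le hSb this
    linarith [ht.2]
  have hσρ : ρ < σ := by
    rcases lt_or_eq_of_le hσ1.1 with h | h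
    · exact h
    · rw [← h] at hσ2; linarith
  have hσc : σ < 1 / c := by
    rcases lt_or_eq_of_le hσ1.2 with h | h
    · exact h
    · exfalso
      -- by continuity `W` is nonneg at the first nonpositive point
      have hnn : 0 ≤ W σ := by
        have hcl : Filter.Tendsto W (nhdsWithin σ (Set.Iio σ)) (nhds (W σ)) :=
          hWc.continuousAt.continuousWithinAt
        apply ge_of_tendsto hcl
        have : Set.Ico ρ σ ∈ nhdsWithin σ (Set.Iio σ) := by
          rw [mem_nhdsWithin]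
          exact ⟨Set.Ioi ρ, isOpen_Ioi, hσρ, fun x hx => ⟨le_of_lt hx.1, hx.2⟩⟩
        filter_upwards [this] with t ht
        exact (hσ3 t ht).le
      rw [h] at hnn
      linarith
  have hmono : MonotoneOn W (Set.Icc ρ σ) := by
    apply monotoneOn_of_deriv_nonneg (convex_Icc ρ σ) hWc.continuousOn
    · intro t ht
      rw [interior_Icc] at ht
      have ht01 : t ∈ Set.Ioo (0 : ℝ) 1 := ⟨by linarith [hρ.1, ht.1], by linarith [ht.2]⟩
      have hct : c * t ∈ Set.Ioo (-1 : ℝ) 1 := by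
        have h1 : t < 1 / c := by linarith [ht.2]
        rw [lt_div_iff₀ hc0] at h1
        exact ⟨by nlinarith [ht01.1], by linarith⟩
      have := ((hd t ht01).sub ((hasDerivAt_const t (Real.log 2)).sub
        ((hh_hasDerivAt hct).comp t ((hasDerivAt_id t).const_mul c))))
      exact this.differentiableAt.differentiableWithinAt
    · intro t ht
      rw [interior_Icc] at ht
      have ht01 : t ∈ Set.Ioo (0 : ℝ) 1 := ⟨by linarith [hρ.1, ht.1], by linarith [ht.2]⟩
      have hct1 : c * t < 1 := by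
        have h1 : t < 1 / c := by linarith [ht.2]
        rw [lt_div_iff₀ hc0] at h1
        linarith
      have hct0 : 0 < c * t := mul_pos hc0 ht01.1
      have hct : c * t ∈ Set.Ioo (-1 : ℝ) 1 := ⟨by linarith, hct1⟩
      have hder := ((hd t ht01).sub ((hasDerivAt_const t (Real.log 2)).sub
        ((hh_hasDerivAt hct).comp t ((hasDerivAt_id t).const_mul c))))
      have hder2 : deriv W t = D t / t - (0 - -Real.artanh (c * t) * (c * 1)) := hder.deriv
      rw [hder2]
      have hWt := hσ3 t ⟨ht.1.le, ht.2⟩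
      simp only [hW] at hWt
      have hpos : 0 < Real.log 2 - J t := by linarith [hJ t ht01]
      have hle : Real.log 2 - J t ≤ Real.log 2 := by
        have := hh_le (c * t); linarith
      obtain ⟨r, hr, hr2⟩ := exists_hh_eq hpos hle
      have hrD := hD t ht01 r hr (by linarith)
      have hrct : c * t ≤ r := by
        by_contra hlt
        push Not at hlt
        have := hh_strictAnti ⟨hr.1, hr.2.le⟩ ⟨hct0.le, hct1.le⟩ hlt
        linarith
      have hart : Real.artanh (c * t) ≤ Real.artanh r :=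
        Real.artanh_le_artanh hct.1 hr.2 hrct
      have hart0 : 0 ≤ Real.artanh (c * t) := Real.artanh_nonneg hct0.le
      have h1 : c * t * Real.artanh (c * t) ≤ r * Real.artanh r :=
        mul_le_mul hrct hart hart0 hr.1
      have h2 : c * Real.artanh (c * t) ≤ D t / t := by
        rw [le_div_iff₀ ht01.1]
        nlinarith
      nlinarith
  have := hmono ⟨le_refl _, hσρ.le⟩ ⟨hσρ.le, le_refl _⟩ hσρ.le
  linarith

/-- From the functional inequality to the entropy bound. -/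
theorem entropy_bound {n : ℕ} {f : (Fin n → Bool) → ℝ} (hf : ∀ x, f x = 1 ∨ f x = -1)
    (h1 : ∃ x, f x = 1) (h2 : ∃ x, f x = -1)
    (hD : ∀ u : (Fin n → Bool) → ℝ, (∀ x, u x ∈ Set.Ioo (-1 : ℝ) 1) → EE u = EE f →
      ∀ r ∈ Set.Ico (0 : ℝ) 1, hh (EE u) - EE (fun x => hh (u x)) = Real.log 2 - hh r →
        r * Real.artanh r ≤ DD u) :
    ∀ ρ ∈ Set.Icc (0 : ℝ) 1, hh (EE f) - HJ f ρ ≤ Real.log 2 - hh ρ := by
  have key : ∀ ρ ∈ Set.Ioo (0 : ℝ) 1, hh (EE f) - HJ f ρ ≤ Real.log 2 - hh ρ := by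
    apply ode_compare (fun ρ => hh (EE f) - HJ f ρ) (fun ρ => DD (TT ρ f))
    · exact continuous_const.sub (HJ_continuous f)
    · intro ρ hρ
      have := (hasDerivAt_const ρ (hh (EE f))).sub (HJ_hasDerivAt f hρ.1.ne'
        (fun y => TT_mem_Ioo hf h1 h2 hρ.1.le hρ.2 y))
      rw [zero_sub, neg_neg] at this
      exact this
    · intro ρ hρ
      have hpos : 0 < HJ f ρ := by
        unfold HJ
        have := EE_lt (n := n) (u := fun _ => (0:ℝ)) (v := fun y => hh (TT ρ f y))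
          (fun y => hh_pos (TT_mem_Ioo hf h1 h2 hρ.1.le hρ.2 y))
        rwa [EE_const] at this
      have := hh_le (EE f)
      show hh (EE f) - HJ f ρ < Real.log 2
      linarith
    · intro ρ hρ r hr hr2
      apply hD (TT ρ f) (fun y => TT_mem_Ioo hf h1 h2 hρ.1.le hρ.2 y) (EE_TT ρ f) r hr
      rw [EE_TT]
      exact hr2
  intro ρ hρ
  have hcl : IsClosed {ρ : ℝ | hh (EE f) - HJ f ρ ≤ Real.log 2 - hh ρ} :=
    isClosed_le (continuous_const.sub (HJ_continuous f)) (continuous_const.sub hh_continuous)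
  have hsub : closure (Set.Ioo (0:ℝ) 1) ⊆ {ρ : ℝ | hh (EE f) - HJ f ρ ≤ Real.log 2 - hh ρ} :=
    hcl.closure_subset_iff.mpr key
  rw [closure_Ioo zero_ne_one] at hsub
  exact hsub hρ

end Vale.Agent.P322
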