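import Mathlib
import Vale.Agent.Lib.P322.Ode

/-!
Courtade-Kumar: two lower bounds for the expected edge cost `E K(X,Y)`.
L1: joint convexity, `E K(X,Y) ≥ K(E X, E Y)`.
L2: the entropy bound, `E K(X,Y) ≥ p_t (E X - E Y)/2 - q_t (E h(X) + E h(Y))/2` for every `t > 0`.
-/

namespace Vale.Agent.P322

open Finset

theorem artanh_eq_logs {x : ℝ} (hx : x ∈ Set.Ioo (-1 : ℝ) 1) :
    Real.artanh x = (Real.log (1 + x) - Real.log (1 - x)) / 2 := by
  rw [Real.artanh_eq_half_log ⟨hx.1.le, hx.2.le⟩, Real.log_div (by linarith [hx.1])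
    (by linarith [hx.2])]
  ring

/-- tangent inequality for the one-homogeneous convex function `(u - v) log (u / v)` -/
theorem jeff_tangent {u v a b : ℝ} (hu : 0 < u) (hv : 0 < v) (ha : 0 < a) (hb : 0 < b) :
    u * (Real.log a - Real.log b + 1 - b / a) + v * (Real.log b - Real.log a + 1 - a / b)
      ≤ (u - v) * (Real.log u - Real.log v) := by
  set L := Real.log u - Real.log v - Real.log a + Real.log b with hL
  have hL' : L = Real.log (u * b / (v * a)) := by
    rw [Real.log_div (by positivity) (by positivity), Real.log_mul hu.ne' hb.ne',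
      Real.log_mul hv.ne' ha.ne']
    rw [hL]; ring
  have h1 : L ≤ u * b / (v * a) - 1 := by
    rw [hL']; exact Real.log_le_sub_one_of_pos (by positivity)
  have h2 : 1 - (v * a) / (u * b) ≤ L := by
    rw [hL']
    have := Real.one_sub_inv_le_log_of_pos (x := u * b / (v * a)) (by positivity)
    rwa [inv_div] at this
  have h3 : u * (1 - (v * a) / (u * b)) ≤ u * L := mul_le_mul_of_nonneg_left h2 hu.le
  have h4 : v * L ≤ v * (u * b / (v * a) - 1) := mul_le_mul_of_nonneg_left h1 hv.le
  have h5 : u * (1 - (v * a) / (u * b)) = u - v * (a / b) := by field_simp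
  have h6 : v * (u * b / (v * a) - 1) = u * (b / a) - v := by field_simp
  rw [h5] at h3
  rw [h6] at h4
  have h7 : (u - v) * (Real.log u - Real.log v) = u * L - v * L
      + (u - v) * (Real.log a - Real.log b) := by rw [hL]; ring
  rw [h7]
  nlinarith

/-- tangent plane inequality for the edge cost -/
theorem KK_tangent {x y a b : ℝ} (hx : x ∈ Set.Ioo (-1 : ℝ) 1) (hy : y ∈ Set.Ioo (-1 : ℝ) 1)
    (ha : a ∈ Set.Ioo (-1 : ℝ) 1) (hb : b ∈ Set.Ioo (-1 : ℝ) 1) :
    ((1 + x) * (Real.log (1 + a) - Real.log (1 + b) + 1 - (1 + b) / (1 + a))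
      + (1 + y) * (Real.log (1 + b) - Real.log (1 + a) + 1 - (1 + a) / (1 + b))
      + ((1 - x) * (Real.log (1 - a) - Real.log (1 - b) + 1 - (1 - b) / (1 - a))
      + (1 - y) * (Real.log (1 - b) - Real.log (1 - a) + 1 - (1 - a) / (1 - b)))) / 8
      ≤ KK x y := by
  have h1 := jeff_tangent (u := 1 + x) (v := 1 + y) (a := 1 + a) (b := 1 + b)
    (by linarith [hx.1]) (by linarith [hy.1]) (by linarith [ha.1]) (by linarith [hb.1])
  have h2 := jeff_tangent (u := 1 - x) (v := 1 - y) (a := 1 - a) (b := 1 - b)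
    (by linarith [hx.2]) (by linarith [hy.2]) (by linarith [ha.2]) (by linarith [hb.2])
  unfold KK
  rw [artanh_eq_logs hx, artanh_eq_logs hy]
  nlinarith

/-- L1 -/
theorem EE_KK_ge {n : ℕ} (u v : (Fin n → Bool) → ℝ) (hu : ∀ x, u x ∈ Set.Ioo (-1 : ℝ) 1)
    (hv : ∀ x, v x ∈ Set.Ioo (-1 : ℝ) 1) :
    KK (EE u) (EE v) ≤ EE (fun x => KK (u x) (v x)) := by
  have hmem : ∀ w : (Fin n → Bool) → ℝ, (∀ x, w x ∈ Set.Ioo (-1 : ℝ) 1) →
      EE w ∈ Set.Ioo (-1 : ℝ) 1 := by
    intro w hw
    constructor
    · have := EE_lt (n := n) (u := fun _ => (-1:ℝ)) (v := w) (fun x => (hw x).1)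
      rwa [EE_const] at this
    · have := EE_lt (n := n) (v := fun _ => (1:ℝ)) (u := w) (fun x => (hw x).2)
      rwa [EE_const] at this
  have ha := hmem u hu
  have hb := hmem v hv
  set a := EE u with hadef
  set b := EE v with hbdef
  set c1 := Real.log (1 + a) - Real.log (1 + b) + 1 - (1 + b) / (1 + a) with hc1
  set c2 := Real.log (1 + b) - Real.log (1 + a) + 1 - (1 + a) / (1 + b) with hc2
  set c3 := Real.log (1 - a) - Real.log (1 - b) + 1 - (1 - b) / (1 - a) with hc3
  set c4 := Real.log (1 - b) - Real.log (1 - a) + 1 - (1 - a) / (1 - b) with hc4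
  have h1 : EE (fun x => ((1 + u x) * c1 + (1 + v x) * c2 + ((1 - u x) * c3 + (1 - v x) * c4)) / 8)
      ≤ EE (fun x => KK (u x) (v x)) := by
    apply EE_mono
    intro x
    exact KK_tangent (hu x) (hv x) ha hb
  have h2 : EE (fun x => ((1 + u x) * c1 + (1 + v x) * c2 + ((1 - u x) * c3 + (1 - v x) * c4)) / 8)
      = ((1 + a) * c1 + (1 + b) * c2 + ((1 - a) * c3 + (1 - b) * c4)) / 8 := by
    have h3 : (fun x => ((1 + u x) * c1 + (1 + v x) * c2 + ((1 - u x) * c3 + (1 - v x) * c4)) / 8)
        = fun x => ((c1 - c3) / 8 * u x + (c2 - c4) / 8 * v x) + (c1 + c2 + c3 + c4) / 8 := by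
      funext x; ring
    rw [h3, EE_add, EE_add, EE_mul_left, EE_mul_left, EE_const, ← hadef, ← hbdef]
    ring
  have h4 : ((1 + a) * c1 + (1 + b) * c2 + ((1 - a) * c3 + (1 - b) * c4)) / 8 = KK a b := by
    unfold KK
    rw [artanh_eq_logs ha, artanh_eq_logs hb, hc1, hc2, hc3, hc4]
    have e1 : (1 + a) ≠ 0 := by linarith [ha.1]
    have e2 : (1 + b) ≠ 0 := by linarith [hb.1]
    have e3 : (1 - a) ≠ 0 := by linarith [ha.2]
    have e4 : (1 - b) ≠ 0 := by linarith [hb.2]
    field_simp
    ring
  rw [← h4, ← h2]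
  exact h1

/-! ### hyperbolic coordinates -/

theorem two_cosh_pos (v : ℝ) : 0 < 2 * Real.cosh v := by
  have := Real.cosh_pos v; linarith

theorem tanh_mem (v : ℝ) : Real.tanh v ∈ Set.Ioo (-1 : ℝ) 1 :=
  ⟨Real.neg_one_lt_tanh v, Real.tanh_lt_one v⟩

theorem hh_tanh (v : ℝ) : hh (Real.tanh v) = Real.log (2 * Real.cosh v) - v * Real.tanh v := by
  have hc := Real.cosh_pos v
  have h1 : (1 + Real.tanh v) / 2 = Real.exp v / (2 * Real.cosh v) := by
    rw [Real.tanh_eq_sinh_div_cosh]
    field_simp
    rw [← Real.cosh_add_sinh v]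
  have h2 : 1 - (1 + Real.tanh v) / 2 = Real.exp (-v) / (2 * Real.cosh v) := by
    rw [Real.tanh_eq_sinh_div_cosh]
    field_simp
    rw [← Real.cosh_sub_sinh v]
    ring
  unfold hh Real.binEntropy
  rw [Real.log_inv, Real.log_inv, h2, h1]
  rw [Real.log_div (Real.exp_pos _).ne' (two_cosh_pos v).ne',
    Real.log_div (Real.exp_pos _).ne' (two_cosh_pos v).ne', Real.log_exp, Real.log_exp]
  have h3 : Real.tanh v = (Real.exp v - Real.exp (-v)) / (2 * Real.cosh v) := by
    rw [Real.tanh_eq_sinh_div_cosh, Real.sinh_eq]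
    field_simp
  have h4 : (Real.exp v + Real.exp (-v)) / (2 * Real.cosh v) = 1 := by
    rw [Real.cosh_eq]
    have : Real.exp v + Real.exp (-v) ≠ 0 := by positivity
    field_simp
  rw [h3]
  have h5 : Real.exp v / (2 * Real.cosh v) * -(v - Real.log (2 * Real.cosh v)) +
    Real.exp (-v) / (2 * Real.cosh v) * -(-v - Real.log (2 * Real.cosh v))
    = ((Real.exp v + Real.exp (-v)) / (2 * Real.cosh v)) * Real.log (2 * Real.cosh v)
      - v * ((Real.exp v - Real.exp (-v)) / (2 * Real.cosh v)) := by ring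
  rw [h5, h4, one_mul]

theorem key_log (k : ℝ) (hk : 0 ≤ k) :
    2 * k * Real.cosh (2 * k) ≤ Real.sinh (2 * k) * (2 * Real.log (2 * Real.cosh k)) := by
  set E := Real.exp (2 * k) with hE
  have hE1 : 2 * k + 1 ≤ E := Real.add_one_le_exp (2 * k)
  have hE0 : 0 < E := Real.exp_pos _
  have hcosh : Real.cosh (2 * k) = (E + 1 / E) / 2 := by
    rw [Real.cosh_eq, Real.exp_neg, ← hE, one_div]
  have hsinh : Real.sinh (2 * k) = (E - 1 / E) / 2 := by
    rw [Real.sinh_eq, Real.exp_neg, ← hE, one_div]
  have hlog : k + 1 / (E + 1) ≤ Real.log (2 * Real.cosh k) := by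
    have h1 : 2 * Real.cosh k = Real.exp k * (1 + 1 / E) := by
      rw [Real.cosh_eq, hE, one_div, ← Real.exp_neg, mul_add, mul_one, ← Real.exp_add]
      ring_nf
    have hpos : 0 < 1 + 1 / E := by positivity
    rw [h1, Real.log_mul (Real.exp_pos _).ne' hpos.ne', Real.log_exp]
    have h2 := Real.one_sub_inv_le_log_of_pos hpos
    have h3 : 1 - (1 + 1 / E)⁻¹ = 1 / (E + 1) := by field_simp; ring
    linarith
  have hs : 0 ≤ Real.sinh (2 * k) := by
    rw [hsinh]
    have : 1 / E ≤ 1 := by rw [div_le_one hE0]; linarith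
    linarith
  have h4 : Real.sinh (2 * k) * (2 * (k + 1 / (E + 1)))
      ≤ Real.sinh (2 * k) * (2 * Real.log (2 * Real.cosh k)) := by
    apply mul_le_mul_of_nonneg_left _ hs
    linarith
  refine le_trans ?_ h4
  rw [hsinh, hcosh]
  have h5 : (E - 1 / E) / 2 * (2 * (k + 1 / (E + 1))) - 2 * k * ((E + 1 / E) / 2)
      = (E - 1 - 2 * k) / E := by
    field_simp
    ring
  have h6 : 0 ≤ (E - 1 - 2 * k) / E := div_nonneg (by linarith) hE0.le
  linarith

/-- the auxiliary function in the variable `k` -/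
theorem aux_k (s k : ℝ) :
    (Real.cosh (2 * s) + 1) * Real.log (2 * (Real.cosh (2 * s) + 1)) / 2
      ≤ (Real.cosh (2 * s) + Real.cosh (2 * k)) * Real.log (2 * (Real.cosh (2 * s) + Real.cosh (2 * k))) / 2
        - k * Real.sinh (2 * k) := by
  wlog hk : 0 ≤ k with H
  · have := H s (-k) (by linarith)
    rw [show 2 * -k = -(2 * k) by ring, Real.cosh_neg, Real.sinh_neg] at this
    linarith
  set C := Real.cosh (2 * s) with hC
  have hC1 : 1 ≤ C := Real.one_le_cosh _
  set f : ℝ → ℝ := fun k => (C + Real.cosh (2 * k)) * Real.log (2 * (C + Real.cosh (2 * k))) / 2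
        - k * Real.sinh (2 * k) with hf
  have hd : ∀ t : ℝ, HasDerivAt f (Real.sinh (2 * t) * Real.log (2 * (C + Real.cosh (2 * t)))
      - 2 * t * Real.cosh (2 * t)) t := by
    intro t
    have hpos : 0 < 2 * (C + Real.cosh (2 * t)) := by
      have := Real.cosh_pos (2 * t); linarith
    have h2t : HasDerivAt (fun t : ℝ => 2 * t) 2 t := by
      simpa using (hasDerivAt_id t).const_mul (2:ℝ)
    have hcosh : HasDerivAt (fun t : ℝ => Real.cosh (2 * t)) (Real.sinh (2 * t) * 2) t :=
      (Real.hasDerivAt_cosh (2 * t)).comp t h2t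
    have hsinh : HasDerivAt (fun t : ℝ => Real.sinh (2 * t)) (Real.cosh (2 * t) * 2) t :=
      (Real.hasDerivAt_sinh (2 * t)).comp t h2t
    have h1 : HasDerivAt (fun t : ℝ => C + Real.cosh (2 * t)) (Real.sinh (2 * t) * 2) t :=
      hcosh.const_add C
    have h2 : HasDerivAt (fun t : ℝ => Real.log (2 * (C + Real.cosh (2 * t))))
        (2 * (Real.sinh (2 * t) * 2) / (2 * (C + Real.cosh (2 * t)))) t :=
      (h1.const_mul 2).log hpos.ne'
    have h3 := ((h1.mul h2).div_const 2).sub ((hasDerivAt_id t).mul hsinh)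
    have hpos2 : C + Real.cosh (2 * t) ≠ 0 := by linarith
    refine HasDerivAt.congr_deriv (f := f) h3 ?_
    have hid : (id t : ℝ) = t := rfl
    rw [hid]
    field_simp
    ring
  have hmono : MonotoneOn f (Set.Ici 0) := by
    apply monotoneOn_of_deriv_nonneg (convex_Ici 0)
    · exact fun t _ => (hd t).continuousAt.continuousWithinAt
    · exact fun t _ => (hd t).differentiableAt.differentiableWithinAt
    · intro t ht
      rw [interior_Ici] at ht
      rw [(hd t).deriv]
      have ht0 : 0 ≤ t := le_of_lt ht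
      have h1 := key_log t ht0
      have hs : 0 ≤ Real.sinh (2 * t) := Real.sinh_nonneg_iff.mpr (by linarith)
      have h2 : 2 * Real.log (2 * Real.cosh t) ≤ Real.log (2 * (C + Real.cosh (2 * t))) := by
        have h3 : 2 * Real.log (2 * Real.cosh t) = Real.log ((2 * Real.cosh t) ^ 2) := by
          rw [Real.log_pow]; norm_num
        rw [h3]
        apply Real.log_le_log (by have := Real.cosh_pos t; positivity)
        rw [Real.cosh_two_mul, Real.sinh_sq]
        nlinarith
      have h4 := mul_le_mul_of_nonneg_left h2 hs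
      linarith
  have h0 : f 0 ≤ f k := hmono (Set.self_mem_Ici) hk hk
  simp only [hf] at h0
  simpa using h0

/-- `h(tanh s) / tanh s`, the entropy of the optimal relaxed jump -/
noncomputable def AA (s : ℝ) : ℝ := Real.log (2 * Real.cosh s) * (Real.cosh s / Real.sinh s) - s

theorem AA_eq {s : ℝ} (hs : 0 < s) : AA s = hh (Real.tanh s) / Real.tanh s := by
  have h1 := Real.sinh_pos_iff.mpr hs
  have h2 := Real.cosh_pos s
  rw [hh_tanh, AA, Real.tanh_eq_sinh_div_cosh]
  field_simp

theorem AA_hasDerivAt {s : ℝ} (hs : 0 < s) :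
    HasDerivAt AA (-(Real.log (2 * Real.cosh s) / Real.sinh s ^ 2)) s := by
  have h1 := Real.sinh_pos_iff.mpr hs
  have h2 := Real.cosh_pos s
  have hc : HasDerivAt (fun s : ℝ => Real.log (2 * Real.cosh s))
      (2 * Real.sinh s / (2 * Real.cosh s)) s :=
    ((Real.hasDerivAt_cosh s).const_mul 2).log (by linarith : 2 * Real.cosh s ≠ 0)
  have hd : HasDerivAt (fun s : ℝ => Real.cosh s / Real.sinh s)
      ((Real.sinh s * Real.sinh s - Real.cosh s * Real.cosh s) / Real.sinh s ^ 2) s :=
    (Real.hasDerivAt_cosh s).div (Real.hasDerivAt_sinh s) h1.ne'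
  have h3 := (hc.mul hd).sub (hasDerivAt_id s)
  refine HasDerivAt.congr_deriv (f := AA) h3 ?_
  have h4 : Real.cosh s ^ 2 = Real.sinh s ^ 2 + 1 := Real.cosh_sq s
  have h5 : Real.sinh s * Real.sinh s - Real.cosh s * Real.cosh s = -1 := by nlinarith
  rw [h5]
  field_simp
  ring

theorem log_two_cosh_ge (s : ℝ) : 1 / 2 < Real.log (2 * Real.cosh s) := by
  have h1 : (2 : ℝ) ≤ 2 * Real.cosh s := by have := Real.one_le_cosh s; linarith
  have h2 := Real.log_le_log (by norm_num) h1
  have := Real.log_two_gt_d9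
  linarith

theorem lq_antitone : AntitoneOn (fun s => Real.log (2 * Real.cosh s) / Real.sinh s ^ 2)
    (Set.Ioi 0) := by
  apply antitoneOn_of_deriv_nonpos (convex_Ioi 0)
  · intro s hs
    have h1 := Real.sinh_pos_iff.mpr hs
    have hc : ContinuousAt (fun s : ℝ => Real.log (2 * Real.cosh s)) s :=
      (Real.continuous_cosh.continuousAt.const_mul 2).log (two_cosh_pos s).ne'
    exact (hc.div (Real.continuous_sinh.continuousAt.pow 2) (pow_pos h1 2).ne').continuousWithinAt
  · intro s hs
    rw [interior_Ioi] at hs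
    have h1 := Real.sinh_pos_iff.mpr hs
    have h2 := Real.cosh_pos s
    have hc : HasDerivAt (fun s : ℝ => Real.log (2 * Real.cosh s))
      (2 * Real.sinh s / (2 * Real.cosh s)) s :=
      ((Real.hasDerivAt_cosh s).const_mul 2).log (by linarith : 2 * Real.cosh s ≠ 0)
    exact (hc.div ((Real.hasDerivAt_sinh s).pow 2)
      (pow_pos h1 2).ne').differentiableAt.differentiableWithinAt
  · intro s hs
    rw [interior_Ioi] at hs
    have h1 := Real.sinh_pos_iff.mpr hs
    have h2 := Real.cosh_pos s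
    have hc : HasDerivAt (fun s : ℝ => Real.log (2 * Real.cosh s))
      (2 * Real.sinh s / (2 * Real.cosh s)) s :=
      ((Real.hasDerivAt_cosh s).const_mul 2).log (by linarith : 2 * Real.cosh s ≠ 0)
    have h3 : HasDerivAt (fun s => Real.log (2 * Real.cosh s) / Real.sinh s ^ 2) _ s :=
      hc.div ((Real.hasDerivAt_sinh s).pow 2) (pow_pos h1 2).ne'
    rw [h3.deriv]
    apply div_nonpos_of_nonpos_of_nonneg _ (by positivity)
    have h4 := log_two_cosh_ge s
    have h5 : Real.sinh s ^ 2 ≤ Real.cosh s ^ 2 := by rw [Real.cosh_sq]; linarith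
    have h6 : 2 * Real.sinh s / (2 * Real.cosh s) * Real.sinh s ^ 2
        - Real.log (2 * Real.cosh s) * (((2 : ℕ) : ℝ) * Real.sinh s ^ (2 - 1) * Real.cosh s)
        = (Real.sinh s / Real.cosh s) * (Real.sinh s ^ 2
          - 2 * Real.log (2 * Real.cosh s) * Real.cosh s ^ 2) := by
      norm_num
      field_simp
    rw [h6]
    apply mul_nonpos_of_nonneg_of_nonpos (by positivity)
    nlinarith

/-- tangent line inequality for the convex function `AA` -/
theorem AA_tangent {s t : ℝ} (hs : 0 < s) (ht : 0 < t) :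
    AA t - (Real.log (2 * Real.cosh t) / Real.sinh t ^ 2) * (s - t) ≤ AA s := by
  set c := Real.log (2 * Real.cosh t) / Real.sinh t ^ 2 with hc
  have hd : ∀ r : ℝ, 0 < r → HasDerivAt (fun r => AA r + c * r)
      (-(Real.log (2 * Real.cosh r) / Real.sinh r ^ 2) + c) r := by
    intro r hr
    have h1 := (AA_hasDerivAt hr).add ((hasDerivAt_id r).const_mul c)
    refine HasDerivAt.congr_deriv (f := fun r => AA r + c * r) h1 ?_
    ring
  have key : AA t + c * t ≤ AA s + c * s := by
    rcases le_total s t with hst | hst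
    · have : AntitoneOn (fun r => AA r + c * r) (Set.Icc s t) := by
        apply antitoneOn_of_deriv_nonpos (convex_Icc s t)
        · intro r hr
          exact (hd r (by linarith [hr.1])).continuousAt.continuousWithinAt
        · intro r hr
          rw [interior_Icc] at hr
          exact (hd r (by linarith [hr.1])).differentiableAt.differentiableWithinAt
        · intro r hr
          rw [interior_Icc] at hr
          rw [(hd r (by linarith [hr.1])).deriv]
          have := lq_antitone (a := r) (b := t) (by show 0 < r; linarith [hr.1]) ht hr.2.le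
          simp only at this
          linarith
      exact this ⟨le_refl _, hst⟩ ⟨hst, le_refl _⟩ hst
    · have : MonotoneOn (fun r => AA r + c * r) (Set.Icc t s) := by
        apply monotoneOn_of_deriv_nonneg (convex_Icc t s)
        · intro r hr
          exact (hd r (by linarith [hr.1])).continuousAt.continuousWithinAt
        · intro r hr
          rw [interior_Icc] at hr
          exact (hd r (by linarith [hr.1])).differentiableAt.differentiableWithinAt
        · intro r hr
          rw [interior_Icc] at hr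
          rw [(hd r (by linarith [hr.1])).deriv]
          have := lq_antitone (a := t) (b := r) ht (by show 0 < r; linarith [hr.1]) hr.1.le
          simp only at this
          linarith
      exact this ⟨le_refl _, hst⟩ ⟨hst, le_refl _⟩ hst
  linarith

/-- coefficients of the supporting planes of the relaxed jump cost -/
noncomputable def qq (t : ℝ) : ℝ := Real.sinh t ^ 2 / Real.log (2 * Real.cosh t)

noncomputable def pp (t : ℝ) : ℝ := t + qq t * AA t

theorem qq_pos {t : ℝ} (ht : 0 < t) : 0 < qq t := by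
  have h1 := Real.sinh_pos_iff.mpr ht
  have h2 := log_two_cosh_ge t
  unfold qq
  apply div_pos (by positivity)
  linarith

theorem tanh_pos' {t : ℝ} (ht : 0 < t) : 0 < Real.tanh t := by
  rw [Real.tanh_eq_sinh_div_cosh]
  exact div_pos (Real.sinh_pos_iff.mpr ht) (Real.cosh_pos t)

theorem AA_pos {t : ℝ} (ht : 0 < t) : 0 < AA t := by
  rw [AA_eq ht]
  exact div_pos (hh_pos (tanh_mem t)) (tanh_pos' ht)

theorem pp_pos {t : ℝ} (ht : 0 < t) : 0 < pp t := by
  unfold pp
  have := mul_pos (qq_pos ht) (AA_pos ht)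
  linarith

/-- values at hyperbolic coordinates `x = tanh (k + s)`, `y = tanh (k - s)` -/
theorem pair_values (s k : ℝ) :
    (Real.tanh (k + s) - Real.tanh (k - s)) / 2
        = Real.sinh (2 * s) / (Real.cosh (2 * s) + Real.cosh (2 * k)) ∧
    (hh (Real.tanh (k + s)) + hh (Real.tanh (k - s))) / 2
        = Real.log (2 * (Real.cosh (2 * s) + Real.cosh (2 * k))) / 2
          - (s * Real.sinh (2 * s) + k * Real.sinh (2 * k))
            / (Real.cosh (2 * s) + Real.cosh (2 * k)) := by
  have hc1 := Real.cosh_pos (k + s)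
  have hc2 := Real.cosh_pos (k - s)
  have hprod : 2 * (Real.cosh (k + s) * Real.cosh (k - s)) = Real.cosh (2 * s) + Real.cosh (2 * k) := by
    have h1 : Real.cosh (2 * k) = Real.cosh ((k + s) + (k - s)) := by ring_nf
    have h2 : Real.cosh (2 * s) = Real.cosh ((k + s) - (k - s)) := by ring_nf
    rw [h1, h2, Real.cosh_add (k + s) (k - s), Real.cosh_sub (k + s) (k - s)]
    ring
  have hs2 : Real.sinh (2 * s) = Real.sinh (k + s) * Real.cosh (k - s)
      - Real.cosh (k + s) * Real.sinh (k - s) := by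
    rw [← Real.sinh_sub]; ring_nf
  have hk2 : Real.sinh (2 * k) = Real.sinh (k + s) * Real.cosh (k - s)
      + Real.cosh (k + s) * Real.sinh (k - s) := by
    rw [← Real.sinh_add]; ring_nf
  constructor
  · rw [← hprod, hs2, Real.tanh_eq_sinh_div_cosh, Real.tanh_eq_sinh_div_cosh]
    field_simp
  · rw [hh_tanh, hh_tanh]
    have hlog : Real.log (2 * Real.cosh (k + s)) + Real.log (2 * Real.cosh (k - s))
        = Real.log (2 * (Real.cosh (2 * s) + Real.cosh (2 * k))) := by
      rw [← Real.log_mul (two_cosh_pos _).ne' (two_cosh_pos _).ne', ← hprod]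
      congr 1; ring
    have hrest : ((k + s) * Real.tanh (k + s) + (k - s) * Real.tanh (k - s)) / 2
        = (s * Real.sinh (2 * s) + k * Real.sinh (2 * k))
            / (Real.cosh (2 * s) + Real.cosh (2 * k)) := by
      rw [← hprod, hs2, hk2, Real.tanh_eq_sinh_div_cosh, Real.tanh_eq_sinh_div_cosh]
      field_simp
      ring
    rw [← hrest, ← hlog]
    ring

/-- L2, pointwise. -/
theorem KK_ge_lin {t : ℝ} (ht : 0 < t) {x y : ℝ} (hx : x ∈ Set.Ioo (-1 : ℝ) 1)
    (hy : y ∈ Set.Ioo (-1 : ℝ) 1) :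
    pp t * ((x - y) / 2) - qq t * ((hh x + hh y) / 2) ≤ KK x y := by
  have hhpos : 0 < (hh x + hh y) / 2 := by
    have := hh_pos hx; have := hh_pos hy; linarith
  rcases le_or_gt x y with hxy | hxy
  · have h1 : 0 ≤ KK x y := by
      unfold KK
      have := Real.artanh_le_artanh hx.1 hy.2 hxy
      nlinarith
    have h2 : pp t * ((x - y) / 2) ≤ 0 :=
      mul_nonpos_of_nonneg_of_nonpos (pp_pos ht).le (by linarith)
    have h3 : 0 < qq t * ((hh x + hh y) / 2) := mul_pos (qq_pos ht) hhpos
    linarith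
  · set s := (Real.artanh x - Real.artanh y) / 2 with hs
    set k := (Real.artanh x + Real.artanh y) / 2 with hk
    have hs0 : 0 < s := by
      have := Real.artanh_lt_artanh hy.1 hx.2 hxy
      rw [hs]; linarith
    have hxs : x = Real.tanh (k + s) := by
      rw [show k + s = Real.artanh x by rw [hs, hk]; ring, Real.tanh_artanh hx]
    have hys : y = Real.tanh (k - s) := by
      rw [show k - s = Real.artanh y by rw [hs, hk]; ring, Real.tanh_artanh hy]
    obtain ⟨hv1, hv2⟩ := pair_values s k
    have hC : 0 < Real.cosh (2 * s) + Real.cosh (2 * k) := by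
      have := Real.cosh_pos (2 * s); have := Real.cosh_pos (2 * k); linarith
    set S := Real.cosh (2 * s) + Real.cosh (2 * k) with hS
    have hδ : (x - y) / 2 = Real.sinh (2 * s) / S := by rw [← hv1, ← hxs, ← hys]
    have hη : (hh x + hh y) / 2 = Real.log (2 * S) / 2
        - (s * Real.sinh (2 * s) + k * Real.sinh (2 * k)) / S := by
      rw [← hv2, ← hxs, ← hys]
    have hK : KK x y = s * ((x - y) / 2) := by
      unfold KK; rw [hs]; ring
    have hδpos : 0 < (x - y) / 2 := by linarith
    -- the average entropy is at least `δ * AA s`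
    have hmain : ((x - y) / 2) * AA s ≤ (hh x + hh y) / 2 := by
      rw [hδ, hη]
      have haux := aux_k s k
      have hsh := Real.sinh_pos_iff.mpr hs0
      have hsinh2 : Real.sinh (2 * s) * (Real.cosh s / Real.sinh s) = Real.cosh (2 * s) + 1 := by
        rw [Real.sinh_two_mul, Real.cosh_two_mul, Real.sinh_sq]
        field_simp
        ring
      have hlog2 : Real.log (2 * Real.cosh s) = Real.log (2 * (Real.cosh (2 * s) + 1)) / 2 := by
        have h3 : 2 * (Real.cosh (2 * s) + 1) = (2 * Real.cosh s) ^ 2 := by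
          rw [Real.cosh_two_mul, Real.sinh_sq]; ring
        rw [h3, Real.log_pow]; norm_num
      have e1 : Real.sinh (2 * s) / S * AA s
          = ((Real.cosh (2 * s) + 1) * Real.log (2 * (Real.cosh (2 * s) + 1)) / 2
            - s * Real.sinh (2 * s)) / S := by
        unfold AA
        rw [hlog2, ← hsinh2]
        ring
      have e2 : Real.log (2 * S) / 2
        - (s * Real.sinh (2 * s) + k * Real.sinh (2 * k)) / S
          = (S * Real.log (2 * S) / 2 - k * Real.sinh (2 * k) - s * Real.sinh (2 * s)) / S := by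
        field_simp
        ring
      rw [e1, e2]
      apply div_le_div_of_nonneg_right _ hC.le
      linarith
    have htan := AA_tangent hs0 ht
    have hq := qq_pos ht
    have hlt := log_two_cosh_ge t
    have hsht := Real.sinh_pos_iff.mpr ht
    have hqc : qq t * (Real.log (2 * Real.cosh t) / Real.sinh t ^ 2) = 1 := by
      unfold qq
      have : Real.log (2 * Real.cosh t) ≠ 0 := by linarith
      field_simp
    have h1 : qq t * (((x - y) / 2) * AA s) ≤ qq t * ((hh x + hh y) / 2) :=
      mul_le_mul_of_nonneg_left hmain hq.le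
    have h2 : qq t * (AA t - (Real.log (2 * Real.cosh t) / Real.sinh t ^ 2) * (s - t))
        ≤ qq t * AA s := mul_le_mul_of_nonneg_left htan hq.le
    have h3 : qq t * (AA t - (Real.log (2 * Real.cosh t) / Real.sinh t ^ 2) * (s - t))
        = qq t * AA t - (s - t) := by
      rw [mul_sub, ← mul_assoc, hqc, one_mul]
    rw [h3] at h2
    have h4 := mul_le_mul_of_nonneg_left h2 hδpos.le
    rw [hK]
    unfold pp
    nlinarith

/-- L2, in expectation. -/
theorem EE_KK_ge_lin {n : ℕ} {t : ℝ} (ht : 0 < t) (u v : (Fin n → Bool) → ℝ)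
    (hu : ∀ x, u x ∈ Set.Ioo (-1 : ℝ) 1) (hv : ∀ x, v x ∈ Set.Ioo (-1 : ℝ) 1) :
    pp t * ((EE u - EE v) / 2) - qq t * ((EE (fun x => hh (u x)) + EE (fun x => hh (v x))) / 2)
      ≤ EE (fun x => KK (u x) (v x)) := by
  have h1 : EE (fun x => pp t * ((u x - v x) / 2) - qq t * ((hh (u x) + hh (v x)) / 2))
      ≤ EE (fun x => KK (u x) (v x)) := EE_mono (fun x => KK_ge_lin ht (hu x) (hv x))
  have h2 : (fun x => pp t * ((u x - v x) / 2) - qq t * ((hh (u x) + hh (v x)) / 2))
      = fun x => (pp t / 2 * u x + (-(pp t / 2)) * v x)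
        + ((-(qq t / 2)) * hh (u x) + (-(qq t / 2)) * hh (v x)) := by
    funext x; ring
  rw [h2, EE_add, EE_add, EE_add, EE_mul_left, EE_mul_left, EE_mul_left, EE_mul_left] at h1
  linarith

end Vale.Agent.P322
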