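import Mathlib
import Vale.Agent.Lib.P322.Cost

/-!
Courtade-Kumar: definitions of the calculus objects.
`ph = log 2 - h`, `xi = ph⁻¹` on `[0, log 2)` (and `0` for nonpositive arguments),
`RR J = Ψ(J) - 2J` (`0` for nonpositive `J`), `Psi J = 2J + RR J`, the slope `mu (xi J)` of `RR`.
-/

namespace Vale.Agent.P322

open Finset

/-- `φ = log 2 - h` -/
noncomputable def ph (x : ℝ) : ℝ := Real.log 2 - hh x

/-- `k(x) = x artanh x` -/
noncomputable def kk (x : ℝ) : ℝ := x * Real.artanh x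

/-- the inverse of `ph` on `[0, log 2)`, zero for nonpositive arguments -/
noncomputable def xi (J : ℝ) : ℝ :=
  if h : 0 < J ∧ J < Real.log 2 then
    (exists_hh_eq (T := Real.log 2 - J) (by linarith [h.2]) (by linarith [h.1])).choose else 0

/-- `μ(x) = x / ((1 - x²) artanh x) - 1`, the slope of `R` at `φ(x)` -/
noncomputable def mu (x : ℝ) : ℝ := if x = 0 then 0 else x / ((1 - x ^ 2) * Real.artanh x) - 1

/-- second derivative of `R` at `φ(x)` -/
noncomputable def Rdd (x : ℝ) : ℝ :=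
  ((1 + x ^ 2) * Real.artanh x - x) / ((1 - x ^ 2) ^ 2 * Real.artanh x ^ 3)

/-- `R(J) = Ψ(J) - 2J` for `0 ≤ J < log 2`, zero for `J ≤ 0` -/
noncomputable def RR (J : ℝ) : ℝ := kk (xi J) - 2 * ph (xi J)

/-- `R'(J)` -/
noncomputable def RR' (J : ℝ) : ℝ := mu (xi J)

/-- `Ψ(J) = 2J + R(J)` -/
noncomputable def Psi (J : ℝ) : ℝ := 2 * J + RR J

/-- `Ψ'(J)` -/
noncomputable def Psi' (J : ℝ) : ℝ := 2 + RR' J

/-- `Ψ` up to `J1`, affine beyond -/
noncomputable def Psi1 (J1 J : ℝ) : ℝ := if J ≤ J1 then Psi J else Psi J1 + Psi' J1 * (J - J1)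

/-- derivative of `Psi1 J1` -/
noncomputable def Psi1' (J1 J : ℝ) : ℝ := Psi' (min J J1)

/-- `ϱ(t) = R(log 2 - t) + t R'(log 2 - t)` -/
noncomputable def rhoR (t : ℝ) : ℝ := RR (Real.log 2 - t) + t * RR' (Real.log 2 - t)

/-- the perspective `P(s,T) = s R(log 2 - T/s)` -/
noncomputable def PP (s T : ℝ) : ℝ := s * RR (Real.log 2 - T / s)

end Vale.Agent.P322
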