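import Mathlib
import Vale.Agent.Lib.P322.CalcDefs

/-!
Courtade-Kumar: calculus of `Ψ` and `R`.
-/

namespace Vale.Agent.P322

open Finset

theorem log_two_pos' : 0 < Real.log 2 := Real.log_pos (by norm_num)

/-! ### artanh -/

theorem artanh_hasDerivAt {x : ℝ} (hx : x ∈ Set.Ioo (-1 : ℝ) 1) :
    HasDerivAt Real.artanh (1 / (1 - x ^ 2)) x := by
  have h1 : 0 < 1 + x := by linarith [hx.1]
  have h2 : 0 < 1 - x := by linarith [hx.2]
  have h : HasDerivAt (fun y : ℝ => (Real.log (1 + y) - Real.log (1 - y)) / 2)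
      ((1 / (1 + x) - (-1) / (1 - x)) / 2) x := by
    have a := ((hasDerivAt_id x).const_add 1).log h1.ne'
    have b := ((hasDerivAt_id x).const_sub 1).log h2.ne'
    exact (a.sub b).div_const 2
  have he : Real.artanh =ᶠ[nhds x] (fun y : ℝ => (Real.log (1 + y) - Real.log (1 - y)) / 2) := by
    filter_upwards [Ioo_mem_nhds hx.1 hx.2] with y hy
    exact artanh_eq_logs hy
  have h3 := h.congr_of_eventuallyEq he
  refine h3.congr_deriv ?_
  have : (1 - x ^ 2) = (1 + x) * (1 - x) := by ring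
  rw [this]
  field_simp
  ring

theorem self_le_artanh {x : ℝ} (h0 : 0 ≤ x) (h1 : x < 1) : x ≤ Real.artanh x := by
  rw [Real.artanh_eq_half_log ⟨by linarith, h1.le⟩]
  have := Real.sum_range_le_log_div h0 h1 1
  simp at this
  linarith

theorem artanh_continuousOn : ContinuousOn Real.artanh (Set.Ioo (-1 : ℝ) 1) :=
  fun _ hx => (artanh_hasDerivAt hx).continuousAt.continuousWithinAt

theorem artanh_pos' {x : ℝ} (h0 : 0 < x) (h1 : x < 1) : 0 < Real.artanh x :=
  Real.artanh_pos ⟨h0, h1⟩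

theorem one_sub_sq_pos {x : ℝ} (hx : x ∈ Set.Ioo (-1 : ℝ) 1) : 0 < 1 - x ^ 2 := by
  nlinarith [hx.1, hx.2]

/-- `artanh x ≤ x / (1 - x²)` for `0 ≤ x < 1` -/
theorem artanh_le_div {x : ℝ} (h0 : 0 ≤ x) (h1 : x < 1) : Real.artanh x ≤ x / (1 - x ^ 2) := by
  have hmono : MonotoneOn (fun y : ℝ => y / (1 - y ^ 2) - Real.artanh y) (Set.Ico 0 1) := by
    apply monotoneOn_of_deriv_nonneg (convex_Ico 0 1)
    · apply ContinuousOn.sub
      · apply ContinuousOn.div continuousOn_id (by fun_prop)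
        intro y hy
        exact (one_sub_sq_pos ⟨by linarith [hy.1], hy.2⟩).ne'
      · exact artanh_continuousOn.mono (fun y hy => ⟨by linarith [hy.1], hy.2⟩)
    · intro y hy
      rw [interior_Ico] at hy
      have hy' : y ∈ Set.Ioo (-1 : ℝ) 1 := ⟨by linarith [hy.1], hy.2⟩
      have hp := one_sub_sq_pos hy'
      have hd : DifferentiableAt ℝ (fun y : ℝ => y / (1 - y ^ 2)) y :=
        DifferentiableAt.fun_div differentiableAt_id (by fun_prop) hp.ne'
      exact (hd.sub (artanh_hasDerivAt hy').differentiableAt).differentiableWithinAt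
    · intro y hy
      rw [interior_Ico] at hy
      have hy' : y ∈ Set.Ioo (-1 : ℝ) 1 := ⟨by linarith [hy.1], hy.2⟩
      have hp := one_sub_sq_pos hy'
      have hd : HasDerivAt (fun y : ℝ => y / (1 - y ^ 2))
          ((1 * (1 - y ^ 2) - y * (-(2 * y))) / (1 - y ^ 2) ^ 2) y := by
        have h1 : HasDerivAt (fun y : ℝ => 1 - y ^ 2) (-(2 * y)) y := by
          have := (hasDerivAt_pow 2 y).const_sub 1
          simpa using this
        exact (hasDerivAt_id y).div h1 hp.ne'
      have := (hd.sub (artanh_hasDerivAt hy')).deriv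
      rw [show (fun y : ℝ => y / (1 - y ^ 2) - Real.artanh y) =
        (fun y : ℝ => y / (1 - y ^ 2)) - Real.artanh from rfl, this]
      have e : (1 * (1 - y ^ 2) - y * (-(2 * y))) / (1 - y ^ 2) ^ 2 - 1 / (1 - y ^ 2)
          = 2 * y ^ 2 / (1 - y ^ 2) ^ 2 := by
        field_simp
        ring
      rw [e]
      positivity
  have := hmono (show (0 : ℝ) ∈ Set.Ico (0:ℝ) 1 from ⟨le_refl _, one_pos⟩)
    (show x ∈ Set.Ico (0:ℝ) 1 from ⟨h0, h1⟩) h0
  simp only [Real.artanh_zero, zero_div, sub_zero] at this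
  linarith

/-! ### ph -/

theorem ph_zero : ph 0 = 0 := by unfold ph; rw [hh_zero, sub_self]

theorem ph_one : ph 1 = Real.log 2 := by unfold ph; rw [hh_one, sub_zero]

theorem ph_neg (x : ℝ) : ph (-x) = ph x := by unfold ph; rw [hh_neg]

theorem ph_nonneg (x : ℝ) : 0 ≤ ph x := by unfold ph; linarith [hh_le x]

theorem ph_continuous : Continuous ph := by
  unfold ph; exact continuous_const.sub hh_continuous

theorem ph_hasDerivAt {x : ℝ} (hx : x ∈ Set.Ioo (-1 : ℝ) 1) :
    HasDerivAt ph (Real.artanh x) x := by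
  have := (hh_hasDerivAt hx).const_sub (Real.log 2)
  rw [neg_neg] at this
  exact this

theorem ph_strictMonoOn : StrictMonoOn ph (Set.Icc 0 1) := by
  intro x hx y hy hxy
  unfold ph
  linarith [hh_strictAnti hx hy hxy]

theorem ph_lt {x : ℝ} (hx : x ∈ Set.Ioo (-1 : ℝ) 1) : ph x < Real.log 2 := by
  unfold ph; linarith [hh_pos hx]

theorem ph_pos {x : ℝ} (h0 : 0 < x) (h1 : x ≤ 1) : 0 < ph x := by
  rw [← ph_zero]
  exact ph_strictMonoOn ⟨le_refl _, zero_le_one⟩ ⟨h0.le, h1⟩ h0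

/-! ### xi -/

theorem xi_spec {J : ℝ} (h0 : 0 < J) (h1 : J < Real.log 2) :
    xi J ∈ Set.Ico (0 : ℝ) 1 ∧ ph (xi J) = J := by
  unfold xi
  rw [dif_pos ⟨h0, h1⟩]
  have h := (exists_hh_eq (T := Real.log 2 - J) (by linarith) (by linarith)).choose_spec
  refine ⟨h.1, ?_⟩
  unfold ph
  rw [h.2]; ring

theorem xi_of_nonpos {J : ℝ} (h : J ≤ 0) : xi J = 0 := by
  unfold xi
  rw [dif_neg (by rintro ⟨h1, _⟩; linarith)]

theorem xi_zero : xi 0 = 0 := xi_of_nonpos le_rfl

theorem xi_mem (J : ℝ) : xi J ∈ Set.Ico (0 : ℝ) 1 := by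
  by_cases h : 0 < J ∧ J < Real.log 2
  · exact (xi_spec h.1 h.2).1
  · unfold xi; rw [dif_neg h]; exact ⟨le_refl _, one_pos⟩

theorem xi_mem' (J : ℝ) : xi J ∈ Set.Ioo (-1 : ℝ) 1 :=
  ⟨by linarith [(xi_mem J).1], (xi_mem J).2⟩

theorem xi_mem_Icc (J : ℝ) : xi J ∈ Set.Icc (0 : ℝ) 1 :=
  ⟨(xi_mem J).1, (xi_mem J).2.le⟩

theorem ph_xi {J : ℝ} (h0 : 0 ≤ J) (h1 : J < Real.log 2) : ph (xi J) = J := by
  rcases h0.lt_or_eq with h | h
  · exact (xi_spec h h1).2
  · rw [← h, xi_zero, ph_zero]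

theorem ph_xi_max {J : ℝ} (h1 : J < Real.log 2) : ph (xi J) = max J 0 := by
  rcases le_total 0 J with h | h
  · rw [ph_xi h h1, max_eq_left h]
  · rw [xi_of_nonpos h, ph_zero, max_eq_right h]

theorem xi_ph {x : ℝ} (h0 : 0 ≤ x) (h1 : x < 1) : xi (ph x) = x := by
  have h := ph_xi (ph_nonneg x) (ph_lt ⟨by linarith, h1⟩)
  exact ph_strictMonoOn.injOn (xi_mem_Icc _) ⟨h0, h1.le⟩ h

theorem xi_pos {J : ℝ} (h0 : 0 < J) (h1 : J < Real.log 2) : 0 < xi J := by
  rcases (xi_mem J).1.lt_or_eq with h | h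
  · exact h
  · have := ph_xi h0.le h1
    rw [← h, ph_zero] at this
    linarith

theorem xi_strictMonoOn : StrictMonoOn xi (Set.Ico 0 (Real.log 2)) := by
  intro J hJ K hK hJK
  by_contra hc
  push Not at hc
  have := ph_strictMonoOn.monotoneOn (xi_mem_Icc K) (xi_mem_Icc J) hc
  rw [ph_xi hK.1 hK.2, ph_xi hJ.1 hJ.2] at this
  linarith

theorem xi_monotoneOn : MonotoneOn xi (Set.Iio (Real.log 2)) := by
  intro J hJ K hK hJK
  rcases le_total J 0 with h | h
  · rw [xi_of_nonpos h]; exact (xi_mem K).1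
  · exact xi_strictMonoOn.monotoneOn ⟨h, hJ⟩ ⟨le_trans h hJK, hK⟩ hJK

theorem xi_lt_iff {J x : ℝ} (hJ : J < Real.log 2) (h0 : 0 < x) (h1 : x ≤ 1) :
    xi J < x ↔ J < ph x := by
  constructor
  · intro h
    have := ph_strictMonoOn (xi_mem_Icc J) ⟨h0.le, h1⟩ h
    rw [ph_xi_max hJ] at this
    exact lt_of_le_of_lt (le_max_left _ _) this
  · intro h
    by_contra hc
    push Not at hc
    have := ph_strictMonoOn.monotoneOn ⟨h0.le, h1⟩ (xi_mem_Icc J) hc
    rw [ph_xi_max hJ] at this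
    have hp := ph_pos h0 h1
    rcases le_total J 0 with hJ0 | hJ0
    · rw [max_eq_right hJ0] at this; linarith
    · rw [max_eq_left hJ0] at this; linarith

theorem lt_xi_iff {J x : ℝ} (hJ : J < Real.log 2) (h0 : 0 ≤ x) (h1 : x < 1) :
    x < xi J ↔ ph x < J := by
  constructor
  · intro h
    have := ph_strictMonoOn ⟨h0, h1.le⟩ (xi_mem_Icc J) h
    rw [ph_xi_max hJ] at this
    rcases le_total J 0 with hJ0 | hJ0
    · rw [xi_of_nonpos hJ0] at h; linarith
    · rwa [max_eq_left hJ0] at this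
  · intro h
    by_contra hc
    push Not at hc
    have := ph_strictMonoOn.monotoneOn (xi_mem_Icc J) ⟨h0, h1.le⟩ hc
    rw [ph_xi_max hJ] at this
    linarith [le_max_left J 0]

theorem xi_continuousAt {J : ℝ} (hJ : J < Real.log 2) : ContinuousAt xi J := by
  rw [ContinuousAt, tendsto_order]
  have hmem : ∀ᶠ K in nhds J, K < Real.log 2 := gt_mem_nhds hJ
  constructor
  · intro a ha
    rcases lt_or_ge a 0 with h | h
    · exact Filter.Eventually.of_forall (fun K => lt_of_lt_of_le h (xi_mem K).1)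
    · have h1 : a < 1 := lt_trans ha (xi_mem J).2
      rw [lt_xi_iff hJ h h1] at ha
      filter_upwards [hmem, lt_mem_nhds ha] with K hK hK2
      exact (lt_xi_iff hK h h1).2 hK2
  · intro a ha
    have h0 : 0 < a := lt_of_le_of_lt (xi_mem J).1 ha
    rcases le_or_gt a 1 with h | h
    · have ha' := (xi_lt_iff hJ h0 h).1 ha
      filter_upwards [hmem, gt_mem_nhds ha'] with K hK hK2
      exact (xi_lt_iff hK h0 h).2 hK2
    · exact Filter.Eventually.of_forall (fun K => lt_trans (xi_mem K).2 h)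

theorem xi_continuousOn : ContinuousOn xi (Set.Iio (Real.log 2)) :=
  fun _ hJ => (xi_continuousAt hJ).continuousWithinAt

theorem xi_hasDerivAt {J : ℝ} (h0 : 0 < J) (h1 : J < Real.log 2) :
    HasDerivAt xi (Real.artanh (xi J))⁻¹ J := by
  have hx := xi_pos h0 h1
  apply HasDerivAt.of_local_left_inverse (f := ph) (xi_continuousAt h1) (ph_hasDerivAt (xi_mem' J))
    (artanh_pos' hx (xi_mem J).2).ne'
  filter_upwards [Ioo_mem_nhds h0 h1] with K hK
  exact ph_xi hK.1.le hK.2

/-! ### kk, mu -/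

theorem kk_zero : kk 0 = 0 := by unfold kk; simp

theorem kk_hasDerivAt {x : ℝ} (hx : x ∈ Set.Ioo (-1 : ℝ) 1) :
    HasDerivAt kk (Real.artanh x + x / (1 - x ^ 2)) x := by
  have := (hasDerivAt_id x).mul (artanh_hasDerivAt hx)
  refine this.congr_deriv ?_
  simp only [id_eq]
  ring

theorem mu_zero : mu 0 = 0 := by unfold mu; simp

theorem mu_of_ne {x : ℝ} (hx : x ≠ 0) : mu x = x / ((1 - x ^ 2) * Real.artanh x) - 1 := by
  unfold mu; rw [if_neg hx]

theorem mu_nonneg {x : ℝ} (h0 : 0 ≤ x) (h1 : x < 1) : 0 ≤ mu x := by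
  rcases h0.lt_or_eq with h | h
  · rw [mu_of_ne h.ne']
    have hp := one_sub_sq_pos (x := x) ⟨by linarith, h1⟩
    have ha := artanh_pos' h h1
    have := artanh_le_div h0 h1
    rw [sub_nonneg, le_div_iff₀ (by positivity), one_mul]
    rw [le_div_iff₀ hp] at this
    linarith
  · rw [← h, mu_zero]

/-- `(1 + x²) artanh x ≥ x` -/
theorem Rdd_num_pos {x : ℝ} (h0 : 0 < x) (h1 : x < 1) : 0 < (1 + x ^ 2) * Real.artanh x - x := by
  have ha := artanh_pos' h0 h1
  have := self_le_artanh h0.le h1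
  nlinarith [mul_pos (pow_pos h0 2) ha]

theorem mu_hasDerivAt {x : ℝ} (h0 : 0 < x) (h1 : x < 1) :
    HasDerivAt mu (((1 + x ^ 2) * Real.artanh x - x) / ((1 - x ^ 2) ^ 2 * Real.artanh x ^ 2)) x := by
  have hx : x ∈ Set.Ioo (-1 : ℝ) 1 := ⟨by linarith, h1⟩
  have hp := one_sub_sq_pos hx
  have ha := artanh_pos' h0 h1
  have hd : HasDerivAt (fun y : ℝ => (1 - y ^ 2) * Real.artanh y)
      ((-(2 * x)) * Real.artanh x + (1 - x ^ 2) * (1 / (1 - x ^ 2))) x := by
    have h1 : HasDerivAt (fun y : ℝ => 1 - y ^ 2) (-(2 * x)) x := by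
      have := (hasDerivAt_pow 2 x).const_sub 1
      simpa using this
    exact h1.mul (artanh_hasDerivAt hx)
  have h := ((hasDerivAt_id x).div hd (by positivity)).sub_const 1
  have he : mu =ᶠ[nhds x] (fun y : ℝ => y / ((1 - y ^ 2) * Real.artanh y) - 1) := by
    filter_upwards [lt_mem_nhds h0] with y hy
    exact mu_of_ne (ne_of_gt hy)
  have h3 := h.congr_of_eventuallyEq he
  refine h3.congr_deriv ?_
  simp only [id_eq]
  field_simp
  ring

theorem mu_le_sq {x : ℝ} (h0 : 0 ≤ x) (h1 : x < 1) : mu x ≤ x ^ 2 / (1 - x ^ 2) := by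
  rcases h0.lt_or_eq with h | h
  · rw [mu_of_ne h.ne']
    have hp := one_sub_sq_pos (x := x) ⟨by linarith, h1⟩
    have ha := artanh_pos' h h1
    have h2 := self_le_artanh h0 h1
    have : x / ((1 - x ^ 2) * Real.artanh x) ≤ 1 / (1 - x ^ 2) := by
      rw [div_le_div_iff₀ (by positivity) hp]
      nlinarith
    calc _ ≤ 1 / (1 - x ^ 2) - 1 := by linarith
      _ = x ^ 2 / (1 - x ^ 2) := by field_simp; ring
  · rw [← h, mu_zero]; norm_num

theorem mu_continuousOn : ContinuousOn mu (Set.Ico 0 1) := by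
  intro x hx
  rcases hx.1.lt_or_eq with h | h
  · exact (mu_hasDerivAt h hx.2).continuousAt.continuousWithinAt
  · rw [← h]
    rw [ContinuousWithinAt, mu_zero]
    have h1 : Filter.Tendsto (fun x : ℝ => x ^ 2 / (1 - x ^ 2)) (nhdsWithin 0 (Set.Ico 0 1))
        (nhds 0) := by
      have : ContinuousAt (fun x : ℝ => x ^ 2 / (1 - x ^ 2)) 0 := by
        apply ContinuousAt.div (by fun_prop) (by fun_prop) (by norm_num)
      have h2 := this.tendsto
      simp only [ne_eq, OfNat.ofNat_ne_zero, not_false_eq_true, zero_pow, sub_zero, div_one] at h2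
      exact h2.mono_left nhdsWithin_le_nhds
    refine tendsto_of_tendsto_of_tendsto_of_le_of_le' tendsto_const_nhds h1 ?_ ?_
    · filter_upwards [self_mem_nhdsWithin] with y hy
      exact mu_nonneg hy.1 hy.2
    · filter_upwards [self_mem_nhdsWithin] with y hy
      exact mu_le_sq hy.1 hy.2

theorem mu_strictMonoOn : StrictMonoOn mu (Set.Ico 0 1) := by
  apply strictMonoOn_of_deriv_pos (convex_Ico 0 1) mu_continuousOn
  intro x hx
  rw [interior_Ico] at hx
  rw [(mu_hasDerivAt hx.1 hx.2).deriv]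
  have hp := one_sub_sq_pos (x := x) ⟨by linarith [hx.1], hx.2⟩
  have ha := artanh_pos' hx.1 hx.2
  have := Rdd_num_pos hx.1 hx.2
  positivity

theorem Rdd_pos {x : ℝ} (h0 : 0 < x) (h1 : x < 1) : 0 < Rdd x := by
  unfold Rdd
  have hp := one_sub_sq_pos (x := x) ⟨by linarith, h1⟩
  have ha := artanh_pos' h0 h1
  have := Rdd_num_pos h0 h1
  positivity

/-! ### RR -/

theorem RR_of_nonpos {J : ℝ} (h : J ≤ 0) : RR J = 0 := by
  unfold RR; rw [xi_of_nonpos h, kk_zero, ph_zero]; ring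

theorem RR'_of_nonpos {J : ℝ} (h : J ≤ 0) : RR' J = 0 := by
  unfold RR'; rw [xi_of_nonpos h, mu_zero]

theorem RR'_nonneg (J : ℝ) : 0 ≤ RR' J := mu_nonneg (xi_mem J).1 (xi_mem J).2

theorem RR'_continuousOn : ContinuousOn RR' (Set.Iio (Real.log 2)) :=
  mu_continuousOn.comp xi_continuousOn (fun J _ => xi_mem J)

theorem RR'_continuousAt {J : ℝ} (hJ : J < Real.log 2) : ContinuousAt RR' J :=
  RR'_continuousOn.continuousAt (Iio_mem_nhds hJ)

theorem RR'_monotoneOn : MonotoneOn RR' (Set.Iio (Real.log 2)) := by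
  intro J hJ K hK hJK
  exact mu_strictMonoOn.monotoneOn (xi_mem J) (xi_mem K) (xi_monotoneOn hJ hK hJK)

theorem RR'_strictMonoOn : StrictMonoOn RR' (Set.Ico 0 (Real.log 2)) := by
  intro J hJ K hK hJK
  exact mu_strictMonoOn (xi_mem J) (xi_mem K) (xi_strictMonoOn hJ hK hJK)

theorem RR'_hasDerivAt {J : ℝ} (h0 : 0 < J) (h1 : J < Real.log 2) :
    HasDerivAt RR' (Rdd (xi J)) J := by
  have hx := xi_pos h0 h1
  have hx1 := (xi_mem J).2
  have h := (mu_hasDerivAt hx hx1).comp J (xi_hasDerivAt h0 h1)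
  have e : (((1 + xi J ^ 2) * Real.artanh (xi J) - xi J) /
      ((1 - xi J ^ 2) ^ 2 * Real.artanh (xi J) ^ 2)) * (Real.artanh (xi J))⁻¹ = Rdd (xi J) := by
    unfold Rdd
    rw [← div_eq_mul_inv, div_div]
    congr 1
    ring
  rw [e] at h
  exact h

theorem RR_continuousOn : ContinuousOn RR (Set.Iio (Real.log 2)) := by
  have h1 : ContinuousOn kk (Set.Ioo (-1 : ℝ) 1) :=
    fun x hx => (kk_hasDerivAt hx).continuousAt.continuousWithinAt
  exact (h1.comp xi_continuousOn (fun J _ => xi_mem' J)).sub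
    (continuousOn_const.mul (ph_continuous.comp_continuousOn xi_continuousOn))

theorem RR_hasDerivAt_pos {J : ℝ} (h0 : 0 < J) (h1 : J < Real.log 2) :
    HasDerivAt RR (RR' J) J := by
  have hx := xi_pos h0 h1
  have hx1 := (xi_mem J).2
  have hp := one_sub_sq_pos (xi_mem' J)
  have ha := artanh_pos' hx hx1
  have h := ((kk_hasDerivAt (xi_mem' J)).sub ((ph_hasDerivAt (xi_mem' J)).const_mul 2)).comp J
    (xi_hasDerivAt h0 h1)
  have e : (Real.artanh (xi J) + xi J / (1 - xi J ^ 2) - 2 * Real.artanh (xi J)) *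
      (Real.artanh (xi J))⁻¹ = RR' J := by
    unfold RR'
    rw [mu_of_ne hx.ne']
    field_simp
    ring
  rw [e] at h
  exact h

theorem RR_hasDerivAt {J : ℝ} (h1 : J < Real.log 2) : HasDerivAt RR (RR' J) J := by
  rcases lt_trichotomy 0 J with h | h | h
  · exact RR_hasDerivAt_pos h h1
  · subst h
    have hc : ContinuousAt RR 0 := RR_continuousOn.continuousAt (Iio_mem_nhds h1)
    have hr : HasDerivWithinAt RR 0 (Set.Ici 0) 0 := by
      apply hasDerivWithinAt_Ici_of_tendsto_deriv (s := Set.Ioo 0 (Real.log 2))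
      · intro J hJ
        exact (RR_hasDerivAt_pos hJ.1 hJ.2).differentiableAt.differentiableWithinAt
      · exact hc.continuousWithinAt
      · exact Ioo_mem_nhdsGT h1
      · have h2 : Filter.Tendsto RR' (nhdsWithin 0 (Set.Ioi 0)) (nhds 0) := by
          have := (RR'_continuousAt h1).tendsto
          rw [RR'_of_nonpos le_rfl] at this
          exact this.mono_left nhdsWithin_le_nhds
        refine h2.congr' ?_
        filter_upwards [Ioo_mem_nhdsGT h1] with J hJ
        exact (RR_hasDerivAt_pos hJ.1 hJ.2).deriv.symm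
    have hl : HasDerivWithinAt RR 0 (Set.Iic 0) 0 := by
      apply (hasDerivWithinAt_const (0:ℝ) (Set.Iic 0) (0:ℝ)).congr
      · intro J hJ; exact RR_of_nonpos hJ
      · exact RR_of_nonpos le_rfl
    rw [RR'_of_nonpos le_rfl]
    have := hl.union hr
    rw [Set.Iic_union_Ici, hasDerivWithinAt_univ] at this
    exact this
  · have he : RR =ᶠ[nhds J] (fun _ => (0:ℝ)) := by
      filter_upwards [gt_mem_nhds h] with K hK
      exact RR_of_nonpos (le_of_lt hK)
    rw [RR'_of_nonpos h.le]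
    exact (hasDerivAt_const J (0:ℝ)).congr_of_eventuallyEq he

theorem RR_monotoneOn : MonotoneOn RR (Set.Iio (Real.log 2)) := by
  apply monotoneOn_of_deriv_nonneg (convex_Iio _) RR_continuousOn
  · intro J hJ
    rw [interior_Iio] at hJ
    exact (RR_hasDerivAt hJ).differentiableAt.differentiableWithinAt
  · intro J hJ
    rw [interior_Iio] at hJ
    rw [(RR_hasDerivAt hJ).deriv]
    exact RR'_nonneg J

theorem RR_nonneg {J : ℝ} (h1 : J < Real.log 2) : 0 ≤ RR J := by
  rcases le_total J 0 with h | h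
  · rw [RR_of_nonpos h]
  · have := RR_monotoneOn (show (0:ℝ) ∈ Set.Iio (Real.log 2) from log_two_pos') h1 h
    rwa [RR_of_nonpos le_rfl] at this

theorem RR_convexOn : ConvexOn ℝ (Set.Iio (Real.log 2)) RR := by
  apply MonotoneOn.convexOn_of_deriv (convex_Iio _) RR_continuousOn
  · intro J hJ
    rw [interior_Iio] at hJ
    exact (RR_hasDerivAt hJ).differentiableAt.differentiableWithinAt
  · rw [interior_Iio]
    intro J hJ K hK hJK
    rw [(RR_hasDerivAt hJ).deriv, (RR_hasDerivAt hK).deriv]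
    exact RR'_monotoneOn hJ hK hJK

/-- tangent inequality for `RR` -/
theorem RR_tangent {J K : ℝ} (hJ : J < Real.log 2) (hK : K < Real.log 2) :
    RR J + RR' J * (K - J) ≤ RR K := by
  rcases lt_trichotomy J K with h | h | h
  · have := RR_convexOn.le_slope_of_hasDerivAt hJ hK h (RR_hasDerivAt hJ)
    rw [slope_def_field, le_div_iff₀ (by linarith)] at this
    linarith
  · subst h; simp
  · have := RR_convexOn.slope_le_of_hasDerivAt hK hJ h (RR_hasDerivAt hJ)
    rw [slope_def_field, div_le_iff₀ (by linarith)] at this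
    linarith

theorem RR_ph {x : ℝ} (h0 : 0 ≤ x) (h1 : x < 1) : RR (ph x) = kk x - 2 * ph x := by
  unfold RR; rw [xi_ph h0 h1]

/-! ### Psi -/

theorem Psi_of_nonpos {J : ℝ} (h : J ≤ 0) : Psi J = 2 * J := by
  unfold Psi; rw [RR_of_nonpos h, add_zero]

theorem Psi_zero : Psi 0 = 0 := by rw [Psi_of_nonpos le_rfl, mul_zero]

theorem Psi_ph {x : ℝ} (h0 : 0 ≤ x) (h1 : x < 1) : Psi (ph x) = kk x := by
  unfold Psi; rw [RR_ph h0 h1]; ring

theorem Psi_eq {J : ℝ} (h0 : 0 ≤ J) (h1 : J < Real.log 2) : Psi J = kk (xi J) := by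
  conv_lhs => rw [← ph_xi h0 h1]
  exact Psi_ph (xi_mem J).1 (xi_mem J).2

theorem Psi'_of_nonpos {J : ℝ} (h : J ≤ 0) : Psi' J = 2 := by
  unfold Psi'; rw [RR'_of_nonpos h, add_zero]

theorem Psi'_eq {J : ℝ} (h0 : 0 < J) (h1 : J < Real.log 2) :
    Psi' J = 1 + xi J / ((1 - xi J ^ 2) * Real.artanh (xi J)) := by
  unfold Psi' RR'
  rw [mu_of_ne (xi_pos h0 h1).ne']
  ring

theorem Psi'_ge_two (J : ℝ) : 2 ≤ Psi' J := by
  unfold Psi'; linarith [RR'_nonneg J]

theorem Psi_hasDerivAt {J : ℝ} (h1 : J < Real.log 2) : HasDerivAt Psi (Psi' J) J := by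
  have := ((hasDerivAt_id J).const_mul 2).add (RR_hasDerivAt h1)
  rw [mul_one] at this
  exact this

theorem Psi_continuousOn : ContinuousOn Psi (Set.Iio (Real.log 2)) :=
  fun _ hJ => (Psi_hasDerivAt hJ).continuousAt.continuousWithinAt

theorem Psi'_monotoneOn : MonotoneOn Psi' (Set.Iio (Real.log 2)) := by
  intro J hJ K hK hJK
  unfold Psi'
  linarith [RR'_monotoneOn hJ hK hJK]

theorem Psi'_continuousOn : ContinuousOn Psi' (Set.Iio (Real.log 2)) :=
  continuousOn_const.add RR'_continuousOn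

theorem Psi'_hasDerivAt {J : ℝ} (h0 : 0 < J) (h1 : J < Real.log 2) :
    HasDerivAt Psi' (Rdd (xi J)) J := by
  exact (RR'_hasDerivAt h0 h1).const_add 2

theorem Psi_strictMonoOn : StrictMonoOn Psi (Set.Iio (Real.log 2)) := by
  apply strictMonoOn_of_deriv_pos (convex_Iio _) Psi_continuousOn
  intro J hJ
  rw [interior_Iio] at hJ
  rw [(Psi_hasDerivAt hJ).deriv]
  linarith [Psi'_ge_two J]

theorem Psi_convexOn : ConvexOn ℝ (Set.Iio (Real.log 2)) Psi := by
  apply MonotoneOn.convexOn_of_deriv (convex_Iio _) Psi_continuousOn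
  · intro J hJ
    rw [interior_Iio] at hJ
    exact (Psi_hasDerivAt hJ).differentiableAt.differentiableWithinAt
  · rw [interior_Iio]
    intro J hJ K hK hJK
    rw [(Psi_hasDerivAt hJ).deriv, (Psi_hasDerivAt hK).deriv]
    exact Psi'_monotoneOn hJ hK hJK

theorem Psi_tangent {J K : ℝ} (hJ : J < Real.log 2) (hK : K < Real.log 2) :
    Psi J + Psi' J * (K - J) ≤ Psi K := by
  have := RR_tangent hJ hK
  unfold Psi Psi'
  linarith

theorem Psi_nonneg {J : ℝ} (h0 : 0 ≤ J) (h1 : J < Real.log 2) : 0 ≤ Psi J := by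
  unfold Psi; linarith [RR_nonneg h1]

/-! ### Psi1 -/

theorem Psi1_of_le {J1 J : ℝ} (h : J ≤ J1) : Psi1 J1 J = Psi J := by
  unfold Psi1; rw [if_pos h]

theorem Psi1_of_ge {J1 J : ℝ} (h : J1 ≤ J) : Psi1 J1 J = Psi J1 + Psi' J1 * (J - J1) := by
  unfold Psi1
  split_ifs with h2
  · have : J = J1 := le_antisymm h2 h
    rw [this]; ring
  · rfl

theorem Psi1'_of_le {J1 J : ℝ} (h : J ≤ J1) : Psi1' J1 J = Psi' J := by
  unfold Psi1'; rw [min_eq_left h]

theorem Psi1'_of_ge {J1 J : ℝ} (h : J1 ≤ J) : Psi1' J1 J = Psi' J1 := by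
  unfold Psi1'; rw [min_eq_right h]

theorem Psi1_hasDerivAt {J1 : ℝ} (h1 : J1 < Real.log 2) (J : ℝ) :
    HasDerivAt (Psi1 J1) (Psi1' J1 J) J := by
  have haff : ∀ K : ℝ, HasDerivAt (fun K => Psi J1 + Psi' J1 * (K - J1)) (Psi' J1) K := by
    intro K
    have := (((hasDerivAt_id K).sub_const J1).const_mul (Psi' J1)).const_add (Psi J1)
    simpa using this
  rcases lt_trichotomy J J1 with h | h | h
  · rw [Psi1'_of_le h.le]
    apply (Psi_hasDerivAt (lt_trans h h1)).congr_of_eventuallyEq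
    filter_upwards [gt_mem_nhds h] with K hK
    exact Psi1_of_le (le_of_lt hK)
  · subst h
    rw [Psi1'_of_le le_rfl]
    have hl : HasDerivWithinAt (Psi1 J) (Psi' J) (Set.Iic J) J := by
      apply (Psi_hasDerivAt h1).hasDerivWithinAt.congr
      · intro K hK; exact Psi1_of_le hK
      · exact Psi1_of_le le_rfl
    have hr : HasDerivWithinAt (Psi1 J) (Psi' J) (Set.Ici J) J := by
      apply (haff J).hasDerivWithinAt.congr
      · intro K hK; exact Psi1_of_ge hK
      · exact Psi1_of_ge le_rfl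
    have := hl.union hr
    rw [Set.Iic_union_Ici, hasDerivWithinAt_univ] at this
    exact this
  · rw [Psi1'_of_ge h.le]
    apply (haff J).congr_of_eventuallyEq
    filter_upwards [lt_mem_nhds h] with K hK
    exact Psi1_of_ge (le_of_lt hK)

theorem Psi1_continuous {J1 : ℝ} (h1 : J1 < Real.log 2) : Continuous (Psi1 J1) :=
  continuous_iff_continuousAt.2 (fun J => (Psi1_hasDerivAt h1 J).continuousAt)

theorem Psi1'_monotone {J1 : ℝ} (h1 : J1 < Real.log 2) : Monotone (Psi1' J1) := by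
  intro J K hJK
  exact Psi'_monotoneOn (lt_of_le_of_lt (min_le_right _ _) h1)
    (lt_of_le_of_lt (min_le_right _ _) h1) (min_le_min_right _ hJK)

theorem Psi1'_continuous {J1 : ℝ} (h1 : J1 < Real.log 2) : Continuous (Psi1' J1) := by
  unfold Psi1'
  exact Psi'_continuousOn.comp_continuous (by fun_prop)
    (fun J => lt_of_le_of_lt (min_le_right _ _) h1)

theorem Psi1'_ge_two (J1 J : ℝ) : 2 ≤ Psi1' J1 J := Psi'_ge_two _

theorem Psi1_strictMono {J1 : ℝ} (h1 : J1 < Real.log 2) : StrictMono (Psi1 J1) := by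
  apply strictMono_of_deriv_pos
  intro J
  rw [(Psi1_hasDerivAt h1 J).deriv]
  linarith [Psi1'_ge_two J1 J]

theorem Psi1_convexOn {J1 : ℝ} (h1 : J1 < Real.log 2) : ConvexOn ℝ Set.univ (Psi1 J1) := by
  apply MonotoneOn.convexOn_of_deriv convex_univ (Psi1_continuous h1).continuousOn
  · intro J _
    exact (Psi1_hasDerivAt h1 J).differentiableAt.differentiableWithinAt
  · intro J _ K _ hJK
    rw [(Psi1_hasDerivAt h1 J).deriv, (Psi1_hasDerivAt h1 K).deriv]
    exact Psi1'_monotone h1 hJK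

theorem Psi1_tangent {J1 : ℝ} (h1 : J1 < Real.log 2) (J K : ℝ) :
    Psi1 J1 J + Psi1' J1 J * (K - J) ≤ Psi1 J1 K := by
  rcases lt_trichotomy J K with h | h | h
  · have := (Psi1_convexOn h1).le_slope_of_hasDerivAt (Set.mem_univ _) (Set.mem_univ _) h
      (Psi1_hasDerivAt h1 J)
    rw [slope_def_field, le_div_iff₀ (by linarith)] at this
    linarith
  · subst h; simp
  · have := (Psi1_convexOn h1).slope_le_of_hasDerivAt (Set.mem_univ _) (Set.mem_univ _) h
      (Psi1_hasDerivAt h1 J)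
    rw [slope_def_field, div_le_iff₀ (by linarith)] at this
    linarith

theorem Psi1_le_Psi {J1 J : ℝ} (h1 : J1 < Real.log 2) (h : J < Real.log 2) :
    Psi1 J1 J ≤ Psi J := by
  rcases le_total J J1 with h2 | h2
  · rw [Psi1_of_le h2]
  · rw [Psi1_of_ge h2]; exact Psi_tangent h1 h

theorem Psi1_of_nonpos {J1 J : ℝ} (h0 : 0 ≤ J1) (h : J ≤ 0) : Psi1 J1 J = 2 * J := by
  rw [Psi1_of_le (h.trans h0), Psi_of_nonpos h]

theorem Psi1_zero {J1 : ℝ} (h0 : 0 ≤ J1) : Psi1 J1 0 = 0 := by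
  rw [Psi1_of_nonpos h0 le_rfl, mul_zero]

theorem Psi1_nonneg {J1 J : ℝ} (h0 : 0 ≤ J1) (h1 : J1 < Real.log 2) (h : 0 ≤ J) :
    0 ≤ Psi1 J1 J := by
  rw [← Psi1_zero h0]
  exact (Psi1_strictMono h1).monotone h

/-! ### rhoR -/

theorem rhoR_of_ge {t : ℝ} (h : Real.log 2 ≤ t) : rhoR t = 0 := by
  unfold rhoR; rw [RR_of_nonpos (by linarith), RR'_of_nonpos (by linarith)]; ring

theorem rhoR_nonneg {t : ℝ} (h : 0 < t) : 0 ≤ rhoR t := by
  unfold rhoR
  have := RR_nonneg (J := Real.log 2 - t) (by linarith)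
  have := RR'_nonneg (Real.log 2 - t)
  positivity

theorem rhoR_continuousOn : ContinuousOn rhoR (Set.Ioi 0) := by
  have hs : ContinuousOn (fun t : ℝ => Real.log 2 - t) (Set.Ioi 0) := by fun_prop
  have hm : Set.MapsTo (fun t : ℝ => Real.log 2 - t) (Set.Ioi 0) (Set.Iio (Real.log 2)) := by
    intro t ht
    have : 0 < t := ht
    show Real.log 2 - t < Real.log 2
    linarith
  exact (RR_continuousOn.comp hs hm).add (continuousOn_id.mul (RR'_continuousOn.comp hs hm))

theorem rhoR_hasDerivAt {t : ℝ} (h0 : 0 < t) (h1 : t < Real.log 2) :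
    HasDerivAt rhoR (-(t * Rdd (xi (Real.log 2 - t)))) t := by
  have hs : HasDerivAt (fun t : ℝ => Real.log 2 - t) (-1) t := by
    simpa using (hasDerivAt_id t).const_sub (Real.log 2)
  have ha := (RR_hasDerivAt (J := Real.log 2 - t) (by linarith)).comp t hs
  have hb := (RR'_hasDerivAt (J := Real.log 2 - t) (by linarith) (by linarith)).comp t hs
  have hc := ha.add ((hasDerivAt_id t).mul hb)
  refine hc.congr_deriv ?_
  simp only [id_eq, Function.comp]
  ring

theorem rhoR_antitoneOn : AntitoneOn rhoR (Set.Ioi 0) := by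
  intro s hs t ht hst
  have hs' : 0 < s := hs
  rcases le_total (Real.log 2) t with h | h
  · rw [rhoR_of_ge h]; exact rhoR_nonneg hs'
  · have hA : AntitoneOn rhoR (Set.Icc s t) := by
      apply antitoneOn_of_deriv_nonpos (convex_Icc s t)
      · exact rhoR_continuousOn.mono (fun x hx => lt_of_lt_of_le hs' hx.1)
      · intro x hx
        rw [interior_Icc] at hx
        exact (rhoR_hasDerivAt (lt_trans hs' hx.1) (lt_of_lt_of_le hx.2 h)).differentiableAt.differentiableWithinAt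
      · intro x hx
        rw [interior_Icc] at hx
        have hx0 : 0 < x := lt_trans hs' hx.1
        have hx1 : x < Real.log 2 := lt_of_lt_of_le hx.2 h
        rw [(rhoR_hasDerivAt hx0 hx1).deriv]
        have := Rdd_pos (xi_pos (J := Real.log 2 - x) (by linarith) (by linarith)) (xi_mem _).2
        have : 0 ≤ x * Rdd (xi (Real.log 2 - x)) := by positivity
        linarith
    exact hA ⟨le_rfl, hst⟩ ⟨hst, le_rfl⟩ hst

/-! ### PP -/

theorem PP_hasDerivAt_right {s T : ℝ} (hs : 0 < s) (hT : 0 < T) :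
    HasDerivAt (fun T => PP s T) (-RR' (Real.log 2 - T / s)) T := by
  have h1 : HasDerivAt (fun T : ℝ => Real.log 2 - T / s) (-(1 / s)) T := by
    have := ((hasDerivAt_id T).div_const s).const_sub (Real.log 2)
    simpa using this
  have hlt : Real.log 2 - T / s < Real.log 2 := by
    have : 0 < T / s := by positivity
    linarith
  have h2 := ((RR_hasDerivAt hlt).comp T h1).const_mul s
  refine h2.congr_deriv ?_
  field_simp

theorem PP_hasDerivAt_left {s T : ℝ} (hs : 0 < s) (hT : 0 < T) :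
    HasDerivAt (fun s => PP s T) (rhoR (T / s)) s := by
  have h1 : HasDerivAt (fun s : ℝ => Real.log 2 - T / s) (T / s ^ 2) s := by
    have := ((hasDerivAt_const s T).div (hasDerivAt_id s) hs.ne').const_sub (Real.log 2)
    refine this.congr_deriv ?_
    simp only [id_eq]
    ring
  have hlt : Real.log 2 - T / s < Real.log 2 := by
    have : 0 < T / s := by positivity
    linarith
  have h2 := (hasDerivAt_id s).mul ((RR_hasDerivAt hlt).comp s h1)
  refine h2.congr_deriv ?_
  unfold rhoR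
  simp only [id_eq, Function.comp]
  field_simp

theorem PP_of_ge {s T : ℝ} (hs : 0 < s) (h : s * Real.log 2 ≤ T) : PP s T = 0 := by
  unfold PP
  have : Real.log 2 ≤ T / s := by rw [le_div_iff₀ hs]; linarith
  rw [RR_of_nonpos (by linarith), mul_zero]

theorem PP_nonneg {s T : ℝ} (hs : 0 < s) (hT : 0 < T) : 0 ≤ PP s T := by
  unfold PP
  have : 0 < T / s := by positivity
  exact mul_nonneg hs.le (RR_nonneg (by linarith))

/-- homogeneity -/
theorem PP_smul {c s T : ℝ} (hc : 0 < c) : PP (c * s) (c * T) = c * PP s T := by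
  unfold PP
  rw [mul_div_mul_left _ _ hc.ne']
  ring

/-- supporting plane for `PP` (joint convexity and homogeneity) -/
theorem PP_tangent {s T s' T' : ℝ} (hs : 0 < s) (hT : 0 < T) (hs' : 0 < s') (hT' : 0 < T') :
    rhoR (T / s) * s' - RR' (Real.log 2 - T / s) * T' ≤ PP s' T' := by
  have h1 : 0 < T / s := by positivity
  have h2 : 0 < T' / s' := by positivity
  have h := RR_tangent (J := Real.log 2 - T / s) (K := Real.log 2 - T' / s') (by linarith)
    (by linarith)
  have h3 := mul_le_mul_of_nonneg_left h hs'.le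
  unfold PP rhoR
  have e : s' * (RR (Real.log 2 - T / s) + RR' (Real.log 2 - T / s) *
      (Real.log 2 - T' / s' - (Real.log 2 - T / s)))
      = (RR (Real.log 2 - T / s) + T / s * RR' (Real.log 2 - T / s)) * s'
        - RR' (Real.log 2 - T / s) * T' := by
    field_simp
    ring
  rw [e] at h3
  exact h3

theorem PP_eq_tangent {s T : ℝ} (hs : 0 < s) :
    PP s T = rhoR (T / s) * s - RR' (Real.log 2 - T / s) * T := by
  unfold PP rhoR
  field_simp
  ring

end Vale.Agent.P322
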