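import Mathlib
import Vale.Agent.Lib.P322.Ode

/-!
Courtade-Kumar, reduction part 4: mutual information, and the reduction of the conjecture to a
two-point inequality for a state function `B`.
-/

namespace Vale.Agent.P322

open Finset

/-- Transition probabilities of `n` independent binary symmetric channels with crossover
probability `ε`. -/
noncomputable def chan {n : ℕ} (ε : ℝ) (x y : Fin n → Bool) : ℝ :=
  ∏ i, if x i = y i then 1 - ε else ε

/-- Joint law of `(f(X), Y)`, where `X` is uniform on the cube and `Y` is the channel output. -/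
noncomputable def jointLaw {n : ℕ} (ε : ℝ) (f : (Fin n → Bool) → Bool) (b : Bool)
    (y : Fin n → Bool) : ℝ :=
  ∑ x, if f x = b then (1 / 2 : ℝ) ^ n * chan ε x y else 0

/-- Mutual information in bits of a joint law on two finite types. -/
noncomputable def mutualInfo {α β : Type} [Fintype α] [Fintype β] (p : α → β → ℝ) : ℝ :=
  ∑ a, ∑ b, p a b * Real.logb 2 (p a b / ((∑ b', p a b') * ∑ a', p a' b))

/-- Binary entropy in bits. -/
noncomputable def entropy2 (p : ℝ) : ℝ := -(p * Real.logb 2 p) - (1 - p) * Real.logb 2 (1 - p)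

/-- the sign valued version of a Bool valued function -/
def sgnf {n : ℕ} (f : (Fin n → Bool) → Bool) (x : Fin n → Bool) : ℝ := if f x = true then 1 else -1

theorem entropy2_eq (p : ℝ) : entropy2 p = Real.binEntropy p / Real.log 2 := by
  unfold entropy2 Real.binEntropy Real.logb
  rw [Real.log_inv, Real.log_inv]
  ring

theorem chan_eq {n : ℕ} (ε : ℝ) (x y : Fin n → Bool) : chan ε x y = ker (1 - 2 * ε) x y := by
  unfold chan ker
  apply Finset.prod_congr rfl
  intro i _
  unfold sg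
  split_ifs <;> ring

/-- the signs attached to the two outputs -/
def sb (b : Bool) : ℝ := if b = true then 1 else -1

theorem jointLaw_eq {n : ℕ} (ε : ℝ) (f : (Fin n → Bool) → Bool) (b : Bool) (y : Fin n → Bool) :
    jointLaw ε f b y = (1 / 2 : ℝ) ^ n * ((1 + sb b * TT (1 - 2 * ε) (sgnf f) y) / 2) := by
  have hs := ker_sum_left (n := n) (1 - 2 * ε) y
  have h1 : (1 + sb b * TT (1 - 2 * ε) (sgnf f) y) / 2
      = ∑ x, ((1 + sb b * sgnf f x) / 2) * ker (1 - 2 * ε) x y := by
    have h2 : ∑ x, ((1 + sb b * sgnf f x) / 2) * ker (1 - 2 * ε) x y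
        = (∑ x, ker (1 - 2 * ε) x y + sb b * ∑ x, sgnf f x * ker (1 - 2 * ε) x y) / 2 := by
      rw [Finset.mul_sum, ← Finset.sum_add_distrib, Finset.sum_div]
      apply Finset.sum_congr rfl
      intro x _
      ring
    rw [h2, hs]
    rfl
  rw [h1, Finset.mul_sum]
  unfold jointLaw
  apply Finset.sum_congr rfl
  intro x _
  rw [chan_eq]
  unfold sb sgnf
  cases hfx : f x <;> cases b <;> simp

theorem jointLaw_nonneg {n : ℕ} {ε : ℝ} (h0 : 0 ≤ ε) (h1 : ε ≤ 1) (f : (Fin n → Bool) → Bool)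
    (b : Bool) (y : Fin n → Bool) : 0 ≤ jointLaw ε f b y := by
  unfold jointLaw
  apply Finset.sum_nonneg
  intro x _
  split_ifs
  · apply mul_nonneg (by positivity)
    unfold chan
    apply Finset.prod_nonneg
    intro i _
    split_ifs <;> linarith
  · exact le_refl _

theorem jointLaw_sum_y {n : ℕ} (ε : ℝ) (f : (Fin n → Bool) → Bool) (b : Bool) :
    ∑ y, jointLaw ε f b y = (1 + sb b * EE (sgnf f)) / 2 := by
  simp only [jointLaw_eq]
  rw [← Finset.mul_sum, ← Finset.sum_div, Finset.sum_add_distrib, ← Finset.mul_sum]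
  have : (∑ y, TT (1 - 2 * ε) (sgnf f) y) = 2 ^ n * EE (sgnf f) := by
    rw [← EE_TT (1 - 2 * ε) (sgnf f)]
    unfold EE
    field_simp
  rw [this]
  simp only [Finset.sum_const, Finset.card_univ, Fintype.card_fun, Fintype.card_bool,
    Fintype.card_fin, nsmul_eq_mul, mul_one]
  rw [one_div, inv_pow]
  push_cast
  field_simp

theorem jointLaw_sum_b {n : ℕ} (ε : ℝ) (f : (Fin n → Bool) → Bool) (y : Fin n → Bool) :
    ∑ b, jointLaw ε f b y = (1 / 2 : ℝ) ^ n := by
  simp only [jointLaw_eq]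
  rw [Fintype.sum_bool]
  simp [sb]
  ring

theorem mul_log_div (x q : ℝ) (h : q = 0 → x = 0) :
    x * Real.log (x / q) = x * Real.log x - x * Real.log q := by
  by_cases hx : x = 0
  · simp [hx]
  · have hq : q ≠ 0 := fun h' => hx (h h')
    rw [Real.log_div hx hq]; ring

theorem hh_eq (x : ℝ) : hh x = -(∑ b, ((1 + sb b * x) / 2) * Real.log ((1 + sb b * x) / 2)) := by
  rw [Fintype.sum_bool]
  unfold hh Real.binEntropy sb
  rw [Real.log_inv, Real.log_inv]
  simp only [if_true, one_mul, Bool.false_eq_true, if_false]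
  rw [show 1 - (1 + x) / 2 = (1 + -1 * x) / 2 by ring]
  ring

theorem mutualInfo_eq {n : ℕ} {ε : ℝ} (h0 : 0 ≤ ε) (h1 : ε ≤ 1) (f : (Fin n → Bool) → Bool) :
    mutualInfo (jointLaw ε f) = (hh (EE (sgnf f)) - HJ (sgnf f) (1 - 2 * ε)) / Real.log 2 := by
  unfold mutualInfo
  simp only [jointLaw_sum_b, jointLaw_sum_y]
  set m := EE (sgnf f) with hm
  set u := TT (1 - 2 * ε) (sgnf f) with hu
  have hterm : ∀ b y, jointLaw ε f b y * Real.logb 2 (jointLaw ε f b y /
      ((1 + sb b * m) / 2 * (1 / 2 : ℝ) ^ n))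
      = (1 / 2 : ℝ) ^ n * (((1 + sb b * u y) / 2) * Real.log ((1 + sb b * u y) / 2)
        - ((1 + sb b * u y) / 2) * Real.log ((1 + sb b * m) / 2)) / Real.log 2 := by
    intro b y
    have h2 : jointLaw ε f b y /
      ((1 + sb b * m) / 2 * (1 / 2 : ℝ) ^ n) = ((1 + sb b * u y) / 2) / ((1 + sb b * m) / 2) := by
      rw [jointLaw_eq]
      rw [mul_comm ((1 + sb b * m) / 2) ((1 / 2 : ℝ) ^ n)]
      rw [mul_div_mul_left _ _ (by positivity)]
    rw [h2, jointLaw_eq, Real.logb]
    rw [← mul_log_div]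
    · ring
    · intro hq
      have h3 : ∑ y, jointLaw ε f b y = 0 := by rw [jointLaw_sum_y, ← hm]; exact hq
      rw [Finset.sum_eq_zero_iff_of_nonneg (fun y _ => jointLaw_nonneg h0 h1 f b y)] at h3
      have h4 := h3 y (Finset.mem_univ y)
      rw [jointLaw_eq, ← hu] at h4
      rcases mul_eq_zero.mp h4 with h5 | h5
      · exact absurd h5 (by positivity)
      · exact h5
  simp only [hterm]
  have hmean : ∀ b, (∑ y, (1 / 2 : ℝ) ^ n * ((1 + sb b * u y) / 2)) = (1 + sb b * m) / 2 := by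
    intro b
    rw [hm, ← jointLaw_sum_y ε f b]
    apply Finset.sum_congr rfl
    intro y _
    rw [jointLaw_eq]
  simp only [← Finset.sum_div]
  congr 1
  simp only [mul_sub, Finset.sum_sub_distrib]
  have hA : ∑ b, ∑ y, (1 / 2 : ℝ) ^ n * ((1 + sb b * u y) / 2 * Real.log ((1 + sb b * u y) / 2))
      = - HJ (sgnf f) (1 - 2 * ε) := by
    rw [Finset.sum_comm]
    unfold HJ EE
    rw [← hu]
    rw [← neg_div, ← Finset.sum_neg_distrib, Finset.sum_div]
    apply Finset.sum_congr rfl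
    intro y _
    rw [hh_eq, neg_neg, ← Finset.mul_sum, one_div, inv_pow, mul_comm, div_eq_mul_inv]
  have hBm : ∑ b, ∑ y, (1 / 2 : ℝ) ^ n * ((1 + sb b * u y) / 2 * Real.log ((1 + sb b * m) / 2))
      = - hh m := by
    rw [hh_eq m, neg_neg]
    apply Finset.sum_congr rfl
    intro b _
    have h5 : ∑ y, (1 / 2 : ℝ) ^ n * ((1 + sb b * u y) / 2 * Real.log ((1 + sb b * m) / 2))
        = (∑ y, (1 / 2 : ℝ) ^ n * ((1 + sb b * u y) / 2)) * Real.log ((1 + sb b * m) / 2) := by
      rw [Finset.sum_mul]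
      apply Finset.sum_congr rfl
      intro y _
      ring
    rw [h5, hmean b]
  rw [hA, hBm]
  ring

/-- The information bound for a function satisfying the functional inequality at its own mean. -/
theorem info_le_of_CFI {n : ℕ} (f : (Fin n → Bool) → Bool)
    (hD : ∀ u : (Fin n → Bool) → ℝ, (∀ x, u x ∈ Set.Ioo (-1 : ℝ) 1) → EE u = EE (sgnf f) →
      ∀ r ∈ Set.Ico (0 : ℝ) 1, hh (EE u) - EE (fun x => hh (u x)) = Real.log 2 - hh r →
        r * Real.artanh r ≤ DD u)
    {ε : ℝ} (h0 : 0 ≤ ε) (h1 : ε ≤ 1 / 2) :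
    mutualInfo (jointLaw ε f) ≤ 1 - entropy2 ε := by
  have hlog : 0 < Real.log 2 := Real.log_pos one_lt_two
  have hrhs : 1 - entropy2 ε = (Real.log 2 - hh (1 - 2 * ε)) / Real.log 2 := by
    rw [entropy2_eq, sub_div, div_self hlog.ne']
    congr 2
    unfold hh
    rw [show (1 + (1 - 2 * ε)) / 2 = 1 - ε by ring, Real.binEntropy_one_sub]
  rw [mutualInfo_eq h0 (by linarith) f, hrhs]
  apply div_le_div_of_nonneg_right _ hlog.le
  have hF : ∀ x, sgnf f x = 1 ∨ sgnf f x = -1 := by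
    intro x; unfold sgnf; split_ifs <;> simp
  have hconst : ∀ s : ℝ, (s = 1 ∨ s = -1) → (∀ x, sgnf f x = s) →
      hh (EE (sgnf f)) - HJ (sgnf f) (1 - 2 * ε) ≤ Real.log 2 - hh (1 - 2 * ε) := by
    intro s hs hall
    have hfun : sgnf f = fun _ => s := funext hall
    have hT : TT (1 - 2 * ε) (sgnf f) = fun _ => s := by
      funext y
      rw [hfun]
      unfold TT
      rw [← Finset.mul_sum, ker_sum_left, mul_one]
    have hE : EE (sgnf f) = s := by rw [hfun, EE_const]
    have hH : HJ (sgnf f) (1 - 2 * ε) = hh s := by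
      unfold HJ
      rw [hT]
      exact EE_const (n := n) (hh s)
    rw [hE, hH, sub_self]
    have := hh_le (1 - 2 * ε)
    linarith
  by_cases hp : ∃ x, sgnf f x = 1
  · by_cases hm : ∃ x, sgnf f x = -1
    · exact entropy_bound hF hp hm hD (1 - 2 * ε) ⟨by linarith, by linarith⟩
    · push Not at hm
      exact hconst 1 (Or.inl rfl) (fun x => (hF x).resolve_right (hm x))
  · push Not at hp
    exact hconst (-1) (Or.inr rfl) (fun x => (hF x).resolve_left (hp x))

/-- Full reduction: a state function `B` satisfying the two-point inequality and lying above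
`Ψ(J)` gives the Courtade-Kumar inequality for every Boolean function. -/
theorem courtadeKumar_of_twoPoint (B : ℝ → ℝ → ℝ)
    (hB0 : ∀ x ∈ Set.Ioo (-1 : ℝ) 1, B x (hh x) ≤ 0) (hB : TwoPoint B)
    (hB3 : ∀ m ∈ Set.Ioo (-1 : ℝ) 1, ∀ T : ℝ, ∀ r ∈ Set.Ico (0 : ℝ) 1, 0 < T →
      hh m - T = Real.log 2 - hh r → r * Real.artanh r ≤ B m T)
    {n : ℕ} (f : (Fin n → Bool) → Bool) {ε : ℝ} (h0 : 0 ≤ ε) (h1 : ε ≤ 1 / 2) :
    mutualInfo (jointLaw ε f) ≤ 1 - entropy2 ε := by
  apply info_le_of_CFI f _ h0 h1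
  intro u hu _ r hr hr2
  have hEu : EE u ∈ Set.Ioo (-1 : ℝ) 1 := by
    constructor
    · have := EE_lt (n := n) (u := fun _ => (-1:ℝ)) (v := u) (fun x => (hu x).1)
      rwa [EE_const] at this
    · have := EE_lt (n := n) (v := fun _ => (1:ℝ)) (u := u) (fun x => (hu x).2)
      rwa [EE_const] at this
  have hT : 0 < EE (fun x => hh (u x)) := by
    have := EE_lt (n := n) (u := fun _ => (0:ℝ)) (v := fun x => hh (u x)) (fun x => hh_pos (hu x))
    rwa [EE_const] at this
  exact le_trans (hB3 (EE u) hEu _ r hr hT hr2) (DD_ge_of_twoPoint B hB0 hB n u hu)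

/-- Balanced reduction: here `B` only needs to lie above `Ψ(J)` at mean zero. -/
theorem courtadeKumar_balanced_of_twoPoint (B : ℝ → ℝ → ℝ)
    (hB0 : ∀ x ∈ Set.Ioo (-1 : ℝ) 1, B x (hh x) ≤ 0) (hB : TwoPoint B)
    (hB3 : ∀ r ∈ Set.Ico (0 : ℝ) 1, r * Real.artanh r ≤ B 0 (hh r))
    {n : ℕ} (f : (Fin n → Bool) → Bool) (hf : EE (sgnf f) = 0)
    {ε : ℝ} (h0 : 0 ≤ ε) (h1 : ε ≤ 1 / 2) :
    mutualInfo (jointLaw ε f) ≤ 1 - entropy2 ε := by
  apply info_le_of_CFI f _ h0 h1
  intro u hu hum r hr hr2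
  have h := DD_ge_of_twoPoint B hB0 hB n u hu
  rw [hum, hf] at h
  rw [hum, hf, hh_zero] at hr2
  have h3 : EE (fun x => hh (u x)) = hh r := by linarith
  rw [h3] at h
  exact le_trans (hB3 r hr) h

end Vale.Agent.P322
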