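import Mathlib
import Vale.Agent.Lib.P322.Info
import Vale.Agent.Lib.P322.Cost

/-!
Courtade-Kumar by induction on the dimension at a fixed noise level (state: the mean only).
-/

namespace Vale.Agent.P322

open Finset

/-- average entropy after one more noisy bit -/
noncomputable def NN (ρ x y : ℝ) : ℝ :=
  (hh (((1 + ρ) * x + (1 - ρ) * y) / 2) + hh (((1 - ρ) * x + (1 + ρ) * y) / 2)) / 2

/-- the step property of a lower bound `F` of the mean -/
def Step (ρ : ℝ) (F : ℝ → ℝ) : Prop :=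
  ∀ (n : ℕ) (X Y : (Fin n → Bool) → ℝ), (∀ x, X x ∈ Set.Icc (-1 : ℝ) 1) →
    (∀ x, Y x ∈ Set.Icc (-1 : ℝ) 1) →
    F (EE X) ≤ EE (fun x => hh (X x)) → F (EE Y) ≤ EE (fun x => hh (Y x)) →
    F ((EE X + EE Y) / 2) ≤ EE (fun x => NN ρ (X x) (Y x))

theorem ker_cons {n : ℕ} (ρ : ℝ) (c b : Bool) (x y : Fin n → Bool) :
    ker ρ (Fin.cons c x : Fin (n + 1) → Bool) (Fin.cons b y) = ((1 + ρ * sg c b) / 2) * ker ρ x y := by
  unfold ker
  rw [Fin.prod_univ_succ]
  simp only [Fin.cons_zero, Fin.cons_succ]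

theorem TT_cons {n : ℕ} (ρ : ℝ) (f : (Fin (n + 1) → Bool) → ℝ) (b : Bool) (y : Fin n → Bool) :
    TT ρ f (Fin.cons b y) = ((1 + ρ) / 2) * TT ρ (fun x => f (Fin.cons b x)) y
      + ((1 - ρ) / 2) * TT ρ (fun x => f (Fin.cons (!b) x)) y := by
  unfold TT
  rw [← Equiv.sum_comp (Fin.consEquiv (fun _ : Fin (n + 1) => Bool)) (fun x => f x * ker ρ x (Fin.cons b y)),
    Fintype.sum_prod_type, Fintype.sum_bool]
  simp only [Fin.consEquiv, Equiv.coe_fn_mk, ker_cons]
  rw [Finset.mul_sum, Finset.mul_sum]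
  cases b
  · simp only [Bool.not_false, sg]
    rw [add_comm]
    congr 1
    · apply Finset.sum_congr rfl
      intro x _
      simp
      ring
    · apply Finset.sum_congr rfl
      intro x _
      simp
      ring
  · simp only [Bool.not_true, sg]
    congr 1
    · apply Finset.sum_congr rfl
      intro x _
      simp
      ring
    · apply Finset.sum_congr rfl
      intro x _
      simp
      ring

theorem TT_mem_Icc {n : ℕ} {f : (Fin n → Bool) → ℝ} (hf : ∀ x, f x = 1 ∨ f x = -1) {ρ : ℝ}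
    (h0 : 0 ≤ ρ) (h1 : ρ ≤ 1) (y : Fin n → Bool) : TT ρ f y ∈ Set.Icc (-1 : ℝ) 1 := by
  have hs := ker_sum_left (n := n) ρ y
  have hle : ∀ x, -(ker ρ x y) ≤ f x * ker ρ x y ∧ f x * ker ρ x y ≤ ker ρ x y := by
    intro x
    have := ker_nonneg h0 h1 x y
    rcases hf x with h | h <;> rw [h] <;> constructor <;> linarith
  unfold TT
  constructor
  · calc (-1 : ℝ) = ∑ x, -(ker ρ x y) := by rw [Finset.sum_neg_distrib, hs]
      _ ≤ _ := Finset.sum_le_sum (fun x _ => (hle x).1)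
  · calc _ ≤ ∑ x, ker ρ x y := Finset.sum_le_sum (fun x _ => (hle x).2)
      _ = 1 := hs

theorem HJ_succ {n : ℕ} (ρ : ℝ) (f : (Fin (n + 1) → Bool) → ℝ) :
    HJ f ρ = EE (fun y => NN ρ (TT ρ (fun x => f (Fin.cons true x)) y)
      (TT ρ (fun x => f (Fin.cons false x)) y)) := by
  unfold HJ
  rw [EE_succ]
  simp only [TT_cons, Bool.not_true, Bool.not_false]
  unfold NN
  have h : (fun y : Fin n → Bool =>
      (hh (((1 + ρ) * TT ρ (fun x => f (Fin.cons true x)) y
          + (1 - ρ) * TT ρ (fun x => f (Fin.cons false x)) y) / 2)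
        + hh (((1 - ρ) * TT ρ (fun x => f (Fin.cons true x)) y
          + (1 + ρ) * TT ρ (fun x => f (Fin.cons false x)) y) / 2)) / 2)
      = fun y => (1 / 2) * (hh ((1 + ρ) / 2 * TT ρ (fun x => f (Fin.cons true x)) y
          + (1 - ρ) / 2 * TT ρ (fun x => f (Fin.cons false x)) y)
        + hh ((1 + ρ) / 2 * TT ρ (fun x => f (Fin.cons false x)) y
          + (1 - ρ) / 2 * TT ρ (fun x => f (Fin.cons true x)) y)) := by
    funext y
    rw [show ((1 + ρ) * TT ρ (fun x => f (Fin.cons true x)) y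
          + (1 - ρ) * TT ρ (fun x => f (Fin.cons false x)) y) / 2
          = (1 + ρ) / 2 * TT ρ (fun x => f (Fin.cons true x)) y
          + (1 - ρ) / 2 * TT ρ (fun x => f (Fin.cons false x)) y by ring,
      show ((1 - ρ) * TT ρ (fun x => f (Fin.cons true x)) y
          + (1 + ρ) * TT ρ (fun x => f (Fin.cons false x)) y) / 2
          = (1 + ρ) / 2 * TT ρ (fun x => f (Fin.cons false x)) y
          + (1 - ρ) / 2 * TT ρ (fun x => f (Fin.cons true x)) y by ring]
    ring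
  rw [h, EE_mul_left, EE_add]
  ring

/-- Induction on the dimension at fixed noise. -/
theorem HJ_ge_of_step {ρ : ℝ} (h0 : 0 ≤ ρ) (h1 : ρ ≤ 1) (F : ℝ → ℝ) (hF1 : F 1 ≤ 0)
    (hF2 : F (-1) ≤ 0) (hstep : Step ρ F) :
    ∀ (n : ℕ) (f : (Fin n → Bool) → ℝ), (∀ x, f x = 1 ∨ f x = -1) → F (EE f) ≤ HJ f ρ := by
  intro n
  induction n with
  | zero =>
    intro f hf
    have hT : ∀ y, TT ρ f y = f y := by
      intro y
      unfold TT ker
      rw [Fintype.sum_subsingleton _ y]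
      simp
    have hH : HJ f ρ = hh (f default) := by
      unfold HJ
      rw [EE_zero _ default, hT]
    rw [hH, EE_zero f default]
    rcases hf default with h | h
    · rw [h, hh_one]; exact hF1
    · rw [h, hh_neg, hh_one]; exact hF2
  | succ n ih =>
    intro f hf
    rw [HJ_succ, EE_succ f]
    have h1' := ih (fun x => f (Fin.cons true x)) (fun x => hf _)
    have h2' := ih (fun x => f (Fin.cons false x)) (fun x => hf _)
    have h3 := hstep n (TT ρ (fun x => f (Fin.cons true x))) (TT ρ (fun x => f (Fin.cons false x)))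
      (fun y => TT_mem_Icc (fun x => hf _) h0 h1 y) (fun y => TT_mem_Icc (fun x => hf _) h0 h1 y)
    rw [EE_TT, EE_TT] at h3
    exact h3 h1' h2'

/-- the closed form lower bound -/
noncomputable def FF (ρ m : ℝ) : ℝ :=
  (1 - ρ ^ 2) * hh m + (1 - m ^ 2) * (hh ρ - (1 - ρ ^ 2) * Real.log 2)

theorem FF_one (ρ : ℝ) : FF ρ 1 = 0 := by
  unfold FF; rw [hh_one]; ring

theorem FF_neg_one (ρ : ℝ) : FF ρ (-1) = 0 := by
  unfold FF; rw [hh_neg, hh_one]; ring

theorem FF_neg (ρ m : ℝ) : FF ρ (-m) = FF ρ m := by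
  unfold FF; rw [hh_neg]; ring

theorem le_artanh {x : ℝ} (h0 : 0 ≤ x) (h1 : x < 1) : x ≤ Real.artanh x := by
  rw [artanh_eq_logs ⟨by linarith, h1⟩]
  have h := Real.hasSum_log_sub_log_of_abs_lt_one (x := x) (by rw [abs_of_nonneg h0]; exact h1)
  have h2 := le_hasSum h 0 (fun k _ => by positivity)
  simp at h2
  linarith

/-- `log 2 - h(m) ≥ m^2/2` -/
theorem sq_div_two_le {m : ℝ} (hm : m ∈ Set.Icc (-1 : ℝ) 1) : m ^ 2 / 2 ≤ Real.log 2 - hh m := by
  have key : ∀ m ∈ Set.Icc (0 : ℝ) 1, m ^ 2 / 2 ≤ Real.log 2 - hh m := by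
    have hmono : MonotoneOn (fun m => Real.log 2 - hh m - m ^ 2 / 2) (Set.Icc (0 : ℝ) 1) := by
      apply monotoneOn_of_deriv_nonneg (convex_Icc 0 1)
      · apply Continuous.continuousOn
        have := hh_continuous
        fun_prop
      · intro x hx
        rw [interior_Icc] at hx
        have h1 := ((hasDerivAt_const x (Real.log 2)).sub
          (hh_hasDerivAt (x := x) ⟨by linarith [hx.1], hx.2⟩)).sub
          (((hasDerivAt_id x).pow 2).div_const 2)
        exact h1.differentiableAt.differentiableWithinAt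
      · intro x hx
        rw [interior_Icc] at hx
        have h1 : HasDerivAt (fun m => Real.log 2 - hh m - m ^ 2 / 2) _ x :=
          ((hasDerivAt_const x (Real.log 2)).sub
          (hh_hasDerivAt (x := x) ⟨by linarith [hx.1], hx.2⟩)).sub
          (((hasDerivAt_id x).pow 2).div_const 2)
        rw [h1.deriv]
        have h2 := le_artanh hx.1.le hx.2
        simp
        linarith
    intro m hm
    have := hmono ⟨le_refl _, zero_le_one⟩ hm hm.1
    simp only [hh_zero] at this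
    linarith
  rcases le_total 0 m with h | h
  · exact key m ⟨h, hm.2⟩
  · have := key (-m) ⟨by linarith, by linarith [hm.1]⟩
    rw [hh_neg] at this
    linarith

theorem FF_ge {ρ m : ℝ} (hρ : ρ ∈ Set.Icc (-1 : ℝ) 1) (hm : m ∈ Set.Icc (-1 : ℝ) 1) :
    hh m + hh ρ - Real.log 2 ≤ FF ρ m := by
  have h1 := sq_div_two_le hρ
  have h2 := sq_div_two_le hm
  have h3 := Real.log_two_lt_d9
  unfold FF
  have h4 : 0 ≤ ρ ^ 2 * (Real.log 2 - hh m - m ^ 2 / 2) :=
    mul_nonneg (sq_nonneg _) (by linarith)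
  have h5 : 0 ≤ m ^ 2 * (Real.log 2 - hh ρ - ρ ^ 2 / 2) :=
    mul_nonneg (sq_nonneg _) (by linarith)
  have h6 : 0 ≤ (1 - Real.log 2) * (ρ ^ 2 * m ^ 2) := by
    apply mul_nonneg (by linarith) (by positivity)
  nlinarith

/-- The information bound from a lower bound of the entropy. -/
theorem info_le_of_entropy {n : ℕ} (f : (Fin n → Bool) → Bool) {ε : ℝ} (h0 : 0 ≤ ε)
    (h1 : ε ≤ 1 / 2)
    (h : hh (EE (sgnf f)) + hh (1 - 2 * ε) - Real.log 2 ≤ HJ (sgnf f) (1 - 2 * ε)) :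
    mutualInfo (jointLaw ε f) ≤ 1 - entropy2 ε := by
  have hlog : 0 < Real.log 2 := Real.log_pos one_lt_two
  have hrhs : 1 - entropy2 ε = (Real.log 2 - hh (1 - 2 * ε)) / Real.log 2 := by
    rw [entropy2_eq, sub_div, div_self hlog.ne']
    congr 2
    unfold hh
    rw [show (1 + (1 - 2 * ε)) / 2 = 1 - ε by ring, Real.binEntropy_one_sub]
  rw [mutualInfo_eq h0 (by linarith) f, hrhs]
  apply div_le_div_of_nonneg_right _ hlog.le
  linarith

/-- Full reduction at fixed noise. -/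
theorem courtadeKumar_of_step (hstep : ∀ ρ ∈ Set.Ioo (0 : ℝ) 1, Step ρ (FF ρ))
    {n : ℕ} (f : (Fin n → Bool) → Bool) {ε : ℝ} (h0 : 0 ≤ ε) (h1 : ε ≤ 1 / 2) :
    mutualInfo (jointLaw ε f) ≤ 1 - entropy2 ε := by
  have hF : ∀ x, sgnf f x = 1 ∨ sgnf f x = -1 := by
    intro x; unfold sgnf; split_ifs <;> simp
  have hE : EE (sgnf f) ∈ Set.Icc (-1 : ℝ) 1 := by
    constructor
    · have := EE_mono (n := n) (u := fun _ => (-1:ℝ)) (v := sgnf f)
        (fun x => by rcases hF x with h | h <;> rw [h] <;> norm_num)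
      rwa [EE_const] at this
    · have := EE_mono (n := n) (v := fun _ => (1:ℝ)) (u := sgnf f)
        (fun x => by rcases hF x with h | h <;> rw [h] <;> norm_num)
      rwa [EE_const] at this
  have key : ∀ ρ ∈ Set.Ioo (0 : ℝ) 1, hh (EE (sgnf f)) + hh ρ - Real.log 2 ≤ HJ (sgnf f) ρ := by
    intro ρ hρ
    have h2 := HJ_ge_of_step hρ.1.le hρ.2.le (FF ρ) (FF_one ρ).le (FF_neg_one ρ).le (hstep ρ hρ)
      n (sgnf f) hF
    have h3 := FF_ge (ρ := ρ) (m := EE (sgnf f)) ⟨by linarith [hρ.1], hρ.2.le⟩ hE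
    linarith
  apply info_le_of_entropy f h0 h1
  have hcl : IsClosed {ρ : ℝ | hh (EE (sgnf f)) + hh ρ - Real.log 2 ≤ HJ (sgnf f) ρ} :=
    isClosed_le ((continuous_const.add hh_continuous).sub continuous_const) (HJ_continuous _)
  have hsub : closure (Set.Ioo (0:ℝ) 1) ⊆
      {ρ : ℝ | hh (EE (sgnf f)) + hh ρ - Real.log 2 ≤ HJ (sgnf f) ρ} :=
    hcl.closure_subset_iff.mpr key
  rw [closure_Ioo zero_ne_one] at hsub
  exact hsub ⟨by linarith, by linarith⟩

end Vale.Agent.P322
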