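import Mathlib
import Vale.Agent.Lib.P322.Fix

/-!
Courtade-Kumar, fixed noise: the symmetric supporting plane (bound L2) for the average entropy
after one noisy bit.
-/

namespace Vale.Agent.P322

open Finset

/-- `log (2 / sqrt (1 - x^2))` -/
noncomputable def ll (x : ℝ) : ℝ := Real.log 2 - Real.log (1 - x ^ 2) / 2

theorem ll_pos {x : ℝ} (hx : x ∈ Set.Ioo (-1 : ℝ) 1) : 0 < ll x := by
  unfold ll
  have h1 : 0 < 1 - x ^ 2 := by nlinarith [hx.1, hx.2]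
  have h2 : Real.log (1 - x ^ 2) ≤ 0 := Real.log_nonpos h1.le (by nlinarith [sq_nonneg x])
  have := Real.log_pos one_lt_two
  linarith

theorem ll_mono {x y : ℝ} (hx : 0 ≤ x) (hxy : x ≤ y) (hy : y < 1) : ll x ≤ ll y := by
  unfold ll
  have h1 : 0 < 1 - y ^ 2 := by nlinarith
  have := Real.log_le_log h1 (show 1 - y ^ 2 ≤ 1 - x ^ 2 by nlinarith)
  linarith

theorem ll_hasDerivAt {x : ℝ} (hx : x ∈ Set.Ioo (-1 : ℝ) 1) :
    HasDerivAt ll (x / (1 - x ^ 2)) x := by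
  have h1 : 0 < 1 - x ^ 2 := by nlinarith [hx.1, hx.2]
  have h2 : HasDerivAt (fun x : ℝ => Real.log 2 - Real.log (1 - x ^ 2) / 2) _ x :=
    (hasDerivAt_const x (Real.log 2)).sub
    (((((hasDerivAt_id x).pow 2).const_sub 1).log (by simpa using h1.ne')).div_const 2)
  refine HasDerivAt.congr_deriv (f := ll) h2 ?_
  simp
  field_simp

theorem log_two_cosh_artanh {x : ℝ} (hx : x ∈ Set.Ioo (-1 : ℝ) 1) :
    Real.log (2 * Real.cosh (Real.artanh x)) = ll x := by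
  have h1 : 0 < 1 - x ^ 2 := by nlinarith [hx.1, hx.2]
  have h2 : 0 < Real.sqrt (1 - x ^ 2) := Real.sqrt_pos.mpr h1
  rw [Real.cosh_artanh hx, Real.log_mul (by norm_num) (by positivity), one_div, Real.log_inv,
    Real.log_sqrt h1.le]
  unfold ll
  ring

theorem sinh_artanh_sq {x : ℝ} (hx : x ∈ Set.Ioo (-1 : ℝ) 1) :
    Real.sinh (Real.artanh x) ^ 2 = x ^ 2 / (1 - x ^ 2) := by
  have h1 : 0 < 1 - x ^ 2 := by nlinarith [hx.1, hx.2]
  rw [Real.sinh_artanh hx, div_pow, Real.sq_sqrt h1.le]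

theorem hh_nonneg {x : ℝ} (hx : x ∈ Set.Icc (-1 : ℝ) 1) : 0 ≤ hh x := by
  unfold hh
  apply Real.binEntropy_nonneg <;> [linarith [hx.1]; linarith [hx.2]]

/-- the L1/L2 cost bound in the form used below -/
theorem KK_ge_lin' {s : ℝ} (hs : s ∈ Set.Ioo (0 : ℝ) 1) {x y : ℝ} (hx : x ∈ Set.Ioo (-1 : ℝ) 1)
    (hy : y ∈ Set.Ioo (-1 : ℝ) 1) :
    (Real.artanh s * ll s + (s / (1 - s ^ 2)) * hh s) * ((x - y) / 2)
      - (s ^ 2 / (1 - s ^ 2)) * ((hh x + hh y) / 2) ≤ KK x y * ll s := by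
  have hs' : s ∈ Set.Ioo (-1 : ℝ) 1 := ⟨by linarith [hs.1], hs.2⟩
  have ht : 0 < Real.artanh s := Real.artanh_pos hs
  have h := KK_ge_lin ht hx hy
  have hl := ll_pos hs'
  have hq : qq (Real.artanh s) = s ^ 2 / (1 - s ^ 2) / ll s := by
    unfold qq
    rw [sinh_artanh_sq hs', log_two_cosh_artanh hs']
  have hp : pp (Real.artanh s) = Real.artanh s + (s ^ 2 / (1 - s ^ 2) / ll s) * (hh s / s) := by
    unfold pp
    rw [hq, AA_eq ht, Real.tanh_artanh hs']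
  rw [hq, hp] at h
  have h2 := mul_le_mul_of_nonneg_right h hl.le
  refine le_trans (le_of_eq ?_) h2
  have h1 : 1 - s ^ 2 ≠ 0 := by
    have : 0 < 1 - s ^ 2 := by nlinarith [hs.1, hs.2]
    exact this.ne'
  have h3 : s ≠ 0 := hs.1.ne'
  field_simp

theorem NN_eq (ρ x y : ℝ) : NN ρ x y =
    (hh ((x + y) / 2 + ρ * ((x - y) / 2)) + hh ((x + y) / 2 - ρ * ((x - y) / 2))) / 2 := by
  unfold NN
  congr 3 <;> ring

theorem NN_comm (ρ x y : ℝ) : NN ρ x y = NN ρ y x := by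
  unfold NN
  rw [add_comm]
  congr 3 <;> ring

/-- the case `y < x` -/
theorem NN_ge_aux {ρ x0 : ℝ} (hρ : ρ ∈ Set.Ioo (0 : ℝ) 1) (hx0 : x0 ∈ Set.Ioo (0 : ℝ) 1) {x y : ℝ}
    (hx : x ∈ Set.Icc (-1 : ℝ) 1) (hy : y ∈ Set.Icc (-1 : ℝ) 1) (hxy : y < x) :
    (ll (ρ * x0) / ll x0) * ((hh x + hh y) / 2)
      + ((x - y) / 2 / x0) * (hh (ρ * x0) - (ll (ρ * x0) / ll x0) * hh x0) ≤ NN ρ x y := by
  set z := (x + y) / 2 with hz
  set d := (x - y) / 2 with hd
  have hd0 : 0 < d := by rw [hd]; linarith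
  have hzd1 : z + d ≤ 1 := by rw [hz, hd]; linarith [hx.2]
  have hzd2 : -1 ≤ z - d := by rw [hz, hd]; linarith [hy.1]
  set G : ℝ → ℝ := fun r => ((hh (z + r * d) + hh (z - r * d)) / 2 - (d / x0) * hh (r * x0))
    / ll (r * x0) with hG
  have hmem : ∀ r ∈ Set.Icc (0 : ℝ) 1, r * x0 ∈ Set.Ioo (-1 : ℝ) 1 := by
    intro r hr
    constructor
    · nlinarith [hr.1, hx0.1]
    · nlinarith [hr.1, hr.2, hx0.1, hx0.2]
  have hcont : ContinuousOn G (Set.Icc ρ 1) := by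
    intro r hr
    have hr' : r ∈ Set.Icc (0 : ℝ) 1 := ⟨by linarith [hρ.1, hr.1], hr.2⟩
    have hc := hh_continuous
    have h1 : ContinuousAt (fun r : ℝ => (hh (z + r * d) + hh (z - r * d)) / 2
      - (d / x0) * hh (r * x0)) r := by
      apply Continuous.continuousAt
      fun_prop
    have h2 : ContinuousAt (fun r : ℝ => ll (r * x0)) r := by
      have h3 := (ll_hasDerivAt (hmem r hr')).continuousAt
      exact ContinuousAt.comp (f := fun r : ℝ => r * x0) h3 (by fun_prop)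
    exact (h1.div h2 (ll_pos (hmem r hr')).ne').continuousWithinAt
  have hder : ∀ r ∈ Set.Ioo (0 : ℝ) 1, ∃ G' : ℝ, G' ≤ 0 ∧ HasDerivAt G G' r := by
    intro r hr
    have hrx := hmem r ⟨hr.1.le, hr.2.le⟩
    have hrx0 : r * x0 ∈ Set.Ioo (0 : ℝ) 1 := ⟨mul_pos hr.1 hx0.1, hrx.2⟩
    have hp : z + r * d ∈ Set.Ioo (-1 : ℝ) 1 := by
      constructor <;> nlinarith [hr.1, hr.2]
    have hm : z - r * d ∈ Set.Ioo (-1 : ℝ) 1 := by
      constructor <;> nlinarith [hr.1, hr.2]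
    have d1 : HasDerivAt (fun r : ℝ => hh (z + r * d)) (-Real.artanh (z + r * d) * d) r := by
      have e1 : HasDerivAt (fun r : ℝ => z + r * d) d r := by
        simpa using ((hasDerivAt_id r).mul_const d).const_add z
      exact HasDerivAt.comp (h₂ := hh) (h := fun r : ℝ => z + r * d) r (hh_hasDerivAt hp) e1
    have d2 : HasDerivAt (fun r : ℝ => hh (z - r * d)) (-Real.artanh (z - r * d) * (-d)) r := by
      have e1 : HasDerivAt (fun r : ℝ => z - r * d) (-d) r := by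
        simpa using ((hasDerivAt_id r).mul_const d).const_sub z
      exact HasDerivAt.comp (h₂ := hh) (h := fun r : ℝ => z - r * d) r (hh_hasDerivAt hm) e1
    have e3 : HasDerivAt (fun r : ℝ => r * x0) x0 r := by
      simpa using (hasDerivAt_id r).mul_const x0
    have d3 : HasDerivAt (fun r : ℝ => hh (r * x0)) (-Real.artanh (r * x0) * x0) r :=
      HasDerivAt.comp (h₂ := hh) (h := fun r : ℝ => r * x0) r (hh_hasDerivAt hrx) e3
    have d4 : HasDerivAt (fun r : ℝ => ll (r * x0)) ((r * x0) / (1 - (r * x0) ^ 2) * x0) r :=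
      HasDerivAt.comp (h₂ := ll) (h := fun r : ℝ => r * x0) r (ll_hasDerivAt hrx) e3
    have d5 : HasDerivAt (fun r : ℝ => (hh (z + r * d) + hh (z - r * d)) / 2
      - (d / x0) * hh (r * x0)) _ r := ((d1.add d2).div_const 2).sub (d3.const_mul (d / x0))
    have d6 : HasDerivAt G _ r := d5.div d4 (ll_pos hrx).ne'
    refine ⟨_, ?_, d6⟩
    apply div_nonpos_of_nonpos_of_nonneg _ (by positivity)
    have hK := KK_ge_lin' hrx0 hp hm
    have hKK : KK (z + r * d) (z - r * d)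
        = r * (d * (Real.artanh (z + r * d) - Real.artanh (z - r * d)) / 2) := by
      unfold KK; ring
    rw [hKK] at hK
    have hr0 := hr.1
    have hone : 0 < 1 - (r * x0) ^ 2 := by nlinarith [hrx0.1, hrx0.2]
    set L := ll (r * x0) with hL
    set V := Real.artanh (r * x0) with hV
    set H := hh (r * x0) with hH
    set Np := (hh (z + r * d) + hh (z - r * d)) / 2 with hNp
    set A := Real.artanh (z + r * d) with hA
    set Bm := Real.artanh (z - r * d) with hBm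
    set q := 1 - (r * x0) ^ 2 with hq
    have hx0p := hx0.1
    -- multiply the target by `r`
    have e7 : (z + r * d - (z - r * d)) / 2 = r * d := by ring
    rw [e7] at hK
    have hfin : r * (((-A * d + -Bm * -d) / 2 - d / x0 * (-V * x0)) * L
        - (Np - d / x0 * H) * (r * x0 / q * x0))
        = ((V * L + (r * x0) / q * H) * (r * d) - ((r * x0) ^ 2 / q) * Np)
          - r * (d * (A - Bm) / 2) * L := by
      field_simp
      ring
    have hneg : r * (((-A * d + -Bm * -d) / 2 - d / x0 * (-V * x0)) * L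
        - (Np - d / x0 * H) * (r * x0 / q * x0)) ≤ 0 := by
      rw [hfin]; linarith
    by_contra hcon
    push Not at hcon
    have := mul_pos hr0 hcon
    linarith
  have hanti : AntitoneOn G (Set.Icc ρ 1) := by
    apply antitoneOn_of_deriv_nonpos (convex_Icc ρ 1) hcont
    · intro r hr
      rw [interior_Icc] at hr
      obtain ⟨G', _, h2⟩ := hder r ⟨by linarith [hρ.1, hr.1], hr.2⟩
      exact h2.differentiableAt.differentiableWithinAt
    · intro r hr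
      rw [interior_Icc] at hr
      obtain ⟨G', h1, h2⟩ := hder r ⟨by linarith [hρ.1, hr.1], hr.2⟩
      rw [h2.deriv]; exact h1
  have hfinal := hanti ⟨le_refl _, hρ.2.le⟩ ⟨hρ.2.le, le_refl _⟩ hρ.2.le
  simp only [hG, one_mul] at hfinal
  have hl0 := ll_pos (hmem ρ ⟨hρ.1.le, hρ.2.le⟩)
  have hl1 := ll_pos (x := x0) ⟨by linarith [hx0.1], hx0.2⟩
  have hx1 : z + d = x := by rw [hz, hd]; ring
  have hy1 : z - d = y := by rw [hz, hd]; ring
  rw [hx1, hy1, div_le_div_iff₀ hl1 hl0] at hfinal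
  rw [NN_eq]
  rw [← hz, ← hd]
  have hgoal : (ll (ρ * x0) / ll x0) * ((hh x + hh y) / 2)
      + (d / x0) * (hh (ρ * x0) - (ll (ρ * x0) / ll x0) * hh x0)
      = (((hh x + hh y) / 2 - d / x0 * hh x0) * ll (ρ * x0)) / ll x0 + d / x0 * hh (ρ * x0) := by
    field_simp
    ring
  rw [hgoal]
  have h9 : (((hh x + hh y) / 2 - d / x0 * hh x0) * ll (ρ * x0)) / ll x0
      ≤ (hh (z + ρ * d) + hh (z - ρ * d)) / 2 - d / x0 * hh (ρ * x0) := by
    rw [div_le_iff₀ hl1]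
    exact hfinal
  linarith

/-- L2 pointwise on the closed square. -/
theorem NN_ge {ρ x0 : ℝ} (hρ : ρ ∈ Set.Ioo (0 : ℝ) 1) (hx0 : x0 ∈ Set.Ioo (0 : ℝ) 1) {x y : ℝ}
    (hx : x ∈ Set.Icc (-1 : ℝ) 1) (hy : y ∈ Set.Icc (-1 : ℝ) 1) :
    (ll (ρ * x0) / ll x0) * ((hh x + hh y) / 2)
      + ((x - y) / 2 / x0) * (hh (ρ * x0) - (ll (ρ * x0) / ll x0) * hh x0) ≤ NN ρ x y := by
  have hm : ρ * x0 ∈ Set.Ioo (0 : ℝ) 1 :=
    ⟨mul_pos hρ.1 hx0.1, by nlinarith [hρ.1, hρ.2, hx0.1, hx0.2]⟩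
  have hle : ρ * x0 ≤ x0 := by nlinarith [hρ.2, hx0.1]
  have hl0 := ll_pos (x := ρ * x0) ⟨by linarith [hm.1], hm.2⟩
  have hl1 := ll_pos (x := x0) ⟨by linarith [hx0.1], hx0.2⟩
  have hratio : ll (ρ * x0) / ll x0 ≤ 1 := by
    rw [div_le_one hl1]; exact ll_mono hm.1.le hle hx0.2
  have hratio0 : 0 < ll (ρ * x0) / ll x0 := div_pos hl0 hl1
  have hh1 : hh x0 ≤ hh (ρ * x0) :=
    hh_strictAnti.antitoneOn ⟨hm.1.le, hm.2.le⟩ ⟨hx0.1.le, hx0.2.le⟩ hle
  have hhx0 : 0 ≤ hh x0 := hh_nonneg ⟨by linarith [hx0.1], hx0.2.le⟩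
  have hcoef : 0 ≤ hh (ρ * x0) - (ll (ρ * x0) / ll x0) * hh x0 := by
    nlinarith
  rcases lt_trichotomy y x with h | h | h
  · exact NN_ge_aux hρ hx0 hx hy h
  · subst h
    have e1 : NN ρ y y = hh y := by
      rw [NN_eq]
      have : (y + y) / 2 = y := by ring
      rw [this, sub_self, zero_div, mul_zero, add_zero, sub_zero]
      ring
    rw [e1, sub_self]
    have := hh_nonneg hy
    have e2 : (hh y + hh y) / 2 = hh y := by ring
    rw [e2]
    simp only [zero_div, zero_mul, add_zero]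
    nlinarith
  · have h1 := NN_ge_aux hρ hx0 hy hx h
    rw [NN_comm ρ y x] at h1
    refine le_trans ?_ h1
    have e1 : (hh x + hh y) / 2 = (hh y + hh x) / 2 := by ring
    rw [e1]
    have e2 : (x - y) / 2 / x0 ≤ (y - x) / 2 / x0 := by
      apply div_le_div_of_nonneg_right _ hx0.1.le
      linarith
    have := mul_le_mul_of_nonneg_right e2 hcoef
    linarith

/-- L2 in expectation. -/
theorem EE_NN_ge {n : ℕ} {ρ x0 : ℝ} (hρ : ρ ∈ Set.Ioo (0 : ℝ) 1) (hx0 : x0 ∈ Set.Ioo (0 : ℝ) 1)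
    (X Y : (Fin n → Bool) → ℝ) (hX : ∀ x, X x ∈ Set.Icc (-1 : ℝ) 1)
    (hY : ∀ x, Y x ∈ Set.Icc (-1 : ℝ) 1) :
    (ll (ρ * x0) / ll x0) * ((EE (fun x => hh (X x)) + EE (fun x => hh (Y x))) / 2)
      + ((EE X - EE Y) / 2 / x0) * (hh (ρ * x0) - (ll (ρ * x0) / ll x0) * hh x0)
      ≤ EE (fun x => NN ρ (X x) (Y x)) := by
  set κ := ll (ρ * x0) / ll x0 with hκ
  set γ := hh (ρ * x0) - κ * hh x0 with hγ
  have h1 : EE (fun x => κ * ((hh (X x) + hh (Y x)) / 2) + ((X x - Y x) / 2 / x0) * γ)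
      ≤ EE (fun x => NN ρ (X x) (Y x)) := EE_mono (fun x => NN_ge hρ hx0 (hX x) (hY x))
  have h2 : (fun x => κ * ((hh (X x) + hh (Y x)) / 2) + ((X x - Y x) / 2 / x0) * γ)
      = fun x => (κ / 2 * hh (X x) + κ / 2 * hh (Y x))
        + (γ / 2 / x0 * X x + (-(γ / 2 / x0)) * Y x) := by
    funext x; ring
  rw [h2, EE_add, EE_add, EE_add, EE_mul_left, EE_mul_left, EE_mul_left, EE_mul_left] at h1
  refine le_trans (le_of_eq ?_) h1
  ring

/-- L2 in expectation, evaluated at the matching symmetric atom. -/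
theorem EE_NN_ge_theta {n : ℕ} {ρ x0 T : ℝ} (hρ : ρ ∈ Set.Ioo (0 : ℝ) 1)
    (hx0 : x0 ∈ Set.Ioo (0 : ℝ) 1)
    (X Y : (Fin n → Bool) → ℝ) (hX : ∀ x, X x ∈ Set.Icc (-1 : ℝ) 1)
    (hY : ∀ x, Y x ∈ Set.Icc (-1 : ℝ) 1)
    (hT : T ≤ (EE (fun x => hh (X x)) + EE (fun x => hh (Y x))) / 2)
    (hmatch : x0 * T = (EE X - EE Y) / 2 * hh x0) :
    ((EE X - EE Y) / 2 / x0) * hh (ρ * x0) ≤ EE (fun x => NN ρ (X x) (Y x)) := by
  have hm : ρ * x0 ∈ Set.Ioo (0 : ℝ) 1 :=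
    ⟨mul_pos hρ.1 hx0.1, by nlinarith [hρ.1, hρ.2, hx0.1, hx0.2]⟩
  have hl0 := ll_pos (x := ρ * x0) ⟨by linarith [hm.1], hm.2⟩
  have hl1 := ll_pos (x := x0) ⟨by linarith [hx0.1], hx0.2⟩
  have h := EE_NN_ge hρ hx0 X Y hX hY
  have hκ : 0 < ll (ρ * x0) / ll x0 := div_pos hl0 hl1
  set κ := ll (ρ * x0) / ll x0
  have h2 : κ * T ≤ κ * ((EE (fun x => hh (X x)) + EE (fun x => hh (Y x))) / 2) :=
    mul_le_mul_of_nonneg_left hT hκ.le
  have h3 : T = (EE X - EE Y) / 2 / x0 * hh x0 := by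
    have := hx0.1.ne'
    field_simp
    linarith
  have h4 : κ * T = (EE X - EE Y) / 2 / x0 * (κ * hh x0) := by rw [h3]; ring
  have h5 : (EE X - EE Y) / 2 / x0 * (hh (ρ * x0) - κ * hh x0)
      = (EE X - EE Y) / 2 / x0 * hh (ρ * x0) - (EE X - EE Y) / 2 / x0 * (κ * hh x0) := by ring
  linarith

end Vale.Agent.P322
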