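import Mathlib
import Vale.Agent.Lib.P322.FixL2

/-!
Courtade-Kumar: the one-corner dual certificate.  For a pair `(a, b)` with `a > b`, `a + b ≥ 0`
there is an affine minorant `A (x - y) / 2 + B (1 - (x + y) / 2) - D (h x + h y) / 2` of the edge
cost `K x y` on the open square which is exact at `(a, b)` and vanishes at the corner `(1, 1)`.
-/

namespace Vale.Agent.P322.Corner

open Finset

theorem one_sub_sq_pos {x : ℝ} (hx : x ∈ Set.Ioo (-1 : ℝ) 1) : 0 < 1 - x ^ 2 := by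
  nlinarith [hx.1, hx.2]

theorem artanh_hasDerivAt' {x : ℝ} (hx : x ∈ Set.Ioo (-1 : ℝ) 1) :
    HasDerivAt Real.artanh (1 / (1 - x ^ 2)) x := by
  have h1 : (0 : ℝ) < 1 + x := by linarith [hx.1]
  have h2 : (0 : ℝ) < 1 - x := by linarith [hx.2]
  have h3 : HasDerivAt (fun y : ℝ => (Real.log (1 + y) - Real.log (1 - y)) / 2)
      ((1 / (1 + x) - (-1) / (1 - x)) / 2) x :=
    ((((hasDerivAt_id x).const_add 1).log h1.ne').sub
      (((hasDerivAt_id x).const_sub 1).log h2.ne')).div_const 2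
  have h4 : Real.artanh =ᶠ[nhds x] fun y : ℝ => (Real.log (1 + y) - Real.log (1 - y)) / 2 := by
    filter_upwards [Ioo_mem_nhds hx.1 hx.2] with y hy
    exact artanh_eq_logs hy
  refine (h3.congr_of_eventuallyEq h4).congr_deriv ?_
  have h5 : (1 : ℝ) - x ^ 2 ≠ 0 := (one_sub_sq_pos hx).ne'
  have h6 : (1 : ℝ) - x ^ 2 = (1 + x) * (1 - x) := by ring
  rw [h6]
  field_simp
  ring

theorem hh_eq_ll {x : ℝ} (hx : x ∈ Set.Ioo (-1 : ℝ) 1) :
    hh x = ll x - x * Real.artanh x := by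
  have h := hh_tanh (Real.artanh x)
  rw [Real.tanh_artanh hx, log_two_cosh_artanh hx] at h
  rw [h]; ring

theorem hh_eq_logs {x : ℝ} (hx : x ∈ Set.Ioo (-1 : ℝ) 1) :
    hh x = Real.log 2 - ((1 + x) * Real.log (1 + x) + (1 - x) * Real.log (1 - x)) / 2 := by
  have h1 : (0 : ℝ) < 1 + x := by linarith [hx.1]
  have h2 : (0 : ℝ) < 1 - x := by linarith [hx.2]
  rw [hh_eq_ll hx, artanh_eq_logs hx]
  unfold ll
  rw [show (1 : ℝ) - x ^ 2 = (1 + x) * (1 - x) by ring, Real.log_mul h1.ne' h2.ne']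
  ring

/-- the function `k - D φ` -/
noncomputable def chi (D x : ℝ) : ℝ := x * Real.artanh x - D * (Real.log 2 - hh x)

noncomputable def chi1 (D x : ℝ) : ℝ := Real.artanh x + x / (1 - x ^ 2) - D * Real.artanh x

noncomputable def chi2 (D x : ℝ) : ℝ := (2 / (1 - x ^ 2) - D) / (1 - x ^ 2)

noncomputable def Xi (D y : ℝ) : ℝ := y ^ 2 / (1 - y ^ 2) + D * Real.log (1 - y ^ 2) / 2

theorem chi_hasDerivAt (D : ℝ) {x : ℝ} (hx : x ∈ Set.Ioo (-1 : ℝ) 1) :
    HasDerivAt (chi D) (chi1 D x) x := by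
  have h1 : HasDerivAt (fun x : ℝ => x * Real.artanh x - D * (Real.log 2 - hh x)) _ x :=
    ((hasDerivAt_id x).mul (artanh_hasDerivAt' hx)).sub
      (((hh_hasDerivAt hx).const_sub (Real.log 2)).const_mul D)
  refine HasDerivAt.congr_deriv (f := chi D) h1 ?_
  unfold chi1
  simp
  ring

theorem chi1_hasDerivAt (D : ℝ) {x : ℝ} (hx : x ∈ Set.Ioo (-1 : ℝ) 1) :
    HasDerivAt (chi1 D) (chi2 D x) x := by
  have h0 := (one_sub_sq_pos hx).ne'
  have h1 : HasDerivAt (fun x : ℝ => Real.artanh x + x / (1 - x ^ 2) - D * Real.artanh x) _ x :=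
    ((artanh_hasDerivAt' hx).add ((hasDerivAt_id x).div (((hasDerivAt_id x).pow 2).const_sub 1)
      (by simpa using h0))).sub ((artanh_hasDerivAt' hx).const_mul D)
  refine HasDerivAt.congr_deriv (f := chi1 D) h1 ?_
  unfold chi2
  simp
  field_simp
  ring

theorem Xi_hasDerivAt (D : ℝ) {x : ℝ} (hx : x ∈ Set.Ioo (-1 : ℝ) 1) :
    HasDerivAt (Xi D) (x * chi2 D x) x := by
  have h0 := (one_sub_sq_pos hx).ne'
  have h1 : HasDerivAt (fun y : ℝ => y ^ 2 / (1 - y ^ 2) + D * Real.log (1 - y ^ 2) / 2) _ x :=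
    (((hasDerivAt_id x).pow 2).div (((hasDerivAt_id x).pow 2).const_sub 1)
      (by simpa using h0)).add
      ((((((hasDerivAt_id x).pow 2).const_sub 1).log (by simpa using h0)).const_mul D).div_const 2)
  refine HasDerivAt.congr_deriv (f := Xi D) h1 ?_
  unfold chi2
  simp
  field_simp
  ring

theorem Xi_eq (D : ℝ) {y : ℝ} (hy : y ∈ Set.Ioo (-1 : ℝ) 1) :
    Xi D y = y * chi1 D y - chi D y := by
  unfold Xi chi1 chi
  rw [hh_eq_ll hy]
  unfold ll
  ring

theorem chi_neg (D x : ℝ) : chi D (-x) = chi D x := by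
  unfold chi
  rw [hh_neg]
  by_cases hx : x ∈ Set.Ioo (-1 : ℝ) 1
  · rw [artanh_eq_logs hx, artanh_eq_logs (x := -x) ⟨by linarith [hx.2], by linarith [hx.1]⟩]
    rw [show (1 : ℝ) + -x = 1 - x by ring, show (1 : ℝ) - -x = 1 + x by ring]
    ring
  · have h1 : x ≤ -1 ∨ x = 0 ∨ 1 ≤ x := by
      by_contra hcon
      push Not at hcon
      exact hx ⟨hcon.1, hcon.2.2⟩
    have h2 : -x ≤ -1 ∨ -x = 0 ∨ 1 ≤ -x := by
      rcases h1 with h | h | h
      · right; right; linarith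
      · right; left; linarith
      · left; linarith
    rw [Real.artanh_eq_zero_iff.mpr h1, Real.artanh_eq_zero_iff.mpr h2]
    ring

/-- the entropy-cost function in the coordinates `x = d / (1 - M)`, `v = (1 - M) / (1 + M)` -/
noncomputable def NC (D x v : ℝ) : ℝ :=
  chi D x + chi D (v * x) / v + D * (Real.log (1 + v) - Real.log v + Real.log (1 + v) / v)

theorem NC_neg (D x v : ℝ) : NC D (-x) v = NC D x v := by
  unfold NC
  rw [chi_neg, show v * -x = -(v * x) by ring, chi_neg]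

/-- its derivative in `v` is `SS / v ^ 2` -/
noncomputable def SS (D x v : ℝ) : ℝ := Xi D (v * x) - D * Real.log (1 + v)

theorem NC_hasDerivAt (D : ℝ) {x v : ℝ} (hv : 0 < v) (hvx : v * x ∈ Set.Ioo (-1 : ℝ) 1) :
    HasDerivAt (fun v => NC D x v) (SS D x v / v ^ 2) v := by
  have e1 : HasDerivAt (fun v : ℝ => v * x) x v := by
    simpa using (hasDerivAt_id v).mul_const x
  have e2 : HasDerivAt (fun v : ℝ => chi D (v * x)) (chi1 D (v * x) * x) v :=
    HasDerivAt.comp (h₂ := chi D) v (chi_hasDerivAt D hvx) e1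
  have e3 : HasDerivAt (fun v : ℝ => Real.log (1 + v)) (1 / (1 + v)) v := by
    simpa using ((hasDerivAt_id v).const_add 1).log (by simpa using (by positivity : (1 + v) ≠ 0))
  have e4 : HasDerivAt (fun v : ℝ => Real.log v) (1 / v) v := by
    simpa using (hasDerivAt_id v).log (by simpa using hv.ne')
  have h1 : HasDerivAt (fun v : ℝ => chi D x + chi D (v * x) / v
      + D * (Real.log (1 + v) - Real.log v + Real.log (1 + v) / v)) _ v :=
    ((e2.div (hasDerivAt_id v) hv.ne').const_add (chi D x)).add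
      (((e3.sub e4).add (e3.div (hasDerivAt_id v) hv.ne')).const_mul D)
  refine HasDerivAt.congr_deriv (f := fun v => NC D x v) h1 ?_
  unfold SS
  rw [Xi_eq D hvx]
  simp only [id]
  field_simp
  ring

/-- `-(1 - w) log (1 - w) / w` is antitone on `(0, 1)` -/
theorem aux_antitone1 : AntitoneOn (fun w : ℝ => -Real.log (1 - w) * (1 - w) / w)
    (Set.Ioo 0 1) := by
  have hd : ∀ w ∈ Set.Ioo (0 : ℝ) 1,
      HasDerivAt (fun w : ℝ => -Real.log (1 - w) * (1 - w) / w)
        ((w + Real.log (1 - w)) / w ^ 2) w := by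
    intro w hw
    have h1 : (0 : ℝ) < 1 - w := by linarith [hw.2]
    have h2 : HasDerivAt (fun w : ℝ => -Real.log (1 - w) * (1 - w) / w) _ w :=
      ((((hasDerivAt_id w).const_sub 1).log (by simpa using h1.ne')).neg.mul
        ((hasDerivAt_id w).const_sub 1)).div (hasDerivAt_id w) hw.1.ne'
    refine h2.congr_deriv ?_
    simp only [id, Pi.neg_apply, Pi.mul_apply]
    have h3 : (1 : ℝ) - w ≠ 0 := h1.ne'
    have h4 : w ≠ 0 := hw.1.ne'
    field_simp
    ring
  apply antitoneOn_of_deriv_nonpos (convex_Ioo 0 1)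
  · intro w hw
    exact (hd w hw).continuousAt.continuousWithinAt
  · intro w hw
    rw [interior_Ioo] at hw
    exact (hd w hw).differentiableAt.differentiableWithinAt
  · intro w hw
    rw [interior_Ioo] at hw
    rw [(hd w hw).deriv]
    have h1 : (0 : ℝ) < 1 - w := by linarith [hw.2]
    have := Real.log_le_sub_one_of_pos h1
    apply div_nonpos_of_nonpos_of_nonneg (by linarith) (by positivity)

theorem log_one_add_ge {v : ℝ} (hv : 0 ≤ v) : v / (1 + v) ≤ Real.log (1 + v) := by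
  have h1 : (0 : ℝ) < 1 + v := by linarith
  have := Real.one_sub_inv_le_log_of_pos h1
  have h2 : v / (1 + v) = 1 - (1 + v)⁻¹ := by field_simp; ring
  rw [h2]; exact this

/-- `log (1 + v) / v ^ 2` is antitone on `(0, ∞)` -/
theorem aux_antitone2 : AntitoneOn (fun v : ℝ => Real.log (1 + v) / v ^ 2) (Set.Ioi 0) := by
  have hd : ∀ v ∈ Set.Ioi (0 : ℝ), HasDerivAt (fun v : ℝ => Real.log (1 + v) / v ^ 2)
      ((v / (1 + v) - 2 * Real.log (1 + v)) / v ^ 3) v := by
    intro v hv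
    have hv' : (0 : ℝ) < v := hv
    have h1 : (1 : ℝ) + v ≠ 0 := by positivity
    have h2 : HasDerivAt (fun v : ℝ => Real.log (1 + v) / v ^ 2) _ v :=
      (((hasDerivAt_id v).const_add 1).log (by simpa using h1)).div ((hasDerivAt_id v).pow 2)
        (by simpa using hv'.ne')
    refine h2.congr_deriv ?_
    simp only [id]
    field_simp
    simp
    ring
  apply antitoneOn_of_deriv_nonpos (convex_Ioi 0)
  · intro v hv
    exact (hd v hv).continuousAt.continuousWithinAt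
  · intro v hv
    rw [interior_Ioi] at hv
    exact (hd v hv).differentiableAt.differentiableWithinAt
  · intro v hv
    rw [interior_Ioi] at hv
    rw [(hd v hv).deriv]
    have hv' : (0 : ℝ) < v := hv
    have h1 := log_one_add_ge hv'.le
    have h2 : 0 ≤ v / (1 + v) := by positivity
    apply div_nonpos_of_nonpos_of_nonneg (by linarith) (by positivity)

/-- the normalised sign function, monotone in `v` at fixed `x` -/
noncomputable def QQ (x v : ℝ) : ℝ :=
  (-Real.log (1 - (v * x) ^ 2) * (1 - (v * x) ^ 2) / (v * x) ^ 2) / 2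
    + (Real.log (1 + v) / v ^ 2) * (1 / x ^ 2) - Real.log (1 + v)

theorem SS_eq (D : ℝ) {x v : ℝ} (hv : 0 < v) (hx : 0 < x) (hvx : v * x < 1) :
    SS D x v = (v * x) ^ 2 / (1 - (v * x) ^ 2) * (1 - D * QQ x v) := by
  have h1 : 0 < 1 - (v * x) ^ 2 := one_sub_sq_pos ⟨by nlinarith [mul_pos hv hx], hvx⟩
  unfold SS QQ Xi
  have h2 : v * x ≠ 0 := (mul_pos hv hx).ne'
  have h3 := h1.ne'
  have h4 : (Real.log (1 + v) / v ^ 2) * (1 / x ^ 2) = Real.log (1 + v) / (v * x) ^ 2 := by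
    field_simp
  rw [h4]
  generalize v * x = z at *
  generalize Real.log (1 - z ^ 2) = l1 at *
  generalize Real.log (1 + v) = l2 at *
  generalize hy : 1 - z ^ 2 = y at *
  have h5 : z ^ 2 = 1 - y := by linarith
  field_simp
  rw [h5]
  ring

theorem QQ_anti {x v w : ℝ} (hv : 0 < v) (hx : 0 < x) (hvw : v ≤ w) (hwx : w * x < 1) :
    QQ x w ≤ QQ x v := by
  have hw : 0 < w := lt_of_lt_of_le hv hvw
  have h0 : v * x ≤ w * x := mul_le_mul_of_nonneg_right hvw hx.le
  have h1 := aux_antitone1 (a := (v * x) ^ 2) (b := (w * x) ^ 2)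
    ⟨by positivity, by nlinarith [mul_pos hv hx]⟩ ⟨by positivity, by nlinarith [mul_pos hw hx]⟩
    (by nlinarith [mul_pos hv hx])
  have h2 := aux_antitone2 (a := v) (b := w) hv hw hvw
  simp only at h1 h2
  have h3 : Real.log (1 + v) ≤ Real.log (1 + w) := Real.log_le_log (by linarith) (by linarith)
  unfold QQ
  have h4 : (Real.log (1 + w) / w ^ 2) * (1 / x ^ 2) ≤ (Real.log (1 + v) / v ^ 2) * (1 / x ^ 2) :=
    mul_le_mul_of_nonneg_right h2 (by positivity)
  linarith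

theorem SS_nonneg_of {D x v w : ℝ} (hD : 0 < D) (hv : 0 < v) (hx : 0 < x) (hvw : v ≤ w)
    (hwx : w * x < 1) (h : 0 ≤ SS D x v) : 0 ≤ SS D x w := by
  have hw : 0 < w := lt_of_lt_of_le hv hvw
  have h0 : v * x ≤ w * x := mul_le_mul_of_nonneg_right hvw hx.le
  rw [SS_eq D hv hx (by linarith)] at h
  rw [SS_eq D hw hx hwx]
  have h1 : 0 < 1 - (v * x) ^ 2 :=
    one_sub_sq_pos ⟨by nlinarith [mul_pos hv hx], by linarith⟩
  have h2 : 0 < 1 - (w * x) ^ 2 := one_sub_sq_pos ⟨by nlinarith [mul_pos hw hx], hwx⟩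
  have h3 : 0 < (v * x) ^ 2 / (1 - (v * x) ^ 2) := div_pos (pow_pos (mul_pos hv hx) 2) h1
  have h4 : 0 ≤ 1 - D * QQ x v := by
    by_contra hcon
    push Not at hcon
    have := mul_neg_of_pos_of_neg h3 hcon
    linarith
  have h5 := mul_le_mul_of_nonneg_left (QQ_anti hv hx hvw hwx) hD.le
  exact mul_nonneg (by positivity) (by linarith)

theorem SS_nonpos_of {D x v w : ℝ} (hD : 0 < D) (hv : 0 < v) (hx : 0 < x) (hvw : v ≤ w)
    (hwx : w * x < 1) (h : SS D x w ≤ 0) : SS D x v ≤ 0 := by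
  have hw : 0 < w := lt_of_lt_of_le hv hvw
  have h0 : v * x ≤ w * x := mul_le_mul_of_nonneg_right hvw hx.le
  rw [SS_eq D hw hx hwx] at h
  rw [SS_eq D hv hx (by linarith)]
  have h1 : 0 < 1 - (v * x) ^ 2 :=
    one_sub_sq_pos ⟨by nlinarith [mul_pos hv hx], by linarith⟩
  have h2 : 0 < 1 - (w * x) ^ 2 := one_sub_sq_pos ⟨by nlinarith [mul_pos hw hx], hwx⟩
  have h3 : 0 < (w * x) ^ 2 / (1 - (w * x) ^ 2) := div_pos (pow_pos (mul_pos hw hx) 2) h2
  have h4 : 1 - D * QQ x w ≤ 0 := by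
    by_contra hcon
    push Not at hcon
    have := mul_pos h3 hcon
    linarith
  have h5 := mul_le_mul_of_nonneg_left (QQ_anti hv hx hvw hwx) hD.le
  exact mul_nonpos_of_nonneg_of_nonpos (by positivity) (by linarith)

/-- if `SS ≤ 0` at `w` then `NC` decreases up to `w` -/
theorem NC_ge_of_nonpos {D x v w : ℝ} (hD : 0 < D) (hv : 0 < v) (hx : 0 ≤ x) (hvw : v ≤ w)
    (hwx : w * x < 1) (h : SS D x w ≤ 0) : NC D x w ≤ NC D x v := by
  have hw : 0 < w := lt_of_lt_of_le hv hvw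
  have hmem : ∀ r ∈ Set.Icc v w, r * x ∈ Set.Ioo (-1 : ℝ) 1 := by
    intro r hr
    have h1 : 0 ≤ r * x := mul_nonneg (by linarith [hr.1]) hx
    have h2 : r * x ≤ w * x := mul_le_mul_of_nonneg_right hr.2 hx
    exact ⟨by linarith, by linarith⟩
  have hd : ∀ r ∈ Set.Icc v w, HasDerivAt (fun v => NC D x v) (SS D x r / r ^ 2) r :=
    fun r hr => NC_hasDerivAt D (by linarith [hr.1]) (hmem r hr)
  have hs : ∀ r ∈ Set.Icc v w, SS D x r ≤ 0 := by
    intro r hr
    rcases hx.lt_or_eq with hx' | hx'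
    · exact SS_nonpos_of hD (by linarith [hr.1]) hx' hr.2 hwx h
    · rw [← hx']
      unfold SS Xi
      have : 0 ≤ Real.log (1 + r) := Real.log_nonneg (by linarith [hr.1])
      simp
      positivity
  have : AntitoneOn (fun v => NC D x v) (Set.Icc v w) := by
    apply antitoneOn_of_deriv_nonpos (convex_Icc v w)
    · intro r hr
      exact (hd r hr).continuousAt.continuousWithinAt
    · intro r hr
      exact (hd r (interior_subset hr)).differentiableAt.differentiableWithinAt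
    · intro r hr
      rw [(hd r (interior_subset hr)).deriv]
      exact div_nonpos_of_nonpos_of_nonneg (hs r (interior_subset hr)) (by positivity)
  exact this ⟨le_refl _, hvw⟩ ⟨hvw, le_refl _⟩ hvw

/-- if `SS ≥ 0` at `v` then `NC` increases from `v` on -/
theorem NC_ge_of_nonneg {D x v w : ℝ} (hD : 0 < D) (hv : 0 < v) (hx : 0 < x) (hvw : v ≤ w)
    (hwx : w * x < 1) (h : 0 ≤ SS D x v) : NC D x v ≤ NC D x w := by
  have hw : 0 < w := lt_of_lt_of_le hv hvw
  have hlt : ∀ r ∈ Set.Icc v w, r * x < 1 := by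
    intro r hr
    have h2 : r * x ≤ w * x := mul_le_mul_of_nonneg_right hr.2 hx.le
    linarith
  have hmem : ∀ r ∈ Set.Icc v w, r * x ∈ Set.Ioo (-1 : ℝ) 1 := by
    intro r hr
    have h1 : 0 ≤ r * x := mul_nonneg (by linarith [hr.1]) hx.le
    exact ⟨by linarith, hlt r hr⟩
  have hd : ∀ r ∈ Set.Icc v w, HasDerivAt (fun v => NC D x v) (SS D x r / r ^ 2) r :=
    fun r hr => NC_hasDerivAt D (by linarith [hr.1]) (hmem r hr)
  have : MonotoneOn (fun v => NC D x v) (Set.Icc v w) := by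
    apply monotoneOn_of_deriv_nonneg (convex_Icc v w)
    · intro r hr
      exact (hd r hr).continuousAt.continuousWithinAt
    · intro r hr
      exact (hd r (interior_subset hr)).differentiableAt.differentiableWithinAt
    · intro r hr
      rw [(hd r (interior_subset hr)).deriv]
      have hr' : r ∈ Set.Icc v w := interior_subset hr
      exact div_nonneg (SS_nonneg_of hD hv hx hr'.1 (hlt r hr') h) (by positivity)
  exact this ⟨le_refl _, hvw⟩ ⟨hvw, le_refl _⟩ hvw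

/-! ### the curve `SS = 0`, parametrised by `y = v x` -/

noncomputable def VV (D y : ℝ) : ℝ := Real.exp (Xi D y / D) - 1

noncomputable def XX (D y : ℝ) : ℝ := y / VV D y

/-- the slope along the curve -/
noncomputable def slp (D y : ℝ) : ℝ := chi1 D (XX D y) + chi1 D y

/-- the value along the curve -/
noncomputable def cur (D y : ℝ) : ℝ :=
  chi D (XX D y) + XX D y * chi1 D y + D * (Real.log (1 + VV D y) - Real.log (VV D y))

theorem Xi_eq_log {D y : ℝ} (hD : 0 < D) : Xi D y = D * Real.log (1 + VV D y) := by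
  unfold VV
  rw [add_sub_cancel, Real.log_exp]
  field_simp

theorem VV_eq_of {D y v : ℝ} (hD : 0 < D) (hv : 0 < v) (h : Xi D y = D * Real.log (1 + v)) :
    VV D y = v := by
  unfold VV
  rw [h, mul_div_cancel_left₀ _ hD.ne', Real.exp_log (by linarith)]
  ring

theorem NC_on_curve {D y : ℝ} (hD : 0 < D) (hy : y ∈ Set.Ioo (-1 : ℝ) 1) (hV : 0 < VV D y) :
    NC D (XX D y) (VV D y) = cur D y := by
  have h1 := Xi_eq_log (D := D) (y := y) hD
  rw [Xi_eq D hy] at h1
  unfold NC cur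
  have h2 : VV D y * XX D y = y := by
    unfold XX; field_simp
  rw [h2]
  have h3 : chi D y = y * chi1 D y - D * Real.log (1 + VV D y) := by linarith
  rw [h3]
  unfold XX
  field_simp
  ring

theorem log_ge_half {V : ℝ} (h0 : 0 ≤ V) (h1 : V ≤ 1) : V / 2 ≤ Real.log (1 + V) := by
  refine le_trans ?_ (log_one_add_ge h0)
  rw [div_le_div_iff₀ (by norm_num) (by linarith)]
  nlinarith

/-- basic facts along the curve -/
theorem curve_basic {D ya yb : ℝ} (hD : 0 < D) (hya : 0 < ya) (hyb : yb < 1)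
    (hXi : 0 < Xi D ya) (hVb : Xi D yb ≤ D * Real.log 2) {y : ℝ} (hy : y ∈ Set.Icc ya yb) :
    D < 2 / (1 - y ^ 2) ∧ 0 < VV D y ∧ VV D y ≤ 1 := by
  have hmem : ∀ r ∈ Set.Icc ya yb, r ∈ Set.Ioo (-1 : ℝ) 1 := by
    intro r hr
    exact ⟨by linarith [hr.1], by linarith [hr.2]⟩
  have hab : ya ≤ yb := hy.1.trans hy.2
  have h1 : 0 < 1 - ya ^ 2 := one_sub_sq_pos (hmem ya ⟨le_refl _, hab⟩)
  have hDa : D < 2 / (1 - ya ^ 2) := by
    have h2 : Real.log (1 - ya ^ 2) ≤ -ya ^ 2 := by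
      have := Real.log_le_sub_one_of_pos h1
      linarith
    unfold Xi at hXi
    have h3 : D * Real.log (1 - ya ^ 2) ≤ D * (-ya ^ 2) := mul_le_mul_of_nonneg_left h2 hD.le
    have h4 : D * ya ^ 2 / 2 < ya ^ 2 / (1 - ya ^ 2) := by linarith
    have h5 : 0 < ya ^ 2 := by positivity
    rw [div_lt_div_iff₀ (by norm_num) h1] at h4
    rw [lt_div_iff₀ h1]
    nlinarith
  have hDr : ∀ r ∈ Set.Icc ya yb, D < 2 / (1 - r ^ 2) := by
    intro r hr
    have h2 : 0 < 1 - r ^ 2 := one_sub_sq_pos (hmem r hr)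
    refine hDa.trans_le ?_
    apply div_le_div_of_nonneg_left (by norm_num) h2
    nlinarith [hr.1]
  have hmono : MonotoneOn (Xi D) (Set.Icc ya yb) := by
    apply monotoneOn_of_deriv_nonneg (convex_Icc ya yb)
    · intro r hr
      exact (Xi_hasDerivAt D (hmem r hr)).continuousAt.continuousWithinAt
    · intro r hr
      exact (Xi_hasDerivAt D (hmem r (interior_subset hr))).differentiableAt.differentiableWithinAt
    · intro r hr
      have hr' := interior_subset hr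
      rw [(Xi_hasDerivAt D (hmem r hr')).deriv]
      have h2 : 0 < 1 - r ^ 2 := one_sub_sq_pos (hmem r hr')
      have h3 := hDr r hr'
      unfold chi2
      have h4 : 0 < r := by linarith [hr'.1]
      exact mul_nonneg h4.le (div_nonneg (by linarith) h2.le)
  have h2 : Xi D ya ≤ Xi D y := hmono ⟨le_refl _, hab⟩ hy hy.1
  have h3 : Xi D y ≤ Xi D yb := hmono hy ⟨hab, le_refl _⟩ hy.2
  refine ⟨hDr y hy, ?_, ?_⟩
  · unfold VV
    have : 0 < Xi D y / D := div_pos (by linarith) hD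
    have := Real.add_one_lt_exp this.ne'
    linarith
  · unfold VV
    have h4 : Xi D y / D ≤ Real.log 2 := by
      rw [div_le_iff₀ hD]; linarith
    have h5 := Real.exp_le_exp.mpr h4
    rw [Real.exp_log (by norm_num)] at h5
    linarith

theorem VV_hasDerivAt {D y : ℝ} (hy : y ∈ Set.Ioo (-1 : ℝ) 1) :
    HasDerivAt (VV D) ((1 + VV D y) * (y * chi2 D y / D)) y := by
  have h1 : HasDerivAt (fun y : ℝ => Real.exp (Xi D y / D) - 1) _ y :=
    (((Xi_hasDerivAt D hy).div_const D).exp).sub_const 1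
  refine HasDerivAt.congr_deriv (f := VV D) h1 ?_
  unfold VV
  ring

theorem XX_hasDerivAt {D y : ℝ} (hD : 0 < D) (hy : y ∈ Set.Ioo (0 : ℝ) 1) (hV0 : 0 < VV D y)
    (hV1 : VV D y ≤ 1) : ∃ X' : ℝ, X' ≤ -1 ∧ HasDerivAt (XX D) X' y ∧
      X' = (VV D y - y * ((1 + VV D y) * (y * chi2 D y / D))) / VV D y ^ 2 := by
  have hy' : y ∈ Set.Ioo (-1 : ℝ) 1 := ⟨by linarith [hy.1], hy.2⟩
  have h0 : 0 < 1 - y ^ 2 := one_sub_sq_pos hy'
  have h1 : HasDerivAt (fun y : ℝ => y / VV D y) _ y :=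
    (hasDerivAt_id y).div (VV_hasDerivAt (D := D) hy') hV0.ne'
  refine ⟨_, ?_, HasDerivAt.congr_deriv (f := XX D) h1 ?_, rfl⟩
  · set V := VV D y with hV
    have hXi := Xi_eq_log (D := D) (y := y) hD
    rw [← hV] at hXi
    unfold Xi at hXi
    have h2 : Real.log (1 - y ^ 2) ≤ -y ^ 2 := by
      have := Real.log_le_sub_one_of_pos h0
      linarith
    have h3 := log_ge_half hV0.le hV1
    -- K : 2 y ^ 2 / ((1 - y ^ 2) D) - y ^ 2 ≥ V (1 - y ^ 2)
    have h4 : V + y ^ 2 ≤ 2 * Real.log (1 + V) - Real.log (1 - y ^ 2) := by linarith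
    have h5 : 2 * (y ^ 2 / (1 - y ^ 2)) = D * (2 * Real.log (1 + V) - Real.log (1 - y ^ 2)) := by
      linarith
    have h6 : D * (V + y ^ 2) ≤ 2 * (y ^ 2 / (1 - y ^ 2)) := by
      rw [h5]; exact mul_le_mul_of_nonneg_left h4 hD.le
    have h7 : V ≤ y * (y * chi2 D y / D) := by
      unfold chi2
      have e1 : y * (y * ((2 / (1 - y ^ 2) - D) / (1 - y ^ 2)) / D)
          = (2 * (y ^ 2 / (1 - y ^ 2)) - D * y ^ 2) / (D * (1 - y ^ 2)) := by
        field_simp
      rw [e1, le_div_iff₀ (by positivity)]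
      have e2 : V * (D * (1 - y ^ 2)) ≤ D * V := by
        have : 0 ≤ D * V * y ^ 2 := by positivity
        nlinarith
      linarith
    rw [div_le_iff₀ (by positivity)]
    nlinarith [mul_nonneg hV0.le (sub_nonneg.mpr h7)]
  · simp only [id]
    ring

/-- `XX` decreases with slope at most `-1` -/
theorem XX_anti {D ya yb : ℝ} (hD : 0 < D) (hya : 0 < ya) (hyb : yb < 1)
    (hXi : 0 < Xi D ya) (hVb : Xi D yb ≤ D * Real.log 2) :
    AntitoneOn (XX D) (Set.Icc ya yb) := by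
  have hd : ∀ r ∈ Set.Icc ya yb, ∃ X' : ℝ, X' ≤ -1 ∧ HasDerivAt (XX D) X' r := by
    intro r hr
    obtain ⟨_, h2, h3⟩ := curve_basic hD hya hyb hXi hVb hr
    obtain ⟨X', h4, h5, _⟩ := XX_hasDerivAt hD ⟨by linarith [hr.1], by linarith [hr.2]⟩ h2 h3
    exact ⟨X', h4, h5⟩
  apply antitoneOn_of_deriv_nonpos (convex_Icc ya yb)
  · intro r hr
    obtain ⟨X', _, h⟩ := hd r hr
    exact h.continuousAt.continuousWithinAt
  · intro r hr
    obtain ⟨X', _, h⟩ := hd r (interior_subset hr)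
    exact h.differentiableAt.differentiableWithinAt
  · intro r hr
    obtain ⟨X', h1, h⟩ := hd r (interior_subset hr)
    rw [h.deriv]
    linarith

/-- all facts on the curve -/
theorem curve_facts {D ya yb : ℝ} (hD : 0 < D) (hya : 0 < ya) (hyb : yb < 1)
    (hXi : 0 < Xi D ya) (hVb : Xi D yb ≤ D * Real.log 2) (hXa : XX D ya < 1)
    {y : ℝ} (hy : y ∈ Set.Icc ya yb) :
    y ≤ XX D y ∧ XX D y < 1 ∧ ∃ X' s' : ℝ, X' ≤ -1 ∧ s' ≤ 0 ∧ HasDerivAt (XX D) X' y ∧
      HasDerivAt (slp D) s' y ∧ HasDerivAt (cur D) (slp D y * X') y := by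
  obtain ⟨hD2, hV0, hV1⟩ := curve_basic hD hya hyb hXi hVb hy
  have hy0 : 0 < y := by linarith [hy.1]
  have hy1 : y < 1 := by linarith [hy.2]
  have hym : y ∈ Set.Ioo (-1 : ℝ) 1 := ⟨by linarith, hy1⟩
  obtain ⟨X', hX', hdX, hXe⟩ := XX_hasDerivAt hD ⟨hy0, hy1⟩ hV0 hV1
  have hab : ya ≤ yb := hy.1.trans hy.2
  have h1 : XX D y ≤ XX D ya := XX_anti hD hya hyb hXi hVb ⟨le_refl _, hab⟩ hy hy.1
  have h2 : y ≤ XX D y := by
    unfold XX
    rw [le_div_iff₀ hV0]
    nlinarith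
  have h3 : XX D y < 1 := by linarith
  have hXm : XX D y ∈ Set.Ioo (-1 : ℝ) 1 := ⟨by linarith, h3⟩
  refine ⟨h2, h3, X', chi2 D (XX D y) * X' + chi2 D y, hX', ?_, hdX, ?_, ?_⟩
  · have hq1 : 0 < 1 - y ^ 2 := one_sub_sq_pos hym
    have hq2 : 0 < 1 - (XX D y) ^ 2 := one_sub_sq_pos hXm
    have h4 : chi2 D y ≤ chi2 D (XX D y) := by
      unfold chi2
      have h5 : 2 / (1 - y ^ 2) ≤ 2 / (1 - (XX D y) ^ 2) := by
        apply div_le_div_of_nonneg_left (by norm_num) hq2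
        nlinarith
      apply div_le_div₀ (by linarith) (by linarith) hq2
      nlinarith
    have h5 : 0 ≤ chi2 D y := by
      unfold chi2
      exact div_nonneg (by linarith) hq1.le
    nlinarith
  · have e1 : HasDerivAt (fun y => chi1 D (XX D y)) (chi2 D (XX D y) * X') y :=
      HasDerivAt.comp (h₂ := chi1 D) y (chi1_hasDerivAt D hXm) hdX
    exact e1.add (chi1_hasDerivAt D hym)
  · have e1 : HasDerivAt (fun y => chi D (XX D y)) (chi1 D (XX D y) * X') y :=
      HasDerivAt.comp (h₂ := chi D) y (chi_hasDerivAt D hXm) hdX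
    have e2 := VV_hasDerivAt (D := D) hym
    have e3 : HasDerivAt (fun y => Real.log (1 + VV D y)) _ y :=
      (e2.const_add 1).log (by positivity)
    have e4 : HasDerivAt (fun y => Real.log (VV D y)) _ y := e2.log hV0.ne'
    have e5 : HasDerivAt (fun y => chi D (XX D y) + XX D y * chi1 D y
        + D * (Real.log (1 + VV D y) - Real.log (VV D y))) _ y :=
      (e1.add (hdX.mul (chi1_hasDerivAt D hym))).add ((e3.sub e4).const_mul D)
    refine HasDerivAt.congr_deriv (f := cur D) e5 ?_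
    unfold slp
    have hXV : XX D y = y / VV D y := rfl
    generalize chi2 D y = c2
    generalize chi1 D (XX D y) = c1
    rw [hXV]
    field_simp
    ring

theorem slp_anti {D ya yb : ℝ} (hD : 0 < D) (hya : 0 < ya) (hyb : yb < 1)
    (hXi : 0 < Xi D ya) (hVb : Xi D yb ≤ D * Real.log 2) (hXa : XX D ya < 1) :
    AntitoneOn (slp D) (Set.Icc ya yb) := by
  apply antitoneOn_of_deriv_nonpos (convex_Icc ya yb)
  · intro r hr
    obtain ⟨_, _, X', s', _, _, _, h, _⟩ := curve_facts hD hya hyb hXi hVb hXa hr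
    exact h.continuousAt.continuousWithinAt
  · intro r hr
    obtain ⟨_, _, X', s', _, _, _, h, _⟩ :=
      curve_facts hD hya hyb hXi hVb hXa (interior_subset hr)
    exact h.differentiableAt.differentiableWithinAt
  · intro r hr
    obtain ⟨_, _, X', s', _, hs, _, h, _⟩ :=
      curve_facts hD hya hyb hXi hVb hXa (interior_subset hr)
    rw [h.deriv]
    exact hs

/-- convexity of the value along the curve -/
theorem cur_ge {D ya yb : ℝ} (hD : 0 < D) (hya : 0 < ya) (hyb : yb < 1)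
    (hXi : 0 < Xi D ya) (hVb : Xi D yb ≤ D * Real.log 2) (hXa : XX D ya < 1) {y z : ℝ}
    (hy : y ∈ Set.Icc ya yb) (hz : z ∈ Set.Icc ya yb) :
    cur D y + slp D y * (XX D z - XX D y) ≤ cur D z := by
  set F : ℝ → ℝ := fun t => cur D t - slp D y * XX D t with hF
  have hd : ∀ r ∈ Set.Icc ya yb, ∃ X' : ℝ, X' ≤ -1 ∧
      HasDerivAt F ((slp D r - slp D y) * X') r := by
    intro r hr
    obtain ⟨_, _, X', s', hX', _, h1, _, h2⟩ := curve_facts hD hya hyb hXi hVb hXa hr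
    refine ⟨X', hX', ?_⟩
    exact HasDerivAt.congr_deriv (h2.sub (h1.const_mul (slp D y))) (by ring)
  have hs := slp_anti hD hya hyb hXi hVb hXa
  have key : F y ≤ F z := by
    rcases le_total y z with hyz | hyz
    · have : MonotoneOn F (Set.Icc y z) := by
        have hsub : ∀ r ∈ Set.Icc y z, r ∈ Set.Icc ya yb :=
          fun r hr => ⟨hy.1.trans hr.1, hr.2.trans hz.2⟩
        apply monotoneOn_of_deriv_nonneg (convex_Icc y z)
        · intro r hr
          obtain ⟨X', _, h⟩ := hd r (hsub r hr)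
          exact h.continuousAt.continuousWithinAt
        · intro r hr
          obtain ⟨X', _, h⟩ := hd r (hsub r (interior_subset hr))
          exact h.differentiableAt.differentiableWithinAt
        · intro r hr
          have hr' := interior_subset hr
          obtain ⟨X', h1, h⟩ := hd r (hsub r hr')
          rw [h.deriv]
          have := hs hy (hsub r hr') hr'.1
          exact mul_nonneg_of_nonpos_of_nonpos (by linarith) (by linarith)
      exact this ⟨le_refl _, hyz⟩ ⟨hyz, le_refl _⟩ hyz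
    · have : AntitoneOn F (Set.Icc z y) := by
        have hsub : ∀ r ∈ Set.Icc z y, r ∈ Set.Icc ya yb :=
          fun r hr => ⟨hz.1.trans hr.1, hr.2.trans hy.2⟩
        apply antitoneOn_of_deriv_nonpos (convex_Icc z y)
        · intro r hr
          obtain ⟨X', _, h⟩ := hd r (hsub r hr)
          exact h.continuousAt.continuousWithinAt
        · intro r hr
          obtain ⟨X', _, h⟩ := hd r (hsub r (interior_subset hr))
          exact h.differentiableAt.differentiableWithinAt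
        · intro r hr
          have hr' := interior_subset hr
          obtain ⟨X', h1, h⟩ := hd r (hsub r hr')
          rw [h.deriv]
          have := hs (hsub r hr') hy hr'.2
          exact mul_nonpos_of_nonneg_of_nonpos (by linarith) (by linarith)
      exact this ⟨le_refl _, hyz⟩ ⟨hyz, le_refl _⟩ hyz
  simp only [hF] at key
  linarith

theorem Xi_mono {D ya yb : ℝ} (hD : 0 < D) (hya : 0 < ya) (hyb : yb < 1) (hab : ya ≤ yb)
    (hXi : 0 < Xi D ya) : Xi D ya ≤ Xi D yb := by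
  have hmem : ∀ r ∈ Set.Icc ya yb, r ∈ Set.Ioo (-1 : ℝ) 1 := by
    intro r hr
    exact ⟨by linarith [hr.1], by linarith [hr.2]⟩
  have h1 : 0 < 1 - ya ^ 2 := one_sub_sq_pos (hmem ya ⟨le_refl _, hab⟩)
  have hDa : D < 2 / (1 - ya ^ 2) := by
    have h2 : Real.log (1 - ya ^ 2) ≤ -ya ^ 2 := by
      have := Real.log_le_sub_one_of_pos h1
      linarith
    unfold Xi at hXi
    have h3 : D * Real.log (1 - ya ^ 2) ≤ D * (-ya ^ 2) := mul_le_mul_of_nonneg_left h2 hD.le
    have h4 : D * ya ^ 2 / 2 < ya ^ 2 / (1 - ya ^ 2) := by linarith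
    have h5 : 0 < ya ^ 2 := by positivity
    rw [div_lt_div_iff₀ (by norm_num) h1] at h4
    rw [lt_div_iff₀ h1]
    nlinarith
  have hmono : MonotoneOn (Xi D) (Set.Icc ya yb) := by
    apply monotoneOn_of_deriv_nonneg (convex_Icc ya yb)
    · intro r hr
      exact (Xi_hasDerivAt D (hmem r hr)).continuousAt.continuousWithinAt
    · intro r hr
      exact (Xi_hasDerivAt D (hmem r (interior_subset hr))).differentiableAt.differentiableWithinAt
    · intro r hr
      have hr' := interior_subset hr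
      rw [(Xi_hasDerivAt D (hmem r hr')).deriv]
      have h2 : 0 < 1 - r ^ 2 := one_sub_sq_pos (hmem r hr')
      have h3 : D < 2 / (1 - r ^ 2) := by
        refine hDa.trans_le ?_
        apply div_le_div_of_nonneg_left (by norm_num) h2
        nlinarith [hr'.1]
      unfold chi2
      have h4 : 0 < r := by linarith [hr'.1]
      exact mul_nonneg h4.le (div_nonneg (by linarith) h2.le)
  exact hmono ⟨le_refl _, hab⟩ ⟨hab, le_refl _⟩ hab

/-- the certificate at `v = 1` in the present coordinates -/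
theorem chi_ge_lin {D s t : ℝ} (hs : s ∈ Set.Ioo (0 : ℝ) 1)
    (hS : Xi D s = D * Real.log 2) (ht : t ∈ Set.Ioo (-1 : ℝ) 1) :
    chi1 D s * t ≤ chi D t + D * Real.log 2 := by
  have hs' : s ∈ Set.Ioo (-1 : ℝ) 1 := ⟨by linarith [hs.1], hs.2⟩
  have hl := ll_pos hs'
  have h1 : s ^ 2 / (1 - s ^ 2) = D * ll s := by
    unfold Xi at hS
    unfold ll
    linarith
  have h2 := KK_ge_lin' hs (x := t) (y := -t) ht ⟨by linarith [ht.2], by linarith [ht.1]⟩
  have h3 : KK t (-t) = t * Real.artanh t := by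
    unfold KK
    rw [artanh_eq_logs ht, artanh_eq_logs (x := -t) ⟨by linarith [ht.2], by linarith [ht.1]⟩]
    rw [show (1 : ℝ) + -t = 1 - t by ring, show (1 : ℝ) - -t = 1 + t by ring]
    ring
  rw [h3, hh_neg, h1] at h2
  have h4 : Real.artanh s * ll s + s / (1 - s ^ 2) * hh s = ll s * chi1 D s := by
    have h5 : s / (1 - s ^ 2) * hh s = s / (1 - s ^ 2) * ll s
        - (s ^ 2 / (1 - s ^ 2)) * Real.artanh s := by
      rw [hh_eq_ll hs']; ring
    rw [h5, h1]
    unfold chi1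
    ring
  rw [h4] at h2
  have h6 : ll s * (chi1 D s * t) ≤ ll s * (t * Real.artanh t + D * hh t) := by
    have e1 : (t - -t) / 2 = t := by ring
    have e2 : (hh t + hh t) / 2 = hh t := by ring
    rw [e1, e2] at h2
    nlinarith
  have h7 := le_of_mul_le_mul_left h6 hl
  unfold chi
  linarith

/-- small `x` -/
theorem NC_ge_small {D xs x v : ℝ} (hD : 0 < D) (hxs : xs ∈ Set.Ioo (0 : ℝ) 1)
    (hxse : Xi D xs = D * Real.log 2) (hx : x ∈ Set.Icc (0 : ℝ) xs) (hv : v ∈ Set.Ioc (0 : ℝ) 1) :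
    2 * chi1 D xs * x ≤ NC D x v := by
  have hx1 : x < 1 := by linarith [hx.2, hxs.2]
  have hXx : SS D x 1 ≤ 0 := by
    unfold SS
    rw [one_mul, show (1 : ℝ) + 1 = 2 by norm_num]
    by_contra hcon
    push Not at hcon
    have hlt : 0 < Xi D x := by
      have : 0 < D * Real.log 2 := by positivity
      linarith
    have hx0 : 0 < x := by
      rcases hx.1.lt_or_eq with h | h
      · exact h
      · exfalso
        rw [← h] at hlt
        unfold Xi at hlt
        simp at hlt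
    have := Xi_mono hD hx0 hxs.2 hx.2 hlt
    linarith
  have h1 := NC_ge_of_nonpos hD hv.1 hx.1 hv.2 (by linarith) hXx
  have h3 := chi_ge_lin (D := D) (s := xs) (t := x) hxs hxse ⟨by linarith [hx.1], hx1⟩
  have h2 : 2 * chi1 D xs * x ≤ NC D x 1 := by
    unfold NC
    rw [one_mul, Real.log_one, show (1 : ℝ) + 1 = 2 by norm_num]
    linarith
  linarith

/-- large `x`: the minimum over `v` lies on the curve -/
theorem exists_curve {D x : ℝ} (hD : 0 < D) (hx : x ∈ Set.Ioo (0 : ℝ) 1) (hS1 : 0 ≤ SS D x 1) :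
    ∃ w ∈ Set.Ioc (0 : ℝ) 1, SS D x w = 0 := by
  have hx0 := hx.1
  set v0 := min 1 (D * (1 - x ^ 2) / 2) with hv0
  have hq : 0 < 1 - x ^ 2 := one_sub_sq_pos ⟨by linarith, hx.2⟩
  have hv00 : 0 < v0 := lt_min one_pos (by positivity)
  have hv01 : v0 ≤ 1 := min_le_left _ _
  have hv02 : v0 ≤ D * (1 - x ^ 2) / 2 := min_le_right _ _
  have hlo : SS D x v0 ≤ 0 := by
    unfold SS Xi
    have h1 : (v0 * x) ^ 2 ≤ x ^ 2 := by
      apply pow_le_pow_left₀ (by positivity)
      nlinarith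
    have h2 : 0 < 1 - (v0 * x) ^ 2 := by linarith
    have h3 : Real.log (1 - (v0 * x) ^ 2) ≤ 0 :=
      Real.log_nonpos h2.le (by nlinarith [sq_nonneg (v0 * x)])
    have h4 := log_ge_half hv00.le hv01
    have h5 : (v0 * x) ^ 2 / (1 - (v0 * x) ^ 2) ≤ D * (v0 / 2) := by
      rw [div_le_iff₀ h2]
      have h6 : (v0 * x) ^ 2 ≤ v0 * (D * (1 - x ^ 2) / 2) := by
        have h61 : x ^ 2 ≤ 1 := by linarith
        have h62 : (v0 * x) ^ 2 = v0 * (v0 * x ^ 2) := by ring
        rw [h62]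
        apply mul_le_mul_of_nonneg_left _ hv00.le
        have : v0 * x ^ 2 ≤ v0 * 1 := mul_le_mul_of_nonneg_left h61 hv00.le
        linarith
      have h8 : v0 * (D * (1 - x ^ 2) / 2) ≤ v0 * (D * (1 - (v0 * x) ^ 2) / 2) := by
        apply mul_le_mul_of_nonneg_left _ hv00.le
        have : D * (1 - x ^ 2) ≤ D * (1 - (v0 * x) ^ 2) :=
          mul_le_mul_of_nonneg_left (by linarith) hD.le
        linarith
      have h9 : v0 * (D * (1 - (v0 * x) ^ 2) / 2) = D * (v0 / 2) * (1 - (v0 * x) ^ 2) := by ring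
      linarith
    have h9 : D * (v0 / 2) ≤ D * Real.log (1 + v0) := mul_le_mul_of_nonneg_left h4 hD.le
    have h10 : D * Real.log (1 - (v0 * x) ^ 2) / 2 ≤ 0 := by
      have := mul_nonpos_of_nonneg_of_nonpos hD.le h3
      linarith
    linarith
  have hc : ContinuousOn (fun w => SS D x w) (Set.Icc v0 1) := by
    intro r hr
    have hr0 : 0 < r := by linarith [hr.1]
    have hrx : r * x ∈ Set.Ioo (-1 : ℝ) 1 := by
      constructor
      · have := mul_pos hr0 hx0; linarith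
      · nlinarith [hr.2, hx.2]
    have c1 : ContinuousAt (fun w : ℝ => Xi D (w * x)) r :=
      ContinuousAt.comp (f := fun w : ℝ => w * x) (Xi_hasDerivAt D hrx).continuousAt
        (by fun_prop)
    have c2 : ContinuousAt (fun w : ℝ => Real.log (1 + w)) r := by
      apply ContinuousAt.log (by fun_prop)
      positivity
    exact (c1.sub (c2.const_mul D)).continuousWithinAt
  have := intermediate_value_Icc hv01 hc (show (0 : ℝ) ∈ Set.Icc _ _ from ⟨hlo, hS1⟩)
  obtain ⟨w, h1, h2⟩ := this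
  exact ⟨w, ⟨by linarith [h1.1], h1.2⟩, h2⟩

/-- data of a curve point -/
theorem curve_point {D x w : ℝ} (hD : 0 < D) (hx : x ∈ Set.Ioo (0 : ℝ) 1)
    (hw : w ∈ Set.Ioc (0 : ℝ) 1) (hS : Xi D (w * x) = D * Real.log (1 + w)) :
    0 < w * x ∧ w * x < 1 ∧ w * x ≤ x ∧ VV D (w * x) = w ∧ XX D (w * x) = x ∧
      cur D (w * x) = NC D x w ∧ 0 < Xi D (w * x) ∧ Xi D (w * x) ≤ D * Real.log 2 ∧
      slp D (w * x) = chi1 D x + chi1 D (w * x) := by
  have h0 : 0 < w * x := mul_pos hw.1 hx.1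
  have h1 : w * x ≤ x := by nlinarith [hw.2, hx.1]
  have h2 : w * x < 1 := by linarith [hx.2]
  have hl1 : 0 < Real.log (1 + w) := Real.log_pos (by linarith [hw.1])
  have hl2 : Real.log (1 + w) ≤ Real.log 2 :=
    Real.log_le_log (by linarith [hw.1]) (by linarith [hw.2])
  have hV : VV D (w * x) = w := VV_eq_of hD hw.1 hS
  have hX : XX D (w * x) = x := by
    unfold XX
    rw [hV, mul_comm, mul_div_cancel_right₀ _ hw.1.ne']
  refine ⟨h0, h2, h1, hV, hX, ?_, ?_, ?_, ?_⟩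
  · rw [← NC_on_curve hD ⟨by linarith, h2⟩ (by rw [hV]; exact hw.1), hV, hX]
  · rw [hS]; positivity
  · rw [hS]; exact mul_le_mul_of_nonneg_left hl2 hD.le
  · unfold slp; rw [hX]

/-- two curve points -/
theorem curve_two {D x1 v1 x w : ℝ} (hD : 0 < D) (hx1 : x1 ∈ Set.Ioo (0 : ℝ) 1)
    (hv1 : v1 ∈ Set.Ioc (0 : ℝ) 1) (hS1 : Xi D (v1 * x1) = D * Real.log (1 + v1))
    (hx : x ∈ Set.Ioo (0 : ℝ) 1)
    (hw : w ∈ Set.Ioc (0 : ℝ) 1) (hS : Xi D (w * x) = D * Real.log (1 + w)) :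
    NC D x1 v1 + slp D (v1 * x1) * (x - x1) ≤ NC D x w := by
  obtain ⟨a1, a2, a3, a4, a5, a6, a7, a8, a9⟩ := curve_point hD hx1 hv1 hS1
  obtain ⟨b1, b2, b3, b4, b5, b6, b7, b8, b9⟩ := curve_point hD hx hw hS
  rw [← a6, ← b6]
  rcases le_total (v1 * x1) (w * x) with h | h
  · have := cur_ge hD a1 b2 a7 b8 (by rw [a5]; exact hx1.2) (y := v1 * x1) (z := w * x)
      ⟨le_refl _, h⟩ ⟨h, le_refl _⟩
    rw [a5, b5] at this
    exact this
  · have := cur_ge hD b1 a2 b7 a8 (by rw [b5]; exact hx.2) (y := v1 * x1) (z := w * x)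
      ⟨h, le_refl _⟩ ⟨le_refl _, h⟩
    rw [a5, b5] at this
    exact this

/-- the crossing point `xs` -/
theorem exists_xs {D x1 v1 : ℝ} (hD : 0 < D) (hx1 : x1 ∈ Set.Ioo (0 : ℝ) 1)
    (hv1 : v1 ∈ Set.Ioc (0 : ℝ) 1) (hS : Xi D (v1 * x1) = D * Real.log (1 + v1)) :
    ∃ xs ∈ Set.Ioo (0 : ℝ) 1, Xi D xs = D * Real.log 2 ∧ v1 * x1 ≤ xs ∧
      0 < chi1 D xs ∧ 2 * chi1 D xs ≤ slp D (v1 * x1) ∧
      NC D x1 v1 + slp D (v1 * x1) * (xs - x1) ≤ 2 * chi1 D xs * xs := by
  obtain ⟨a1, a2, a3, a4, a5, a6, a7, a8, a9⟩ := curve_point hD hx1 hv1 hS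
  have hSx1 : 0 ≤ SS D x1 1 := by
    apply SS_nonneg_of hD hv1.1 hx1.1 hv1.2 (by linarith [hx1.2])
    unfold SS
    rw [hS]
    simp
  have hSx1' : D * Real.log 2 ≤ Xi D x1 := by
    unfold SS at hSx1
    rw [one_mul, show (1 : ℝ) + 1 = 2 by norm_num] at hSx1
    linarith
  obtain ⟨xs, hxs, hxse⟩ : ∃ xs ∈ Set.Icc (v1 * x1) x1, Xi D xs = D * Real.log 2 := by
    have hc : ContinuousOn (Xi D) (Set.Icc (v1 * x1) x1) := by
      intro r hr
      exact (Xi_hasDerivAt D
        ⟨by linarith [hr.1], by linarith [hr.2, hx1.2]⟩).continuousAt.continuousWithinAt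
    obtain ⟨xs, h1, h2⟩ := intermediate_value_Icc a3 hc ⟨a8, hSx1'⟩
    exact ⟨xs, h1, h2⟩
  have hxs0 : 0 < xs := by linarith [hxs.1]
  have hxs1 : xs < 1 := by linarith [hxs.2, hx1.2]
  have hSs : Xi D (1 * xs) = D * Real.log (1 + 1) := by
    rw [one_mul, hxse, show (1 : ℝ) + 1 = 2 by norm_num]
  obtain ⟨b1, b2, b3, b4, b5, b6, b7, b8, b9⟩ :=
    curve_point (w := 1) hD ⟨hxs0, hxs1⟩ ⟨one_pos, le_refl _⟩ hSs
  rw [one_mul] at b1 b2 b3 b4 b5 b6 b7 b8 b9
  have hXi := Xi_eq D (y := xs) ⟨by linarith, hxs1⟩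
  rw [hxse] at hXi
  have hNs : NC D xs 1 = 2 * chi1 D xs * xs := by
    unfold NC
    rw [one_mul, Real.log_one, show (1 : ℝ) + 1 = 2 by norm_num]
    linarith
  have hpos : 0 < chi1 D xs := by
    have h3 : 0 < chi D xs + D * Real.log 2 := by
      unfold chi
      have h4 : 0 < Real.artanh xs := Real.artanh_pos ⟨hxs0, hxs1⟩
      have h5 : 0 < hh xs := hh_pos ⟨by linarith, hxs1⟩
      have h6 := mul_pos hxs0 h4
      have h7 := mul_pos hD h5
      nlinarith
    have h4 : 0 < xs * chi1 D xs := by linarith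
    exact pos_of_mul_pos_right h4 hxs0.le
  have hsl : 2 * chi1 D xs ≤ slp D (v1 * x1) := by
    have := slp_anti hD a1 hxs1 a7 hxse.le (by rw [a5]; exact hx1.2)
      (a := v1 * x1) (b := xs) ⟨le_refl _, hxs.1⟩ ⟨hxs.1, le_refl _⟩ hxs.1
    rw [b9] at this
    linarith
  refine ⟨xs, ⟨hxs0, hxs1⟩, hxse, hxs.1, hpos, hsl, ?_⟩
  have := curve_two hD hx1 hv1 hS (x := xs) (w := 1) ⟨hxs0, hxs1⟩ ⟨one_pos, le_refl _⟩ hSs
  rw [hNs] at this
  exact this

/-- the one-corner certificate in the coordinates `(x, v)` -/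
theorem NC_tangent {D x1 v1 : ℝ} (hD : 0 < D) (hx1 : x1 ∈ Set.Ioo (0 : ℝ) 1)
    (hv1 : v1 ∈ Set.Ioc (0 : ℝ) 1) (hS : Xi D (v1 * x1) = D * Real.log (1 + v1)) :
    0 < chi1 D x1 + chi1 D (v1 * x1) ∧
    NC D x1 v1 - (chi1 D x1 + chi1 D (v1 * x1)) * x1 ≤ 0 ∧
    ∀ x ∈ Set.Ioo (-1 : ℝ) 1, ∀ v ∈ Set.Ioc (0 : ℝ) 1,
      NC D x1 v1 + (chi1 D x1 + chi1 D (v1 * x1)) * (x - x1) ≤ NC D x v := by
  obtain ⟨a1, a2, a3, a4, a5, a6, a7, a8, a9⟩ := curve_point hD hx1 hv1 hS
  obtain ⟨xs, hxs, hxse, hy1xs, hpos, hsl, hcs⟩ := exists_xs hD hx1 hv1 hS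
  rw [← a9]
  set S := slp D (v1 * x1) with hSdef
  have hs1 : 0 < S := by linarith
  refine ⟨hs1, ?_, ?_⟩
  · have h1 : 2 * chi1 D xs * xs ≤ S * xs := mul_le_mul_of_nonneg_right hsl hxs.1.le
    linarith [mul_sub S xs x1]
  have main : ∀ x ∈ Set.Ico (0 : ℝ) 1, ∀ v ∈ Set.Ioc (0 : ℝ) 1,
      NC D x1 v1 + S * (x - x1) ≤ NC D x v := by
    intro x hx v hv
    rcases le_or_gt x xs with hxx | hxx
    · have h2 := NC_ge_small hD hxs hxse ⟨hx.1, hxx⟩ hv
      have h4 : S * (x - xs) ≤ 2 * chi1 D xs * (x - xs) := by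
        have := mul_nonneg (sub_nonneg.mpr hsl) (sub_nonneg.mpr hxx)
        linarith [mul_sub S x xs, mul_sub (2 * chi1 D xs) x xs, sub_mul S (2 * chi1 D xs) (xs - x),
          mul_sub S xs x, mul_sub (2 * chi1 D xs) xs x]
      linarith [mul_sub S x xs, mul_sub (2 * chi1 D xs) x xs, mul_sub S xs x1,
        mul_sub S x x1]
    · have hx0 : 0 < x := by linarith [hxs.1]
      have hS1 : 0 ≤ SS D x 1 := by
        unfold SS
        rw [one_mul, show (1 : ℝ) + 1 = 2 by norm_num]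
        have hpos : 0 < Xi D xs := by rw [hxse]; positivity
        have := Xi_mono hD hxs.1 hx.2 hxx.le hpos
        linarith
      obtain ⟨w, hw, hwe⟩ := exists_curve hD ⟨hx0, hx.2⟩ hS1
      have hwx1 : w * x < 1 := by nlinarith [hw.2, hx.2, hw.1]
      have hge : NC D x w ≤ NC D x v := by
        rcases le_total v w with hvw | hvw
        · exact NC_ge_of_nonpos hD hv.1 hx0.le hvw hwx1 hwe.le
        · exact NC_ge_of_nonneg hD hw.1 hx0 hvw (by nlinarith [hv.2, hx.2, hv.1]) hwe.ge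
      refine le_trans ?_ hge
      exact curve_two hD hx1 hv1 hS ⟨hx0, hx.2⟩ hw (by unfold SS at hwe; linarith)
  intro x hx v hv
  rcases le_or_gt 0 x with h0 | h0
  · exact main x ⟨h0, hx.2⟩ v hv
  · have h1 := main (-x) ⟨by linarith, by linarith [hx.1]⟩ v hv
    rw [NC_neg] at h1
    nlinarith

/-- the edge cost and the entropies in the coordinates `(x, v)`, auxiliary form -/
theorem KK_eq_NC_aux (D : ℝ) {X Y W P d : ℝ} (hWP : W + P = 2) (hX : X = P - 1 + d)
    (hY : Y = P - 1 - d) (hX0 : X ∈ Set.Ioo (-1 : ℝ) 1) (hY0 : Y ∈ Set.Ioo (-1 : ℝ) 1)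
    (hW : 0 < W) (hP : 0 < P) :
    2 * (KK X Y + D * ((hh X + hh Y) / 2)) = W * NC D (d / W) (W / P) := by
  have hX1 : 0 < 1 + X := by linarith [hX0.1]
  have hX2 : 0 < 1 - X := by linarith [hX0.2]
  have hY1 : 0 < 1 + Y := by linarith [hY0.1]
  have hY2 : 0 < 1 - Y := by linarith [hY0.2]
  have eX1 : 1 + X = P + d := by linarith
  have eX2 : 1 - X = W - d := by linarith
  have eY1 : 1 + Y = P - d := by linarith
  have eY2 : 1 - Y = W + d := by linarith
  have hvx : W / P * (d / W) = d / P := by field_simp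
  have hx1 : 1 + d / W = (W + d) / W := by field_simp
  have hx2 : 1 - d / W = (W - d) / W := by field_simp
  have hy1 : 1 + d / P = (P + d) / P := by field_simp
  have hy2 : 1 - d / P = (P - d) / P := by field_simp
  have hv1 : 1 + W / P = 2 / P := by field_simp; linarith
  rw [eX1] at hX1
  rw [eX2] at hX2
  rw [eY1] at hY1
  rw [eY2] at hY2
  have hxm : d / W ∈ Set.Ioo (-1 : ℝ) 1 := by
    have h1 : 0 < (W + d) / W := div_pos hY2 hW
    have h2 : 0 < (W - d) / W := div_pos hX2 hW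
    constructor <;> linarith
  have hym : d / P ∈ Set.Ioo (-1 : ℝ) 1 := by
    have h1 : 0 < (P + d) / P := div_pos hX1 hP
    have h2 : 0 < (P - d) / P := div_pos hY1 hP
    constructor <;> linarith
  unfold NC KK
  rw [hvx]
  unfold chi
  rw [artanh_eq_logs hX0, artanh_eq_logs hY0, artanh_eq_logs hxm, artanh_eq_logs hym,
    hh_eq_logs hX0, hh_eq_logs hY0, hh_eq_logs hxm, hh_eq_logs hym, hx1, hx2, hy1, hy2, hv1,
    eX1, eX2, eY1, eY2,
    Real.log_div hY2.ne' hW.ne', Real.log_div hX2.ne' hW.ne', Real.log_div hX1.ne' hP.ne',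
    Real.log_div hY1.ne' hP.ne', Real.log_div two_ne_zero hP.ne', Real.log_div hW.ne' hP.ne', hX, hY]
  generalize Real.log (P + d) = l1
  generalize Real.log (W - d) = l2
  generalize Real.log (P - d) = l3
  generalize Real.log (W + d) = l4
  generalize Real.log W = l5
  generalize Real.log P = l6
  generalize Real.log 2 = l7
  field_simp
  linear_combination (-8 * D * l7) * hWP

theorem KK_eq_NC (D : ℝ) {X Y : ℝ} (hX : X ∈ Set.Ioo (-1 : ℝ) 1) (hY : Y ∈ Set.Ioo (-1 : ℝ) 1) :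
    2 * (KK X Y + D * ((hh X + hh Y) / 2)) = (1 - (X + Y) / 2) *
      NC D (((X - Y) / 2) / (1 - (X + Y) / 2)) ((1 - (X + Y) / 2) / (1 + (X + Y) / 2)) :=
  KK_eq_NC_aux D (by ring) (by ring) (by ring) hX hY (by linarith [hX.2, hY.2])
    (by linarith [hX.1, hY.1])

theorem KK_neg_swap {X Y : ℝ} (hX : X ∈ Set.Ioo (-1 : ℝ) 1) (hY : Y ∈ Set.Ioo (-1 : ℝ) 1) :
    KK (-Y) (-X) = KK X Y := by
  unfold KK
  rw [artanh_eq_logs hX, artanh_eq_logs hY,
    artanh_eq_logs (x := -X) ⟨by linarith [hX.2], by linarith [hX.1]⟩,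
    artanh_eq_logs (x := -Y) ⟨by linarith [hY.2], by linarith [hY.1]⟩]
  rw [show (1 : ℝ) + -X = 1 - X by ring, show (1 : ℝ) - -X = 1 + X by ring,
    show (1 : ℝ) + -Y = 1 - Y by ring, show (1 : ℝ) - -Y = 1 + Y by ring]
  ring

/-- **The one-corner certificate.** -/
theorem KK_ge_corner {a b : ℝ} (ha : a ∈ Set.Ioo (-1 : ℝ) 1) (hb : b ∈ Set.Ioo (-1 : ℝ) 1)
    (hab : b < a) (hm : 0 ≤ a + b) :
    ∃ A B D : ℝ, 0 < A ∧ B ≤ 0 ∧ 0 < D ∧
      KK a b = A * ((a - b) / 2) + B * (1 - (a + b) / 2) - D * ((hh a + hh b) / 2) ∧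
      ∀ X ∈ Set.Ioo (-1 : ℝ) 1, ∀ Y ∈ Set.Ioo (-1 : ℝ) 1,
        A * ((X - Y) / 2) + B * (1 - (X + Y) / 2) - D * ((hh X + hh Y) / 2) ≤ KK X Y := by
  have hW1 : 0 < 1 - (a + b) / 2 := by linarith [ha.2, hb.2]
  have hP1 : 0 < 1 + (a + b) / 2 := by linarith [ha.1, hb.1]
  obtain ⟨x1, hx1⟩ : ∃ x1, x1 = ((a - b) / 2) / (1 - (a + b) / 2) := ⟨_, rfl⟩
  obtain ⟨v1, hv1⟩ : ∃ v1, v1 = (1 - (a + b) / 2) / (1 + (a + b) / 2) := ⟨_, rfl⟩
  have hx1m : x1 ∈ Set.Ioo (0 : ℝ) 1 := by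
    rw [hx1]
    constructor
    · apply div_pos (by linarith) hW1
    · rw [div_lt_one hW1]; linarith [ha.2]
  have hv1m : v1 ∈ Set.Ioc (0 : ℝ) 1 := by
    rw [hv1]
    constructor
    · exact div_pos hW1 hP1
    · rw [div_le_one hP1]; linarith
  have hy0 : 0 < v1 * x1 := mul_pos hv1m.1 hx1m.1
  have hy1 : v1 * x1 < 1 := by nlinarith [hv1m.2, hx1m.2, hv1m.1]
  have hq : 0 < 1 - (v1 * x1) ^ 2 := one_sub_sq_pos ⟨by linarith, hy1⟩
  have hL : 0 < Real.log (1 + v1) - Real.log (1 - (v1 * x1) ^ 2) / 2 := by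
    have h1 : 0 < Real.log (1 + v1) := Real.log_pos (by linarith [hv1m.1])
    have h2 : Real.log (1 - (v1 * x1) ^ 2) ≤ 0 :=
      Real.log_nonpos hq.le (by nlinarith [sq_nonneg (v1 * x1)])
    linarith
  obtain ⟨D, hDdef⟩ : ∃ D, D = (v1 * x1) ^ 2 / (1 - (v1 * x1) ^ 2) /
    (Real.log (1 + v1) - Real.log (1 - (v1 * x1) ^ 2) / 2) := ⟨_, rfl⟩
  have hD : 0 < D := by
    rw [hDdef]
    exact div_pos (div_pos (pow_pos hy0 2) hq) hL
  have hS : Xi D (v1 * x1) = D * Real.log (1 + v1) := by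
    have h1 : D * (Real.log (1 + v1) - Real.log (1 - (v1 * x1) ^ 2) / 2)
        = (v1 * x1) ^ 2 / (1 - (v1 * x1) ^ 2) := by
      rw [hDdef, div_mul_cancel₀ _ hL.ne']
    unfold Xi
    linarith
  obtain ⟨h1, h2, h3⟩ := NC_tangent hD hx1m hv1m hS
  obtain ⟨S, hSd⟩ : ∃ S, S = chi1 D x1 + chi1 D (v1 * x1) := ⟨_, rfl⟩
  rw [← hSd] at h1 h2 h3
  have hkey : ∀ X ∈ Set.Ioo (-1 : ℝ) 1, ∀ Y ∈ Set.Ioo (-1 : ℝ) 1, 0 ≤ X + Y →
      S / 2 * ((X - Y) / 2) + (NC D x1 v1 - S * x1) / 2 * (1 - (X + Y) / 2)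
        - D * ((hh X + hh Y) / 2) ≤ KK X Y := by
    intro X hX Y hY hXY
    have hW : 0 < 1 - (X + Y) / 2 := by linarith [hX.2, hY.2]
    have hP : 0 < 1 + (X + Y) / 2 := by linarith [hX.1, hY.1]
    have h4 := KK_eq_NC D hX hY
    have hxm : ((X - Y) / 2) / (1 - (X + Y) / 2) ∈ Set.Ioo (-1 : ℝ) 1 := by
      constructor
      · rw [lt_div_iff₀ hW]; linarith [hY.2]
      · rw [div_lt_one hW]; linarith [hX.2]
    have hvm : (1 - (X + Y) / 2) / (1 + (X + Y) / 2) ∈ Set.Ioc (0 : ℝ) 1 := by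
      constructor
      · exact div_pos hW hP
      · rw [div_le_one hP]; linarith
    have h5 := h3 _ hxm _ hvm
    have h6 := mul_le_mul_of_nonneg_left h5 hW.le
    rw [← h4] at h6
    have h7 : (1 - (X + Y) / 2) * (NC D x1 v1 + S * ((X - Y) / 2 / (1 - (X + Y) / 2) - x1))
        = (1 - (X + Y) / 2) * (NC D x1 v1 - S * x1) + S * ((X - Y) / 2) := by
      have e : ((X - Y) / 2 / (1 - (X + Y) / 2)) * (1 - (X + Y) / 2) = (X - Y) / 2 :=
        div_mul_cancel₀ _ hW.ne'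
      linear_combination S * e
    rw [h7] at h6
    linarith
  refine ⟨S / 2, (NC D x1 v1 - S * x1) / 2, D, by linarith, by linarith, hD, ?_, ?_⟩
  · have h4 := KK_eq_NC D ha hb
    rw [← hx1, ← hv1] at h4
    have h5 : (1 - (a + b) / 2) * x1 = (a - b) / 2 := by
      rw [hx1, mul_comm, div_mul_cancel₀ _ hW1.ne']
    have h6 : (1 - (a + b) / 2) * (NC D x1 v1) = (NC D x1 v1 - S * x1) * (1 - (a + b) / 2)
        + S * ((a - b) / 2) := by
      rw [← h5]; ring
    linarith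
  · intro X hX Y hY
    rcases le_or_gt 0 (X + Y) with h0 | h0
    · exact hkey X hX Y hY h0
    · have h4 := hkey (-Y) ⟨by linarith [hY.2], by linarith [hY.1]⟩ (-X)
        ⟨by linarith [hX.2], by linarith [hX.1]⟩ (by linarith)
      rw [KK_neg_swap hX hY, hh_neg, hh_neg] at h4
      have h5 : (NC D x1 v1 - S * x1) / 2 * (1 - (X + Y) / 2)
          ≤ (NC D x1 v1 - S * x1) / 2 * (1 - (-Y + -X) / 2) := by
        apply mul_le_mul_of_nonpos_left _ (by linarith)
        linarith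
      linarith

/-- The exact one-corner cost bound in expectation. -/
theorem EE_KK_ge_corner {n : ℕ} (u v : (Fin n → Bool) → ℝ) (hu : ∀ x, u x ∈ Set.Ioo (-1 : ℝ) 1)
    (hv : ∀ x, v x ∈ Set.Ioo (-1 : ℝ) 1) {a b r : ℝ} (ha : a ∈ Set.Ioo (-1 : ℝ) 1)
    (hb : b ∈ Set.Ioo (-1 : ℝ) 1) (hab : b ≤ a) (hm : 0 ≤ a + b)
    (h1 : 1 - (EE u + EE v) / 2 = r * (1 - (a + b) / 2))
    (h2 : (EE u - EE v) / 2 = r * ((a - b) / 2))
    (h3 : (EE (fun x => hh (u x)) + EE (fun x => hh (v x))) / 2 ≤ r * ((hh a + hh b) / 2)) :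
    r * KK a b ≤ EE (fun x => KK (u x) (v x)) := by
  rcases hab.lt_or_eq with hab | hab
  · obtain ⟨A, B, D, hA, hB, hD, he, hge⟩ := KK_ge_corner ha hb hab hm
    have h4 : EE (fun x => A * ((u x - v x) / 2) + B * (1 - (u x + v x) / 2)
        - D * ((hh (u x) + hh (v x)) / 2)) ≤ EE (fun x => KK (u x) (v x)) :=
      EE_mono (fun x => hge _ (hu x) _ (hv x))
    have h5 : EE (fun x => A * ((u x - v x) / 2) + B * (1 - (u x + v x) / 2)
        - D * ((hh (u x) + hh (v x)) / 2)) = A * ((EE u - EE v) / 2)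
          + B * (1 - (EE u + EE v) / 2)
          - D * ((EE (fun x => hh (u x)) + EE (fun x => hh (v x))) / 2) := by
      have e1 : (fun x => A * ((u x - v x) / 2) + B * (1 - (u x + v x) / 2)
        - D * ((hh (u x) + hh (v x)) / 2)) = fun x => (((A / 2 - B / 2) * u x
          + (-(A / 2) - B / 2) * v x) + B) - ((D / 2) * hh (u x) + (D / 2) * hh (v x)) := by
        funext x; ring
      rw [e1, EE_sub, EE_add, EE_add, EE_add, EE_mul_left, EE_mul_left, EE_mul_left, EE_mul_left,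
        EE_const]
      ring
    rw [h5, h1, h2] at h4
    refine le_trans ?_ h4
    rw [he]
    have h6 := mul_le_mul_of_nonneg_left h3 hD.le
    nlinarith
  · rw [hab]
    have h4 : KK a a = 0 := by unfold KK; simp
    rw [h4, mul_zero]
    have h5 : EE (fun _ : Fin n → Bool => (0 : ℝ)) ≤ EE (fun x => KK (u x) (v x)) := by
      apply EE_mono
      intro x
      have h6 := hu x
      have h7 := hv x
      unfold KK
      rcases le_total (u x) (v x) with h | h
      · have := Real.artanh_le_artanh h6.1 h7.2 h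
        have := mul_nonneg_of_nonpos_of_nonpos (sub_nonpos.mpr h) (sub_nonpos.mpr this)
        linarith
      · have := Real.artanh_le_artanh h7.1 h6.2 h
        have := mul_nonneg (sub_nonneg.mpr h) (sub_nonneg.mpr this)
        linarith
    rwa [EE_const] at h5

end Vale.Agent.P322.Corner

namespace Vale.Agent.P322

/-- the exact one-corner cost bound, interface form -/
theorem corner_star : ∀ (n : ℕ) (X Y : (Fin n → Bool) → ℝ), (∀ x, X x ∈ Set.Ioo (-1 : ℝ) 1) →
    (∀ x, Y x ∈ Set.Ioo (-1 : ℝ) 1) → ∀ a b c : ℝ, -1 < b → b < a → a < 1 → 0 ≤ a + b →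
    0 < c → 2 - EE X - EE Y = c * (2 - a - b) → EE X - EE Y = c * (a - b) →
    (EE (fun x => hh (X x)) + EE (fun x => hh (Y x))) / 2 = c * ((hh a + hh b) / 2) →
    c * KK a b ≤ EE (fun x => KK (X x) (Y x)) := by
  intro n X Y hX hY a b c hb hab ha hm hc h1 h2 h3
  exact Corner.EE_KK_ge_corner X Y hX hY ⟨by linarith, ha⟩ ⟨hb, by linarith⟩ hab.le hm
    (by linarith) (by linarith) h3.le

end Vale.Agent.P322
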