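import Mathlib
import Vale.Agent.Lib.P322.CalcDefs

/-!
Courtade-Kumar: reduction of the two-point inequality for the two state functions
`B1 m T = Psi1 (h m - T)` and `B2 m T = 2 (h m - T) + (1 - m²) R (log 2 - T / (1 - m²))`
to one-sided cost inequalities, using convexity only.
-/

namespace Vale.Agent.P322

open Finset

/-- perspective of `t ↦ R (log 2 - t)` -/
noncomputable def Pp (R : ℝ → ℝ) (s T : ℝ) : ℝ := s * R (Real.log 2 - T / s)

/-- joint midpoint convexity of the perspective -/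
theorem Pp_mid {R : ℝ → ℝ} (hR : ConvexOn ℝ (Set.Iio (Real.log 2)) R) {s₁ s₂ T₁ T₂ : ℝ}
    (h1 : 0 < s₁) (h2 : 0 < s₂) (hT1 : 0 < T₁) (hT2 : 0 < T₂) :
    Pp R ((s₁ + s₂) / 2) ((T₁ + T₂) / 2) ≤ (Pp R s₁ T₁ + Pp R s₂ T₂) / 2 := by
  have hs : 0 < s₁ + s₂ := by linarith
  have e1 : s₁ / (s₁ + s₂) + s₂ / (s₁ + s₂) = 1 := by field_simp
  have m1 : Real.log 2 - T₁ / s₁ ∈ Set.Iio (Real.log 2) := by
    have : 0 < T₁ / s₁ := by positivity
    rw [Set.mem_Iio]
    linarith
  have m2 : Real.log 2 - T₂ / s₂ ∈ Set.Iio (Real.log 2) := by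
    have : 0 < T₂ / s₂ := by positivity
    rw [Set.mem_Iio]
    linarith
  obtain ⟨_, hcc⟩ := hR
  have key := hcc m1 m2 (a := s₁ / (s₁ + s₂)) (b := s₂ / (s₁ + s₂))
    (by positivity) (by positivity) e1
  simp only [smul_eq_mul] at key
  have e2 : s₁ / (s₁ + s₂) * (Real.log 2 - T₁ / s₁) + s₂ / (s₁ + s₂) * (Real.log 2 - T₂ / s₂)
      = Real.log 2 - (T₁ + T₂) / 2 / ((s₁ + s₂) / 2) := by
    field_simp
    ring
  rw [e2] at key
  unfold Pp
  have h3 := mul_le_mul_of_nonneg_left key (show (0 : ℝ) ≤ (s₁ + s₂) / 2 by linarith)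
  refine le_trans h3 (le_of_eq ?_)
  field_simp

theorem mem_Ioo_EE {n : ℕ} {u : (Fin n → Bool) → ℝ} (hu : ∀ x, u x ∈ Set.Ioo (-1 : ℝ) 1) :
    EE u ∈ Set.Ioo (-1 : ℝ) 1 := by
  constructor
  · have := EE_lt (n := n) (u := fun _ => (-1:ℝ)) (v := u) (fun x => (hu x).1)
    rwa [EE_const] at this
  · have := EE_lt (n := n) (u := u) (v := fun _ => (1:ℝ)) (fun x => (hu x).2)
    rwa [EE_const] at this

theorem EE_hh_pos {n : ℕ} {u : (Fin n → Bool) → ℝ} (hu : ∀ x, u x ∈ Set.Ioo (-1 : ℝ) 1) :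
    0 < EE (fun x => hh (u x)) := by
  have := EE_lt (n := n) (u := fun _ => (0:ℝ)) (v := fun x => hh (u x)) (fun x => hh_pos (hu x))
  rwa [EE_const] at this

theorem EE_neg_fun {n : ℕ} (u : (Fin n → Bool) → ℝ) : EE (fun x => -u x) = -EE u := by
  have := EE_mul_left (-1) u
  simpa using this

theorem hh_tangent {x c : ℝ} (hx : x ∈ Set.Ioo (-1 : ℝ) 1) (hc : c ∈ Set.Ioo (-1 : ℝ) 1) :
    hh x ≤ hh c - Real.artanh c * (x - c) := by
  have hconc : ConcaveOn ℝ (Set.Icc (-1 : ℝ) 1) hh := by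
    refine ⟨convex_Icc _ _, ?_⟩
    intro x hx y hy a b ha hb hab
    have h := Real.strictConcave_binEntropy.concaveOn.2 (x := (1 + x) / 2) (y := (1 + y) / 2)
      ⟨by linarith [hx.1], by linarith [hx.2]⟩ ⟨by linarith [hy.1], by linarith [hy.2]⟩ ha hb hab
    unfold hh
    simp only [smul_eq_mul] at *
    have e : (1 + (a * x + b * y)) / 2 = a * ((1 + x) / 2) + b * ((1 + y) / 2) := by
      have : (1 : ℝ) = a + b := hab.symm
      nlinarith
    rw [e]
    exact h
  have hd := hh_hasDerivAt hc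
  rcases lt_trichotomy x c with hxc | hxc | hxc
  · have := hconc.le_slope_of_hasDerivAt (x := x) (y := c) (by exact ⟨hx.1.le, hx.2.le⟩)
      (by exact ⟨hc.1.le, hc.2.le⟩) hxc hd
    rw [slope_def_field, le_div_iff₀ (by linarith)] at this
    linarith
  · subst hxc; linarith
  · have := hconc.slope_le_of_hasDerivAt (x := c) (y := x) (by exact ⟨hc.1.le, hc.2.le⟩)
      (by exact ⟨hx.1.le, hx.2.le⟩) hxc hd
    rw [slope_def_field, div_le_iff₀ (by linarith)] at this
    linarith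

/-- Jensen for the entropy -/
theorem EE_hh_le {n : ℕ} {u : (Fin n → Bool) → ℝ} (hu : ∀ x, u x ∈ Set.Ioo (-1 : ℝ) 1) :
    EE (fun x => hh (u x)) ≤ hh (EE u) := by
  have hm := mem_Ioo_EE hu
  set c := EE u with hc
  have h1 : EE (fun x => hh (u x)) ≤ EE (fun x => (hh c + Real.artanh c * c)
      + (-Real.artanh c) * u x) := by
    apply EE_mono
    intro x
    have := hh_tangent (hu x) hm
    linarith
  rw [EE_add, EE_const, EE_mul_left, ← hc] at h1
  linarith

/-- The one-sided cost inequality for a cost difference `Φ a b T`. -/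
def CostIneq (Φ : ℝ → ℝ → ℝ → ℝ) : Prop :=
  ∀ (n : ℕ) (X Y : (Fin n → Bool) → ℝ), (∀ x, X x ∈ Set.Ioo (-1 : ℝ) 1) →
    (∀ x, Y x ∈ Set.Ioo (-1 : ℝ) 1) → EE Y ≤ EE X → 0 ≤ EE X + EE Y →
    Φ (EE X) (EE Y) ((EE (fun x => hh (X x)) + EE (fun x => hh (Y x))) / 2)
      ≤ EE (fun x => KK (X x) (Y x))

theorem KK_neg_neg (a b : ℝ) : KK (-a) (-b) = KK a b := by
  have h : ∀ x : ℝ, Real.artanh (-x) = -Real.artanh x := by
    intro x
    unfold Real.artanh
    rw [show (1 + -x) / (1 - -x) = ((1 + x) / (1 - x))⁻¹ by rw [inv_div, sub_neg_eq_add]; rfl,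
      Real.sqrt_inv, Real.log_inv]
  unfold KK
  rw [h, h]
  ring

/-- A cost inequality for ordered means with nonnegative sum holds for all means when `Φ` is
symmetric and even. -/
theorem CostIneq.all {Φ : ℝ → ℝ → ℝ → ℝ} (h : CostIneq Φ) (hsymm : ∀ a b T, Φ a b T = Φ b a T)
    (heven : ∀ a b T, Φ (-a) (-b) T = Φ a b T) (n : ℕ) (X Y : (Fin n → Bool) → ℝ)
    (hX : ∀ x, X x ∈ Set.Ioo (-1 : ℝ) 1) (hY : ∀ x, Y x ∈ Set.Ioo (-1 : ℝ) 1) :
    Φ (EE X) (EE Y) ((EE (fun x => hh (X x)) + EE (fun x => hh (Y x))) / 2)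
      ≤ EE (fun x => KK (X x) (Y x)) := by
  -- first the case of a nonnegative sum
  have hpos : ∀ (X Y : (Fin n → Bool) → ℝ), (∀ x, X x ∈ Set.Ioo (-1 : ℝ) 1) →
      (∀ x, Y x ∈ Set.Ioo (-1 : ℝ) 1) → 0 ≤ EE X + EE Y →
      Φ (EE X) (EE Y) ((EE (fun x => hh (X x)) + EE (fun x => hh (Y x))) / 2)
        ≤ EE (fun x => KK (X x) (Y x)) := by
    intro X Y hX hY hs
    rcases le_total (EE Y) (EE X) with hle | hle
    · exact h n X Y hX hY hle hs
    · have := h n Y X hY hX hle (by linarith)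
      rw [hsymm, add_comm (EE (fun x => hh (Y x)))] at this
      refine le_trans this (le_of_eq ?_)
      congr 1
      funext x
      exact KK_comm _ _
  rcases le_total 0 (EE X + EE Y) with hs | hs
  · exact hpos X Y hX hY hs
  · have := hpos (fun x => -X x) (fun x => -Y x)
      (fun x => ⟨by linarith [(hX x).2], by linarith [(hX x).1]⟩)
      (fun x => ⟨by linarith [(hY x).2], by linarith [(hY x).1]⟩)
      (by rw [EE_neg_fun, EE_neg_fun]; linarith)
    simp only [hh_neg, KK_neg_neg] at this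
    rw [EE_neg_fun, EE_neg_fun, heven] at this
    exact this

/-- first state function -/
noncomputable def B1 (Psi1 : ℝ → ℝ) (m T : ℝ) : ℝ := Psi1 (hh m - T)

/-- second state function -/
noncomputable def B2 (R : ℝ → ℝ) (m T : ℝ) : ℝ := 2 * (hh m - T) + Pp R (1 - m ^ 2) T

/-- required cost for the first state function -/
noncomputable def Phi1 (Psi1 : ℝ → ℝ) (a b T : ℝ) : ℝ :=
  Psi1 (hh ((a + b) / 2) - T) - Psi1 ((hh a + hh b) / 2 - T)

/-- required cost for the second state function -/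
noncomputable def Phi2 (R : ℝ → ℝ) (a b T : ℝ) : ℝ :=
  2 * (hh ((a + b) / 2) - (hh a + hh b) / 2) + Pp R (1 - ((a + b) / 2) ^ 2) T
    - Pp R (1 - ((a + b) / 2) ^ 2 - ((a - b) / 2) ^ 2) T

/-- (c1) implies the two-point inequality for `B1` -/
theorem twoPoint_B1 {Psi1 : ℝ → ℝ} (hc : ConvexOn ℝ (Set.Ici 0) Psi1)
    (h : CostIneq (Phi1 Psi1)) : TwoPoint (B1 Psi1) := by
  intro n a b ha hb
  have h1 := h.all (fun a b T => by unfold Phi1; rw [add_comm a b, add_comm (hh a)])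
    (fun a b T => by
      unfold Phi1
      rw [show (-a + -b) / 2 = -((a + b) / 2) by ring, hh_neg, hh_neg, hh_neg]) n a b ha hb
  have m1 : hh (EE a) - EE (fun x => hh (a x)) ∈ Set.Ici (0 : ℝ) := by
    have := EE_hh_le ha; rw [Set.mem_Ici]; linarith
  have m2 : hh (EE b) - EE (fun x => hh (b x)) ∈ Set.Ici (0 : ℝ) := by
    have := EE_hh_le hb; rw [Set.mem_Ici]; linarith
  obtain ⟨_, hcc⟩ := hc
  have h2 := hcc m1 m2 (a := 1 / 2) (b := 1 / 2) (by norm_num) (by norm_num) (by norm_num)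
  simp only [smul_eq_mul] at h2
  unfold Phi1 at h1
  unfold B1
  have e : 1 / 2 * (hh (EE a) - EE (fun x => hh (a x))) + 1 / 2 * (hh (EE b) - EE (fun x => hh (b x)))
      = (hh (EE a) + hh (EE b)) / 2 - (EE (fun x => hh (a x)) + EE (fun x => hh (b x))) / 2 := by
    ring
  rw [e] at h2
  linarith

/-- (c2) implies the two-point inequality for `B2` -/
theorem twoPoint_B2 {R : ℝ → ℝ} (hR : ConvexOn ℝ (Set.Iio (Real.log 2)) R)
    (h : CostIneq (Phi2 R)) : TwoPoint (B2 R) := by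
  intro n a b ha hb
  have h1 := h.all (fun a b T => by
      unfold Phi2
      rw [add_comm a b, add_comm (hh a), show ((a - b) / 2) ^ 2 = ((b - a) / 2) ^ 2 by ring])
    (fun a b T => by
      unfold Phi2
      rw [show (-a + -b) / 2 = -((a + b) / 2) by ring, hh_neg, hh_neg, hh_neg, neg_sq,
        show ((-a - -b) / 2) ^ 2 = ((a - b) / 2) ^ 2 by ring]) n a b ha hb
  have hA := mem_Ioo_EE ha
  have hB := mem_Ioo_EE hb
  have s1 : 0 < 1 - (EE a) ^ 2 := by nlinarith [hA.1, hA.2]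
  have s2 : 0 < 1 - (EE b) ^ 2 := by nlinarith [hB.1, hB.2]
  have h2 := Pp_mid hR s1 s2 (EE_hh_pos ha) (EE_hh_pos hb)
  have e : (1 - (EE a) ^ 2 + (1 - (EE b) ^ 2)) / 2
      = 1 - ((EE a + EE b) / 2) ^ 2 - ((EE a - EE b) / 2) ^ 2 := by ring
  rw [e] at h2
  unfold Phi2 at h1
  unfold B2
  linarith

/-- maxima of state functions satisfying the two-point inequality satisfy it -/
theorem TwoPoint.max {B B' : ℝ → ℝ → ℝ} (h : TwoPoint B) (h' : TwoPoint B') :
    TwoPoint (fun m T => max (B m T) (B' m T)) := by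
  intro n a b ha hb
  have h1 := h n a b ha hb
  have h2 := h' n a b ha hb
  apply max_le
  · refine le_trans h1 ?_
    have := le_max_left (B (EE a) (EE (fun x => hh (a x)))) (B' (EE a) (EE (fun x => hh (a x))))
    have := le_max_left (B (EE b) (EE (fun x => hh (b x)))) (B' (EE b) (EE (fun x => hh (b x))))
    linarith
  · refine le_trans h2 ?_
    have := le_max_right (B (EE a) (EE (fun x => hh (a x)))) (B' (EE a) (EE (fun x => hh (a x))))
    have := le_max_right (B (EE b) (EE (fun x => hh (b x)))) (B' (EE b) (EE (fun x => hh (b x))))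
    linarith

theorem Pp_RR (s T : ℝ) : Pp RR s T = PP s T := rfl

end Vale.Agent.P322
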