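import Vale.Agent.Lib.P322.Info
import Vale.Agent.Lib.P322.Calc
import Vale.Agent.Lib.P322.Twop

/-!
Courtade-Kumar: assembly of the semigroup route.  The state function is the maximum of
`B1 = Psi1 (h(m) - T)` and `B2 = 2 (h(m) - T) + P(1 - m², T)`.
-/

namespace Vale.Agent.P322

open Finset

/-- the cut `J1 = φ(tanh 1)` -/
noncomputable def JJ : ℝ := ph (Real.tanh 1)

theorem JJ_lt : JJ < Real.log 2 := ph_lt (tanh_mem 1)

theorem JJ_nonneg : 0 ≤ JJ := ph_nonneg _

/-- `k ↦ h(tanh k) cosh² k` is nondecreasing, in the form `log 2 ≤ h(tanh k) cosh² k`. -/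
theorem hh_tanh_ge (k : ℝ) (hk : 0 ≤ k) : Real.log 2 ≤ hh (Real.tanh k) * Real.cosh k ^ 2 := by
  set f : ℝ → ℝ := fun k => Real.log (2 * Real.cosh k) * Real.cosh k ^ 2
    - k * (Real.sinh (2 * k) / 2) with hf
  have hfe : ∀ k, hh (Real.tanh k) * Real.cosh k ^ 2 = f k := by
    intro k
    have hc := Real.cosh_pos k
    rw [hh_tanh, hf, Real.tanh_eq_sinh_div_cosh]
    simp only [Real.sinh_two_mul]
    field_simp
  have hd : ∀ t : ℝ, HasDerivAt f (Real.log (2 * Real.cosh t) * Real.sinh (2 * t)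
      - t * Real.cosh (2 * t)) t := by
    intro t
    have hc := Real.cosh_pos t
    have h2t : HasDerivAt (fun t : ℝ => 2 * t) 2 t := by
      simpa using (hasDerivAt_id t).const_mul (2:ℝ)
    have hsinh : HasDerivAt (fun t : ℝ => Real.sinh (2 * t)) (Real.cosh (2 * t) * 2) t :=
      (Real.hasDerivAt_sinh (2 * t)).comp t h2t
    have hl : HasDerivAt (fun t : ℝ => Real.log (2 * Real.cosh t))
        (2 * Real.sinh t / (2 * Real.cosh t)) t :=
      ((Real.hasDerivAt_cosh t).const_mul 2).log (by positivity)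
    have hsq : HasDerivAt (fun t : ℝ => Real.cosh t ^ 2) (2 * Real.cosh t * Real.sinh t) t := by
      have h := (Real.hasDerivAt_cosh t).mul (Real.hasDerivAt_cosh t)
      refine (h.congr_deriv (by ring)).congr_of_eventuallyEq (Filter.Eventually.of_forall ?_)
      intro y
      simp [sq]
    have h3 := (hl.mul hsq).sub ((hasDerivAt_id t).mul (hsinh.div_const 2))
    refine HasDerivAt.congr_deriv (f := f) h3 ?_
    have hid : (id t : ℝ) = t := rfl
    rw [hid, Real.sinh_two_mul]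
    field_simp
    ring
  have hmono : MonotoneOn f (Set.Ici 0) := by
    apply monotoneOn_of_deriv_nonneg (convex_Ici 0)
    · exact fun t _ => (hd t).continuousAt.continuousWithinAt
    · exact fun t _ => (hd t).differentiableAt.differentiableWithinAt
    · intro t ht
      rw [interior_Ici] at ht
      rw [(hd t).deriv]
      have := key_log t (le_of_lt ht)
      nlinarith
  have h0 : f 0 ≤ f k := hmono (Set.self_mem_Ici) hk hk
  rw [hfe]
  simpa [hf] using h0

/-- `(1 - x²) log 2 ≤ h(x)` -/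
theorem one_sub_sq_mul_log_two_le_hh {x : ℝ} (hx : x ∈ Set.Ioo (-1 : ℝ) 1) :
    (1 - x ^ 2) * Real.log 2 ≤ hh x := by
  wlog h0 : 0 ≤ x with H
  · have := H (x := -x) ⟨by linarith [hx.2], by linarith [hx.1]⟩ (by linarith)
    rw [hh_neg] at this
    simpa using this
  have h1 := hh_tanh_ge (Real.artanh x) (by
    rcases h0.eq_or_lt with h | h
    · rw [← h]; simp
    · exact (artanh_pos' h hx.2).le)
  rw [Real.tanh_artanh hx] at h1
  have h2 : Real.cosh (Real.artanh x) ^ 2 = 1 / (1 - x ^ 2) := by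
    rw [Real.cosh_artanh hx]
    rw [div_pow, one_pow, Real.sq_sqrt (by nlinarith [hx.1, hx.2])]
  rw [h2] at h1
  have h3 : 0 < 1 - x ^ 2 := one_sub_sq_pos hx
  have h4 : hh x * (1 / (1 - x ^ 2)) * (1 - x ^ 2) = hh x := by field_simp
  nlinarith [mul_le_mul_of_nonneg_right h1 h3.le]

/-- assembly -/
theorem courtadeKumar_of_members
    (h1 : CostIneq (Phi1 (Psi1 JJ))) (h2 : CostIneq (Phi2 RR))
    (hQ : ∀ m ∈ Set.Ioo (-1 : ℝ) 1, ∀ T : ℝ, 0 < T → JJ ≤ hh m - T →
      Psi (hh m - T) ≤ 2 * (hh m - T) + PP (1 - m ^ 2) T)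
    {n : ℕ} (f : (Fin n → Bool) → Bool) {ε : ℝ} (h0 : 0 ≤ ε) (h1' : ε ≤ 1 / 2) :
    mutualInfo (jointLaw ε f) ≤ 1 - entropy2 ε := by
  have hT1 : TwoPoint (B1 (Psi1 JJ)) :=
    twoPoint_B1 ((Psi1_convexOn JJ_lt).subset (Set.subset_univ _) (convex_Ici 0)) h1
  have hT2 : TwoPoint (B2 RR) := twoPoint_B2 RR_convexOn h2
  apply courtadeKumar_of_twoPoint (fun m T => max (B1 (Psi1 JJ) m T) (B2 RR m T)) _
    (hT1.max hT2) _ f h0 h1'
  · intro x hx
    apply max_le
    · unfold B1
      rw [sub_self, Psi1_zero JJ_nonneg]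
    · unfold B2
      rw [sub_self, mul_zero, zero_add, Pp_RR, PP_of_ge (one_sub_sq_pos hx)
        (one_sub_sq_mul_log_two_le_hh hx)]
  · intro m hm T r hr hT hr2
    have hJ : hh m - T = ph r := by rw [hr2]; rfl
    have hk : r * Real.artanh r = Psi (hh m - T) := by
      rw [hJ, Psi_ph hr.1 hr.2]; rfl
    rw [hk]
    by_cases hc : hh m - T ≤ JJ
    · apply le_max_of_le_left
      unfold B1
      rw [Psi1_of_le hc]
    · apply le_max_of_le_right
      unfold B2
      rw [Pp_RR]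
      exact hQ m hm T hT (not_le.mp hc).le

end Vale.Agent.P322
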