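import Mathlib
import Vale.Agent.Lib.P322.Ode

/-!
Courtade-Kumar, tangent plane bound. Part 1: binary divergence, and interpolation in the noise
level (monotonicity in `ρ`).
-/

namespace Vale.Agent.P322.Sdpi

open Set

/-- half log-odds -/
noncomputable def vv (x : ℝ) : ℝ := (Real.log (1 + x) - Real.log (1 - x)) / 2

/-- divergence of signs with means `x` and `a` -/
noncomputable def kl (x a : ℝ) : ℝ :=
  ((1 + x) * (Real.log (1 + x) - Real.log (1 + a))
    + (1 - x) * (Real.log (1 - x) - Real.log (1 - a))) / 2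

theorem kl_self (x : ℝ) : kl x x = 0 := by unfold kl; ring

theorem vv_zero : vv 0 = 0 := by unfold vv; simp

theorem vv_neg (x : ℝ) : vv (-x) = -vv x := by
  unfold vv
  rw [sub_neg_eq_add, ← sub_eq_add_neg]; ring

theorem kl_neg (x a : ℝ) : kl (-x) (-a) = kl x a := by
  unfold kl
  simp only [sub_neg_eq_add, ← sub_eq_add_neg]; ring

theorem plogp_ge {p q : ℝ} (hp : 0 ≤ p) (hq : 0 < q) :
    p - q ≤ p * (Real.log p - Real.log q) := by
  rcases hp.eq_or_lt with h | h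
  · rw [← h]; simp; linarith
  · have h1 := Real.one_sub_inv_le_log_of_pos (x := p / q) (by positivity)
    rw [Real.log_div h.ne' hq.ne', inv_div] at h1
    have h2 := mul_le_mul_of_nonneg_left h1 h.le
    have h3 : p * (1 - q / p) = p - q := by field_simp
    rw [h3] at h2
    exact h2

theorem kl_nonneg {x a : ℝ} (hx : x ∈ Icc (-1 : ℝ) 1) (ha : a ∈ Ioo (-1 : ℝ) 1) : 0 ≤ kl x a := by
  unfold kl
  have h1 := plogp_ge (p := 1 + x) (q := 1 + a) (by linarith [hx.1]) (by linarith [ha.1])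
  have h2 := plogp_ge (p := 1 - x) (q := 1 - a) (by linarith [hx.2]) (by linarith [ha.2])
  linarith

/-- three point identity -/
theorem kl_three (x y a : ℝ) : kl x a = kl x y + kl y a + (vv y - vv a) * (x - y) := by
  unfold kl vv; ring

theorem kl_cont (a : ℝ) : Continuous (fun x => kl x a) := by
  unfold kl
  have h1 : Continuous (fun x : ℝ => (1 + x) * Real.log (1 + x)) :=
    Real.continuous_mul_log.comp (continuous_const.add continuous_id)
  have h2 : Continuous (fun x : ℝ => (1 - x) * Real.log (1 - x)) :=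
    Real.continuous_mul_log.comp (continuous_const.sub continuous_id)
  have h3 : (fun x : ℝ => ((1 + x) * (Real.log (1 + x) - Real.log (1 + a))
    + (1 - x) * (Real.log (1 - x) - Real.log (1 - a))) / 2)
    = fun x : ℝ => ((1 + x) * Real.log (1 + x) + (1 - x) * Real.log (1 - x)
      - ((1 + x) * Real.log (1 + a) + (1 - x) * Real.log (1 - a))) / 2 := by
    funext x; ring
  rw [h3]
  exact ((h1.add h2).sub (by fun_prop)).div_const 2

theorem vv_hasDerivAt {x : ℝ} (hx : x ∈ Ioo (-1 : ℝ) 1) : HasDerivAt vv (1 / (1 - x ^ 2)) x := by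
  have h1 : (1 : ℝ) + x ≠ 0 := by linarith [hx.1]
  have h2 : (1 : ℝ) - x ≠ 0 := by linarith [hx.2]
  have h3 : HasDerivAt (fun x : ℝ => (Real.log (1 + x) - Real.log (1 - x)) / 2)
      ((1 / (1 + x) - (-1) / (1 - x)) / 2) x :=
    ((((hasDerivAt_id x).const_add 1).log h1).sub
      (((hasDerivAt_id x).const_sub 1).log h2)).div_const 2
  refine h3.congr_deriv ?_
  have h4 : (1 : ℝ) - x ^ 2 ≠ 0 := by
    have : (1 : ℝ) - x ^ 2 = (1 + x) * (1 - x) := by ring
    rw [this]; exact mul_ne_zero h1 h2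
  field_simp
  ring

theorem kl_hasDerivAt {x a : ℝ} (hx : x ∈ Ioo (-1 : ℝ) 1) :
    HasDerivAt (fun x => kl x a) (vv x - vv a) x := by
  have h1 : (1 : ℝ) + x ≠ 0 := by linarith [hx.1]
  have h2 : (1 : ℝ) - x ≠ 0 := by linarith [hx.2]
  have d1 : HasDerivAt (fun x : ℝ => 1 + x) 1 x := (hasDerivAt_id x).const_add 1
  have d2 : HasDerivAt (fun x : ℝ => 1 - x) (-1) x := (hasDerivAt_id x).const_sub 1
  have h3 := ((d1.mul ((d1.log h1).sub_const (Real.log (1 + a)))).add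
    (d2.mul ((d2.log h2).sub_const (Real.log (1 - a))))).div_const 2
  refine h3.congr_deriv ?_
  unfold vv
  field_simp
  ring

/-- derivative of `kl (ρ α) (ρ β)` in `ρ` -/
theorem kl_scale_hasDerivAt {α β ρ : ℝ} (hα : ρ * α ∈ Ioo (-1 : ℝ) 1)
    (hβ : ρ * β ∈ Ioo (-1 : ℝ) 1) :
    HasDerivAt (fun r => kl (r * α) (r * β))
      (α * (vv (ρ * α) - vv (ρ * β)) - β * (ρ * (α - β) / (1 - (ρ * β) ^ 2))) ρ := by
  have h1 : (1 : ℝ) + ρ * α ≠ 0 := by linarith [hα.1]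
  have h2 : (1 : ℝ) - ρ * α ≠ 0 := by linarith [hα.2]
  have h3 : (1 : ℝ) + ρ * β ≠ 0 := by linarith [hβ.1]
  have h4 : (1 : ℝ) - ρ * β ≠ 0 := by linarith [hβ.2]
  have e : (1 : ℝ) - (ρ * β) ^ 2 = (1 + ρ * β) * (1 - ρ * β) := by ring
  have d1 : HasDerivAt (fun r : ℝ => 1 + r * α) α ρ := by
    simpa using ((hasDerivAt_id ρ).mul_const α).const_add 1
  have d2 : HasDerivAt (fun r : ℝ => 1 - r * α) (-α) ρ := by
    simpa using ((hasDerivAt_id ρ).mul_const α).const_sub 1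
  have d3 : HasDerivAt (fun r : ℝ => 1 + r * β) β ρ := by
    simpa using ((hasDerivAt_id ρ).mul_const β).const_add 1
  have d4 : HasDerivAt (fun r : ℝ => 1 - r * β) (-β) ρ := by
    simpa using ((hasDerivAt_id ρ).mul_const β).const_sub 1
  have h5 := ((d1.mul ((d1.log h1).sub (d3.log h3))).add
    (d2.mul ((d2.log h2).sub (d4.log h4)))).div_const 2
  refine h5.congr_deriv ?_
  simp only [Pi.sub_apply]
  unfold vv
  have k1 : (1 + ρ * α) * (α / (1 + ρ * α)) = α := mul_div_cancel₀ _ h1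
  have k2 : (1 - ρ * α) * (-α / (1 - ρ * α)) = -α := mul_div_cancel₀ _ h2
  have k3 : (1 - ρ * α) * (β / (1 - ρ * β)) - (1 + ρ * α) * (β / (1 + ρ * β))
      = -2 * (β * (ρ * (α - β) / (1 - (ρ * β) ^ 2))) := by
    rw [e]
    field_simp
    ring
  linear_combination k1 / 2 + k2 / 2 + k3 / 2

/-- If `f ≥ 0` at both ends and `f' < 0` implies `f' ≤ 0` further to the right, then `f ≥ 0`. -/
theorem nonneg_of_unimodal {f f' : ℝ → ℝ} {A B : ℝ} (hc : ContinuousOn f (Icc A B))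
    (hd : ∀ x ∈ Ioo A B, HasDerivAt f (f' x) x) (hA : 0 ≤ f A) (hB : 0 ≤ f B)
    (hs : ∀ x ∈ Ioo A B, ∀ y ∈ Ioo A B, x < y → f' x < 0 → f' y ≤ 0) :
    ∀ x ∈ Icc A B, 0 ≤ f x := by
  intro c hcm
  by_contra hneg
  push Not at hneg
  have hAc : A < c := lt_of_le_of_ne hcm.1 (by rintro rfl; linarith)
  have hcB : c < B := lt_of_le_of_ne hcm.2 (by rintro rfl; linarith)
  obtain ⟨x, hx, hx'⟩ := exists_hasDerivAt_eq_slope f f' hAc
    (hc.mono (Icc_subset_Icc_right hcB.le)) (fun x hx => hd x ⟨hx.1, hx.2.trans hcB⟩)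
  obtain ⟨y, hy, hy'⟩ := exists_hasDerivAt_eq_slope f f' hcB
    (hc.mono (Icc_subset_Icc_left hAc.le)) (fun x hx => hd x ⟨hAc.trans hx.1, hx.2⟩)
  have h1 : f' x < 0 := by
    rw [hx']
    exact div_neg_of_neg_of_pos (by linarith) (by linarith)
  have h2 : 0 < f' y := by
    rw [hy']
    exact div_pos (by linarith) (by linarith)
  have h3 := hs x ⟨hx.1, hx.2.trans hcB⟩ y ⟨hAc.trans hy.1, hy.2⟩ (hx.2.trans hy.1) h1
  linarith

/-- the elementary inequality behind the monotonicity -/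
theorem xi_nonneg {X Y : ℝ} (hX0 : 0 ≤ X) (hX1 : X < 1) (hY0 : 0 ≤ Y) (hY1 : Y < 1) :
    0 ≤ (1 - Y ^ 2) * (X / (1 - X ^ 2)) - Y - (1 + Y ^ 2) * (vv X - vv Y) := by
  set F : ℝ → ℝ := fun X => (1 - Y ^ 2) * (X / (1 - X ^ 2)) - Y - (1 + Y ^ 2) * (vv X - vv Y)
    with hF
  have hFY : F Y = 0 := by
    have : (1 : ℝ) - Y ^ 2 ≠ 0 := by nlinarith
    simp only [hF]
    field_simp
    ring
  have hd : ∀ x ∈ Ioo (-1 : ℝ) 1, HasDerivAt F (2 * (x ^ 2 - Y ^ 2) / (1 - x ^ 2) ^ 2) x := by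
    intro x hx
    have h1 : (1 : ℝ) - x ^ 2 ≠ 0 := by nlinarith [hx.1, hx.2]
    have d1 : HasDerivAt (fun x : ℝ => 1 - x ^ 2) (-(2 * x)) x := by
      simpa using ((hasDerivAt_id x).pow 2).const_sub 1
    have h2 := ((((hasDerivAt_id x).div d1 h1).const_mul (1 - Y ^ 2)).sub_const Y).sub
      (((vv_hasDerivAt hx).sub_const (vv Y)).const_mul (1 + Y ^ 2))
    refine h2.congr_deriv ?_
    simp only [id]
    field_simp
    ring
  have hcont : ContinuousOn F (Ico 0 1) := fun x hx =>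
    (hd x ⟨by linarith [hx.1], hx.2⟩).continuousAt.continuousWithinAt
  rcases le_total Y X with h | h
  · have hm : MonotoneOn F (Ico Y 1) := by
      apply monotoneOn_of_deriv_nonneg (convex_Ico Y 1)
        (hcont.mono (Ico_subset_Ico_left hY0))
      · intro x hx
        rw [interior_Ico] at hx
        exact (hd x ⟨by linarith [hx.1], hx.2⟩).differentiableAt.differentiableWithinAt
      · intro x hx
        rw [interior_Ico] at hx
        rw [(hd x ⟨by linarith [hx.1], hx.2⟩).deriv]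
        apply div_nonneg _ (sq_nonneg _)
        nlinarith [hx.1]
    have := hm ⟨le_refl _, hY1⟩ ⟨h, hX1⟩ h
    rw [hFY] at this
    exact this
  · have hm : AntitoneOn F (Icc 0 Y) := by
      apply antitoneOn_of_deriv_nonpos (convex_Icc 0 Y)
        (hcont.mono fun x hx => ⟨hx.1, lt_of_le_of_lt hx.2 hY1⟩)
      · intro x hx
        rw [interior_Icc] at hx
        exact (hd x ⟨by linarith [hx.1], by linarith [hx.2]⟩).differentiableAt.differentiableWithinAt
      · intro x hx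
        rw [interior_Icc] at hx
        rw [(hd x ⟨by linarith [hx.1], by linarith [hx.2]⟩).deriv]
        apply div_nonpos_of_nonpos_of_nonneg _ (sq_nonneg _)
        nlinarith [hx.1, hx.2]
    have := hm ⟨hX0, h⟩ ⟨hY0, le_refl _⟩ h
    rw [hFY] at this
    exact this

/-- `vv` lies above its tangent lines on `[0,1)` -/
theorem vv_tangent {X Y : ℝ} (hX0 : 0 ≤ X) (hX1 : X < 1) (hY0 : 0 ≤ Y) (hY1 : Y < 1) :
    (X - Y) / (1 - Y ^ 2) ≤ vv X - vv Y := by
  set F : ℝ → ℝ := fun X => vv X - vv Y - (X - Y) / (1 - Y ^ 2) with hF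
  have hY2 : (0 : ℝ) < 1 - Y ^ 2 := by nlinarith
  have hFY : F Y = 0 := by simp [hF]
  have hd : ∀ x ∈ Ioo (-1 : ℝ) 1, HasDerivAt F (1 / (1 - x ^ 2) - 1 / (1 - Y ^ 2)) x := by
    intro x hx
    exact ((vv_hasDerivAt hx).sub_const (vv Y)).sub
      (((hasDerivAt_id x).sub_const Y).div_const (1 - Y ^ 2))
  have hcont : ContinuousOn F (Ico 0 1) := fun x hx =>
    (hd x ⟨by linarith [hx.1], hx.2⟩).continuousAt.continuousWithinAt
  rcases le_total Y X with h | h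
  · have hm : MonotoneOn F (Ico Y 1) := by
      apply monotoneOn_of_deriv_nonneg (convex_Ico Y 1)
        (hcont.mono (Ico_subset_Ico_left hY0))
      · intro x hx
        rw [interior_Ico] at hx
        exact (hd x ⟨by linarith [hx.1], hx.2⟩).differentiableAt.differentiableWithinAt
      · intro x hx
        rw [interior_Ico] at hx
        rw [(hd x ⟨by linarith [hx.1], hx.2⟩).deriv, sub_nonneg]
        apply one_div_le_one_div_of_le
        · nlinarith [hx.1, hx.2]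
        · nlinarith [hx.1, hx.2]
    have := hm ⟨le_refl _, hY1⟩ ⟨h, hX1⟩ h
    rw [hFY] at this
    have h2 : 0 ≤ vv X - vv Y - (X - Y) / (1 - Y ^ 2) := this
    linarith
  · have hm : AntitoneOn F (Icc 0 Y) := by
      apply antitoneOn_of_deriv_nonpos (convex_Icc 0 Y)
        (hcont.mono fun x hx => ⟨hx.1, lt_of_le_of_lt hx.2 hY1⟩)
      · intro x hx
        rw [interior_Icc] at hx
        exact (hd x ⟨by linarith [hx.1], by linarith [hx.2]⟩).differentiableAt.differentiableWithinAt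
      · intro x hx
        rw [interior_Icc] at hx
        rw [(hd x ⟨by linarith [hx.1], by linarith [hx.2]⟩).deriv, sub_nonpos]
        apply one_div_le_one_div_of_le hY2
        nlinarith [hx.1, hx.2]
    have := hm ⟨hX0, h⟩ ⟨hY0, le_refl _⟩ h
    rw [hFY] at this
    have h2 : 0 ≤ vv X - vv Y - (X - Y) / (1 - Y ^ 2) := this
    linarith

/-- normalised derivative of `kl (ρ α) (ρ β)` -/
noncomputable def kf (α β ρ : ℝ) : ℝ :=
  α * ((1 / ρ - ρ * β ^ 2) * (vv (ρ * α) - vv (ρ * β))) - β * (α - β)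

theorem kf_eq {α β ρ : ℝ} (hρ : 0 < ρ) (hβ : 1 - (ρ * β) ^ 2 ≠ 0) :
    α * (vv (ρ * α) - vv (ρ * β)) - β * (ρ * (α - β) / (1 - (ρ * β) ^ 2))
      = ρ / (1 - (ρ * β) ^ 2) * kf α β ρ := by
  unfold kf
  rw [mul_pow] at hβ ⊢
  field_simp

theorem kf_nonneg {α β ρ : ℝ} (hρ : ρ ∈ Ioo (0 : ℝ) 1) (hα : α ∈ Ico (0 : ℝ) 1)
    (hβ : β ∈ Ico (0 : ℝ) 1) : 0 ≤ kf α β ρ := by
  have hX1 : ρ * α < 1 := by nlinarith [hρ.1, hρ.2, hα.1, hα.2]
  have hY1 : ρ * β < 1 := by nlinarith [hρ.1, hρ.2, hβ.1, hβ.2]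
  have hX0 : 0 ≤ ρ * α := mul_nonneg hρ.1.le hα.1
  have hY0 : 0 ≤ ρ * β := mul_nonneg hρ.1.le hβ.1
  have h := vv_tangent hX0 hX1 hY0 hY1
  have hY2 : (0 : ℝ) < 1 - (ρ * β) ^ 2 := by nlinarith
  have h2 : 0 ≤ α * (1 / ρ - ρ * β ^ 2) := by
    refine mul_nonneg hα.1 ?_
    have : 1 / ρ - ρ * β ^ 2 = (1 - (ρ * β) ^ 2) / ρ := by
      have := hρ.1.ne'
      field_simp
    rw [this]
    exact div_nonneg hY2.le hρ.1.le
  have h3 := mul_le_mul_of_nonneg_left h h2
  have h4 : α * (1 / ρ - ρ * β ^ 2) * ((ρ * α - ρ * β) / (1 - (ρ * β) ^ 2)) = α * (α - β) := by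
    have := hρ.1.ne'
    have h5 := hY2.ne'
    rw [mul_pow] at h5 ⊢
    field_simp
  rw [h4] at h3
  unfold kf
  nlinarith [sq_nonneg (α - β)]

theorem kf_mono {α β : ℝ} (hα : α ∈ Ico (0 : ℝ) 1) (hβ : β ∈ Ico (0 : ℝ) 1) :
    MonotoneOn (kf α β) (Ioo 0 1) := by
  have hd : ∀ ρ ∈ Ioo (0 : ℝ) 1, HasDerivAt (kf α β)
      (α * (((1 - (ρ * β) ^ 2) * ((ρ * α) / (1 - (ρ * α) ^ 2)) - ρ * β
        - (1 + (ρ * β) ^ 2) * (vv (ρ * α) - vv (ρ * β))) / ρ ^ 2)) ρ := by
    intro ρ hρ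
    have hX1 : ρ * α < 1 := by nlinarith [hρ.1, hρ.2, hα.1, hα.2]
    have hY1 : ρ * β < 1 := by nlinarith [hρ.1, hρ.2, hβ.1, hβ.2]
    have hX0 : 0 ≤ ρ * α := mul_nonneg hρ.1.le hα.1
    have hY0 : 0 ≤ ρ * β := mul_nonneg hρ.1.le hβ.1
    have hX2 : (1 : ℝ) - (ρ * α) ^ 2 ≠ 0 := by nlinarith
    have hY2 : (1 : ℝ) - (ρ * β) ^ 2 ≠ 0 := by nlinarith
    have hρ0 := hρ.1.ne'
    have l1 : HasDerivAt (fun r : ℝ => r * α) α ρ := by
      simpa using (hasDerivAt_id ρ).mul_const α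
    have l2 : HasDerivAt (fun r : ℝ => r * β) β ρ := by
      simpa using (hasDerivAt_id ρ).mul_const β
    have d1 : HasDerivAt (fun r : ℝ => vv (r * α)) (1 / (1 - (ρ * α) ^ 2) * α) ρ :=
      HasDerivAt.comp (h₂ := vv) (h := fun r : ℝ => r * α) ρ
        (vv_hasDerivAt (x := ρ * α) ⟨by linarith, hX1⟩) l1
    have d2 : HasDerivAt (fun r : ℝ => vv (r * β)) (1 / (1 - (ρ * β) ^ 2) * β) ρ :=
      HasDerivAt.comp (h₂ := vv) (h := fun r : ℝ => r * β) ρ
        (vv_hasDerivAt (x := ρ * β) ⟨by linarith, hY1⟩) l2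
    have d3 : HasDerivAt (fun r : ℝ => 1 / r - r * β ^ 2) (-(1 / ρ ^ 2) - β ^ 2) ρ := by
      have h1 : HasDerivAt (fun r : ℝ => 1 / r) (-(1 / ρ ^ 2)) ρ := by
        simpa [one_div] using hasDerivAt_inv hρ0
      have h2 : HasDerivAt (fun r : ℝ => r * β ^ 2) (β ^ 2) ρ := by
        simpa using (hasDerivAt_id ρ).mul_const (β ^ 2)
      exact h1.sub h2
    have h := ((d3.mul (d1.sub d2)).const_mul α).sub_const (β * (α - β))
    refine h.congr_deriv ?_
    simp only [Pi.sub_apply]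
    rw [mul_pow] at hX2 hY2
    simp only [mul_pow]
    field_simp
    ring
  apply monotoneOn_of_deriv_nonneg (convex_Ioo 0 1)
  · intro ρ hρ
    exact (hd ρ hρ).continuousAt.continuousWithinAt
  · intro ρ hρ
    rw [interior_Ioo] at hρ
    exact (hd ρ hρ).differentiableAt.differentiableWithinAt
  · intro ρ hρ
    rw [interior_Ioo] at hρ
    rw [(hd ρ hρ).deriv]
    have hX1 : ρ * α < 1 := by nlinarith [hρ.1, hρ.2, hα.1, hα.2]
    have hY1 : ρ * β < 1 := by nlinarith [hρ.1, hρ.2, hβ.1, hβ.2]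
    exact mul_nonneg hα.1 (div_nonneg (xi_nonneg (mul_nonneg hρ.1.le hα.1) hX1
      (mul_nonneg hρ.1.le hβ.1) hY1) (sq_nonneg _))

end Vale.Agent.P322.Sdpi
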