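import Mathlib
import Vale.Agent.Lib.P322.Sdpi1

/-!
Courtade-Kumar, tangent plane bound. Part 2: interpolation between `ρ = 0` and `ρ = 1`.
-/

namespace Vale.Agent.P322.Sdpi

open Set

/-- chain rule -/
theorem chain {s α α' m q p ρ : ℝ} (h1 : (1 + s) * α = (1 - s) * α')
    (h2 : (1 + m) * q = (1 - m) * p) (hs1 : 0 < 1 + s) (hs2 : 0 < 1 - s) (hm1 : 0 < 1 + m)
    (hm2 : 0 < 1 - m) (ha : ρ * α ∈ Ioo (-1 : ℝ) 1) (ha' : ρ * α' ∈ Ioo (-1 : ℝ) 1)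
    (hq : ρ * q ∈ Ioo (-1 : ℝ) 1) (hp : ρ * p ∈ Ioo (-1 : ℝ) 1) :
    kl (s + ρ * ((1 + s) * α)) (m + ρ * ((1 + m) * q))
      + kl (s - ρ * ((1 + s) * α)) (m - ρ * ((1 + m) * q))
      = 2 * kl s m + (1 + s) * kl (ρ * α) (ρ * q) + (1 - s) * kl (ρ * α') (ρ * p) := by
  have e1 : 1 + (s + ρ * ((1 + s) * α)) = (1 + s) * (1 + ρ * α) := by ring
  have e2 : 1 - (s + ρ * ((1 + s) * α)) = (1 - s) * (1 - ρ * α') := by rw [h1]; ring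
  have e3 : 1 + (s - ρ * ((1 + s) * α)) = (1 + s) * (1 - ρ * α) := by ring
  have e4 : 1 - (s - ρ * ((1 + s) * α)) = (1 - s) * (1 + ρ * α') := by rw [h1]; ring
  have f1 : 1 + (m + ρ * ((1 + m) * q)) = (1 + m) * (1 + ρ * q) := by ring
  have f2 : 1 - (m + ρ * ((1 + m) * q)) = (1 - m) * (1 - ρ * p) := by rw [h2]; ring
  have f3 : 1 + (m - ρ * ((1 + m) * q)) = (1 + m) * (1 - ρ * q) := by ring
  have f4 : 1 - (m - ρ * ((1 + m) * q)) = (1 - m) * (1 + ρ * p) := by rw [h2]; ring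
  have n1 : (1 : ℝ) + ρ * α ≠ 0 := by linarith [ha.1]
  have n2 : (1 : ℝ) - ρ * α ≠ 0 := by linarith [ha.2]
  have n3 : (1 : ℝ) + ρ * α' ≠ 0 := by linarith [ha'.1]
  have n4 : (1 : ℝ) - ρ * α' ≠ 0 := by linarith [ha'.2]
  have n5 : (1 : ℝ) + ρ * q ≠ 0 := by linarith [hq.1]
  have n6 : (1 : ℝ) - ρ * q ≠ 0 := by linarith [hq.2]
  have n7 : (1 : ℝ) + ρ * p ≠ 0 := by linarith [hp.1]
  have n8 : (1 : ℝ) - ρ * p ≠ 0 := by linarith [hp.2]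
  unfold kl
  rw [e1, e2, e3, e4, f1, f2, f3, f4, Real.log_mul hs1.ne' n1, Real.log_mul hs2.ne' n4,
    Real.log_mul hs1.ne' n2, Real.log_mul hs2.ne' n3, Real.log_mul hm1.ne' n5,
    Real.log_mul hm2.ne' n8, Real.log_mul hm1.ne' n6, Real.log_mul hm2.ne' n7]
  ring

theorem interp {s α α' m q p : ℝ} (hs1 : 0 < 1 + s) (hs2 : 0 < 1 - s)
    (hα : α ∈ Ico (0 : ℝ) 1) (hα' : α' ∈ Ico (0 : ℝ) 1) (hq : q ∈ Ico (0 : ℝ) 1)
    (hp : p ∈ Ico (0 : ℝ) 1) (hqp : q ≤ p) {Λ G : ℝ} (hL : 0 < 2 * Λ - Real.log (1 - q ^ 2))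
    (hG : G = 2 * kl s m + (1 + s) * kl α q + (1 - s) * kl α' p)
    (h0 : 2 * kl s m ≤ 2 * Λ / (2 * Λ - Real.log (1 - q ^ 2)) * G) :
    ∀ ρ ∈ Icc (0 : ℝ) 1, 2 * kl s m + (1 + s) * kl (ρ * α) (ρ * q)
      + (1 - s) * kl (ρ * α') (ρ * p)
      ≤ (2 * Λ - Real.log (1 - (ρ * q) ^ 2)) / (2 * Λ - Real.log (1 - q ^ 2)) * G := by
  obtain ⟨c, hc⟩ : ∃ c, c = G / (2 * Λ - Real.log (1 - q ^ 2)) := ⟨_, rfl⟩
  set D : ℝ → ℝ := fun ρ => (2 * Λ - Real.log (1 - (ρ * q) ^ 2)) * c - 2 * kl s m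
    - (1 + s) * kl (ρ * α) (ρ * q) - (1 - s) * kl (ρ * α') (ρ * p) with hD
  have hmem : ∀ {β : ℝ}, β ∈ Ico (0 : ℝ) 1 → ∀ ρ ∈ Icc (0 : ℝ) 1, ρ * β ∈ Ico (0 : ℝ) 1 := by
    intro β hβ ρ hρ
    exact ⟨mul_nonneg hρ.1 hβ.1, by nlinarith [hρ.1, hρ.2, hβ.1, hβ.2]⟩
  have hmem' : ∀ {β : ℝ}, β ∈ Ico (0 : ℝ) 1 → ∀ ρ ∈ Icc (0 : ℝ) 1, ρ * β ∈ Ioo (-1 : ℝ) 1 := by
    intro β hβ ρ hρ
    have := hmem hβ ρ hρ
    exact ⟨by linarith [this.1], this.2⟩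
  have hsq : ∀ {β : ℝ}, β ∈ Ico (0 : ℝ) 1 → ∀ ρ ∈ Icc (0 : ℝ) 1, 0 < 1 - (ρ * β) ^ 2 := by
    intro β hβ ρ hρ
    have := hmem hβ ρ hρ
    nlinarith [this.1, this.2]
  have hder : ∀ ρ ∈ Icc (0 : ℝ) 1, HasDerivAt D
      ((2 * (ρ * q ^ 2) / (1 - (ρ * q) ^ 2)) * c
        - (1 + s) * (α * (vv (ρ * α) - vv (ρ * q)) - q * (ρ * (α - q) / (1 - (ρ * q) ^ 2)))
        - (1 - s) * (α' * (vv (ρ * α') - vv (ρ * p)) - p * (ρ * (α' - p) / (1 - (ρ * p) ^ 2))))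
      ρ := by
    intro ρ hρ
    have h1 := (hsq hq ρ hρ).ne'
    have d1 : HasDerivAt (fun r : ℝ => 1 - (r * q) ^ 2) (-(2 * (ρ * q ^ 2))) ρ := by
      have l1 : HasDerivAt (fun r : ℝ => r * q) q ρ := by
        simpa using (hasDerivAt_id ρ).mul_const q
      refine ((l1.pow 2).const_sub 1).congr_deriv ?_
      push_cast
      ring
    have d2 := ((d1.log h1).const_sub (2 * Λ)).mul_const c
    have d3 := kl_scale_hasDerivAt (hmem' hα ρ hρ) (hmem' hq ρ hρ)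
    have d4 := kl_scale_hasDerivAt (hmem' hα' ρ hρ) (hmem' hp ρ hρ)
    refine (((d2.sub_const (2 * kl s m)).sub (d3.const_mul (1 + s))).sub
      (d4.const_mul (1 - s))).congr_deriv ?_
    ring
  -- the normalised derivative
  obtain ⟨W, hW⟩ : ∃ W : ℝ → ℝ, ∀ ρ, W ρ = 2 * c * q ^ 2 - (1 + s) * kf α q ρ
      - (1 - s) * (((1 - (ρ * q) ^ 2) / (1 - (ρ * p) ^ 2)) * kf α' p ρ) :=
    ⟨fun ρ => _, fun ρ => rfl⟩
  have hDW : ∀ ρ ∈ Ioo (0 : ℝ) 1, (2 * (ρ * q ^ 2) / (1 - (ρ * q) ^ 2)) * c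
        - (1 + s) * (α * (vv (ρ * α) - vv (ρ * q)) - q * (ρ * (α - q) / (1 - (ρ * q) ^ 2)))
        - (1 - s) * (α' * (vv (ρ * α') - vv (ρ * p)) - p * (ρ * (α' - p) / (1 - (ρ * p) ^ 2)))
      = ρ / (1 - (ρ * q) ^ 2) * W ρ := by
    intro ρ hρ
    have hρ' : ρ ∈ Icc (0 : ℝ) 1 := ⟨hρ.1.le, hρ.2.le⟩
    have h1 := (hsq hq ρ hρ').ne'
    have h2 := (hsq hp ρ hρ').ne'
    rw [kf_eq hρ.1 h1, kf_eq hρ.1 h2, hW]
    have k1 : ρ / (1 - (ρ * q) ^ 2) * ((1 - (ρ * q) ^ 2) / (1 - (ρ * p) ^ 2))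
        = ρ / (1 - (ρ * p) ^ 2) := by
      rw [div_mul_div_comm, mul_comm ρ, mul_div_mul_left _ _ h1]
    have k2 : 2 * (ρ * q ^ 2) / (1 - (ρ * q) ^ 2) = ρ / (1 - (ρ * q) ^ 2) * (2 * q ^ 2) := by
      ring
    linear_combination c * k2 + (1 - s) * kf α' p ρ * k1
  have hanti : ∀ x ∈ Ioo (0 : ℝ) 1, ∀ y ∈ Ioo (0 : ℝ) 1, x < y → W y ≤ W x := by
    intro x hx y hy hxy
    have hx' : x ∈ Icc (0 : ℝ) 1 := ⟨hx.1.le, hx.2.le⟩
    have hy' : y ∈ Icc (0 : ℝ) 1 := ⟨hy.1.le, hy.2.le⟩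
    have m1 := kf_mono hα hq hx hy hxy.le
    have m2 := kf_mono hα' hp hx hy hxy.le
    have m3 := kf_nonneg hx hα' hp
    have b1 := hsq hq x hx'
    have b2 := hsq hp x hx'
    have b3 := hsq hq y hy'
    have b4 := hsq hp y hy'
    have m4 : (1 - (x * q) ^ 2) / (1 - (x * p) ^ 2) ≤ (1 - (y * q) ^ 2) / (1 - (y * p) ^ 2) := by
      rw [div_le_div_iff₀ b2 b4]
      have h1 : x ^ 2 ≤ y ^ 2 := by nlinarith [hx.1, hy.1]
      have h2 : q ^ 2 ≤ p ^ 2 := by nlinarith [hq.1, hp.1]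
      nlinarith [mul_nonneg (sub_nonneg.2 h1) (sub_nonneg.2 h2)]
    have m5 : ((1 - (x * q) ^ 2) / (1 - (x * p) ^ 2)) * kf α' p x
        ≤ ((1 - (y * q) ^ 2) / (1 - (y * p) ^ 2)) * kf α' p y :=
      mul_le_mul m4 m2 m3 (div_nonneg b3.le b4.le)
    rw [hW, hW]
    have m6 := mul_le_mul_of_nonneg_left m1 hs1.le
    have m7 := mul_le_mul_of_nonneg_left m5 hs2.le
    linarith
  have hG' : c * (2 * Λ - Real.log (1 - q ^ 2)) = G := by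
    rw [hc]; exact div_mul_cancel₀ _ hL.ne'
  have hpos := nonneg_of_unimodal (f := D) (A := 0) (B := 1)
    (fun ρ hρ => (hder ρ hρ).continuousAt.continuousWithinAt)
    (fun ρ hρ => hder ρ ⟨hρ.1.le, hρ.2.le⟩)
    (by
      simp only [hD]
      have e0 : kl (0 * α) (0 * q) = 0 := by rw [zero_mul, zero_mul]; exact kl_self 0
      have e1 : kl (0 * α') (0 * p) = 0 := by rw [zero_mul, zero_mul]; exact kl_self 0
      rw [e0, e1]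
      have h2 : 2 * Λ / (2 * Λ - Real.log (1 - q ^ 2)) * G = 2 * Λ * c := by rw [hc]; ring
      rw [h2] at h0
      simp only [zero_mul, ne_eq, OfNat.ofNat_ne_zero, not_false_eq_true, zero_pow, sub_zero,
        Real.log_one, mul_zero]
      linarith)
    (by
      simp only [hD, one_mul]
      have : (2 * Λ - Real.log (1 - q ^ 2)) * c = G := by rw [mul_comm]; exact hG'
      rw [this, hG]
      linarith)
    (by
      intro x hx y hy hxy hneg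
      rw [hDW x hx] at hneg
      rw [hDW y hy]
      have b1 := hsq hq x ⟨hx.1.le, hx.2.le⟩
      have b3 := hsq hq y ⟨hy.1.le, hy.2.le⟩
      have h1 : W x < 0 := by
        by_contra hcon
        push Not at hcon
        have : 0 ≤ x / (1 - (x * q) ^ 2) * W x := mul_nonneg (div_nonneg hx.1.le b1.le) hcon
        linarith
      have h2 : W y ≤ 0 := (hanti x hx y hy hxy).trans h1.le
      exact mul_nonpos_of_nonneg_of_nonpos (div_nonneg hy.1.le b3.le) h2)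
  intro ρ hρ
  have h := hpos ρ hρ
  simp only [hD] at h
  have e : (2 * Λ - Real.log (1 - (ρ * q) ^ 2)) / (2 * Λ - Real.log (1 - q ^ 2)) * G
      = (2 * Λ - Real.log (1 - (ρ * q) ^ 2)) * c := by rw [hc]; ring
  rw [e]
  linarith

end Vale.Agent.P322.Sdpi
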