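import Mathlib
import Vale.Agent.Lib.P322.Sdpi1

/-!
Courtade-Kumar, tangent plane bound. Part 3: the case `ρ = 0`.
-/

namespace Vale.Agent.P322.Sdpi

open Set

/-- exponential tilt of the sign with odds `X` -/
noncomputable def xs (X z : ℝ) : ℝ := (X * z - 1) / (X * z + 1)

theorem xs_add {X z : ℝ} (h : 0 ≤ X * z) : 1 + xs X z = 2 * (X * z) / (X * z + 1) := by
  unfold xs
  have : X * z + 1 ≠ 0 := by linarith
  field_simp
  ring

theorem xs_sub {X z : ℝ} (h : 0 ≤ X * z) : 1 - xs X z = 2 / (X * z + 1) := by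
  unfold xs
  have : X * z + 1 ≠ 0 := by linarith
  field_simp
  ring

theorem xs_mem {X z : ℝ} (h : 0 < X * z) : xs X z ∈ Ioo (-1 : ℝ) 1 := by
  have h1 := xs_add h.le
  have h2 := xs_sub h.le
  have h3 : 0 < 2 * (X * z) / (X * z + 1) := by positivity
  have h4 : 0 < 2 / (X * z + 1) := by positivity
  constructor <;> linarith

theorem xs_hasDerivAt {X z : ℝ} (h : 0 ≤ X * z) :
    HasDerivAt (xs X) (2 * X / (X * z + 1) ^ 2) z := by
  have h0 : X * z + 1 ≠ 0 := by linarith
  have d1 : HasDerivAt (fun z : ℝ => X * z - 1) X z := by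
    simpa using ((hasDerivAt_id z).const_mul X).sub_const 1
  have d2 : HasDerivAt (fun z : ℝ => X * z + 1) X z := by
    simpa using ((hasDerivAt_id z).const_mul X).add_const 1
  refine (d1.div d2 h0).congr_deriv ?_
  field_simp
  ring

theorem vv_xs {X z : ℝ} (hX : 0 < X) (hz : 0 < z) :
    vv (xs X z) = (Real.log X + Real.log z) / 2 := by
  have h := mul_pos hX hz
  unfold vv
  rw [xs_add h.le, xs_sub h.le, Real.log_div (by positivity) (by positivity),
    Real.log_div (by norm_num) (by positivity), Real.log_mul (by norm_num) (by positivity),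
    Real.log_mul hX.ne' hz.ne']
  ring

theorem xs_one {a X : ℝ} (ha : a ∈ Ioo (-1 : ℝ) 1) (hX : X = (1 + a) / (1 - a)) :
    xs X 1 = a := by
  have h1 : (1 : ℝ) - a ≠ 0 := by linarith [ha.2]
  have h2 : (1 + a) / (1 - a) * 1 + 1 ≠ 0 := by
    have : (1 + a) / (1 - a) * 1 + 1 = 2 / (1 - a) := by field_simp; ring
    rw [this]
    have : 0 < 1 - a := by linarith [ha.2]
    positivity
  unfold xs
  rw [hX, div_eq_iff h2]
  field_simp
  ring

theorem vv_eq_odds {a X : ℝ} (ha : a ∈ Ioo (-1 : ℝ) 1) (hX : X = (1 + a) / (1 - a)) :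
    vv a = Real.log X / 2 := by
  unfold vv
  rw [hX, Real.log_div (by linarith [ha.1]) (by linarith [ha.2])]

/-- half log-odds of the average of two tilted signs -/
theorem vv_avg {X Y z : ℝ} (hX : 0 < X) (hY : 0 < Y) (hz : 0 < z) :
    vv ((xs X z + xs Y z) / 2) = (Real.log z + Real.log (X + Y + 2 * X * Y * z)
      - Real.log (2 + (X + Y) * z)) / 2 := by
  have h1 := xs_add (mul_pos hX hz).le
  have h2 := xs_sub (mul_pos hX hz).le
  have h3 := xs_add (mul_pos hY hz).le
  have h4 := xs_sub (mul_pos hY hz).le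
  have p1 : 0 < X * z + 1 := by positivity
  have p2 : 0 < Y * z + 1 := by positivity
  have e1 : 1 + (xs X z + xs Y z) / 2
      = z * (X + Y + 2 * X * Y * z) / ((X * z + 1) * (Y * z + 1)) := by
    have : 1 + (xs X z + xs Y z) / 2 = ((1 + xs X z) + (1 + xs Y z)) / 2 := by ring
    rw [this, h1, h3]
    field_simp
    ring
  have e2 : 1 - (xs X z + xs Y z) / 2
      = (2 + (X + Y) * z) / ((X * z + 1) * (Y * z + 1)) := by
    have : 1 - (xs X z + xs Y z) / 2 = ((1 - xs X z) + (1 - xs Y z)) / 2 := by ring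
    rw [this, h2, h4]
    field_simp
    ring
  unfold vv
  rw [e1, e2, Real.log_div (by positivity) (by positivity), Real.log_div (by positivity)
    (by positivity), Real.log_mul hz.ne' (by positivity)]
  ring

/-- The half of the claim on the side of the corner `(-1,-1)`. -/
theorem half {a b l0 : ℝ} (ha : a ∈ Ioo (-1 : ℝ) 1) (hb : b ∈ Ioo (-1 : ℝ) 1) (hl0 : 0 ≤ l0)
    (hG : (1 - l0) * (1 - ((a + b) / 2) ^ 2) ≤ ((a - b) / 2) ^ 2)
    (hcorner : 2 * kl (-1) ((a + b) / 2) ≤ l0 * (kl (-1) a + kl (-1) b))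
    {x y : ℝ} (hx : x ∈ Icc (-1 : ℝ) 1) (hy : y ∈ Icc (-1 : ℝ) 1)
    (hxy : (x + y) / 2 ≤ (a + b) / 2) :
    2 * kl ((x + y) / 2) ((a + b) / 2) ≤ l0 * (kl x a + kl y b) := by
  obtain ⟨X, hX⟩ : ∃ X, X = (1 + a) / (1 - a) := ⟨_, rfl⟩
  obtain ⟨Y, hY⟩ : ∃ Y, Y = (1 + b) / (1 - b) := ⟨_, rfl⟩
  have hX0 : 0 < X := by
    rw [hX]; exact div_pos (by linarith [ha.1]) (by linarith [ha.2])
  have hY0 : 0 < Y := by
    rw [hY]; exact div_pos (by linarith [hb.1]) (by linarith [hb.2])
  obtain ⟨m, hm⟩ : ∃ m, m = (a + b) / 2 := ⟨_, rfl⟩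
  have hmm : m ∈ Ioo (-1 : ℝ) 1 := by
    rw [hm]; constructor <;> linarith [ha.1, ha.2, hb.1, hb.2]
  rw [← hm] at hG hcorner hxy ⊢
  have hxs1 : xs X 1 = a := xs_one ha hX
  have hys1 : xs Y 1 = b := xs_one hb hY
  have hxs0 : xs X 0 = -1 := by unfold xs; simp
  have hys0 : xs Y 0 = -1 := by unfold xs; simp
  set κ : ℝ → ℝ := fun z => l0 * (kl (xs X z) a + kl (xs Y z) b)
    - 2 * kl ((xs X z + xs Y z) / 2) m with hκ
  set J : ℝ → ℝ := fun z => (l0 * Real.log z - (Real.log z + Real.log (X + Y + 2 * X * Y * z)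
    - Real.log (2 + (X + Y) * z)) + (Real.log (X + Y + 2 * X * Y) - Real.log (2 + (X + Y)))) / 2
    with hJ
  have hxsd : ∀ z, 0 ≤ z → HasDerivAt (xs X) (2 * X / (X * z + 1) ^ 2) z := fun z hz =>
    xs_hasDerivAt (mul_nonneg hX0.le hz)
  have hysd : ∀ z, 0 ≤ z → HasDerivAt (xs Y) (2 * Y / (Y * z + 1) ^ 2) z := fun z hz =>
    xs_hasDerivAt (mul_nonneg hY0.le hz)
  have hvm : vv m = (Real.log (X + Y + 2 * X * Y) - Real.log (2 + (X + Y))) / 2 := by
    have h := vv_avg hX0 hY0 one_pos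
    rw [hxs1, hys1, ← hm, Real.log_one, mul_one, mul_one] at h
    rw [h]; ring
  have hJ1 : J 1 = 0 := by
    simp only [hJ, Real.log_one, mul_one, mul_zero]
    ring
  have hJvv : ∀ z, 0 < z → J z = l0 * (Real.log z / 2) - (vv ((xs X z + xs Y z) / 2) - vv m) := by
    intro z hz
    rw [vv_avg hX0 hY0 hz, hvm]
    simp only [hJ]
    ring
  have hκd : ∀ z ∈ Ioo (0 : ℝ) 1, HasDerivAt κ
      ((2 * X / (X * z + 1) ^ 2 + 2 * Y / (Y * z + 1) ^ 2) * J z) z := by
    intro z hz
    have m1 := xs_mem (mul_pos hX0 hz.1)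
    have m2 := xs_mem (mul_pos hY0 hz.1)
    have m3 : (xs X z + xs Y z) / 2 ∈ Ioo (-1 : ℝ) 1 := by
      constructor <;> linarith [m1.1, m1.2, m2.1, m2.2]
    have d1 := HasDerivAt.comp (h₂ := fun x => kl x a) (h := xs X) z (kl_hasDerivAt m1)
      (hxsd z hz.1.le)
    have d2 := HasDerivAt.comp (h₂ := fun x => kl x b) (h := xs Y) z (kl_hasDerivAt m2)
      (hysd z hz.1.le)
    have d3 := HasDerivAt.comp (h₂ := fun x => kl x m) (h := fun z => (xs X z + xs Y z) / 2) z
      (kl_hasDerivAt m3) (((hxsd z hz.1.le).add (hysd z hz.1.le)).div_const 2)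
    have d4 := ((d1.add d2).const_mul l0).sub (d3.const_mul 2)
    refine HasDerivAt.congr_deriv (f := κ) d4 ?_
    rw [hJvv z hz.1, vv_xs hX0 hz.1, vv_xs hY0 hz.1, vv_eq_odds ha hX, vv_eq_odds hb hY]
    ring
  have hκc : ContinuousOn κ (Icc 0 1) := by
    intro z hz
    have c1 := (hxsd z hz.1).continuousAt
    have c2 := (hysd z hz.1).continuousAt
    have k1 : ContinuousAt (fun z => kl (xs X z) a) z :=
      ContinuousAt.comp (g := fun x => kl x a) (kl_cont a).continuousAt c1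
    have k2 : ContinuousAt (fun z => kl (xs Y z) b) z :=
      ContinuousAt.comp (g := fun x => kl x b) (kl_cont b).continuousAt c2
    have k3 : ContinuousAt (fun z => kl ((xs X z + xs Y z) / 2) m) z :=
      ContinuousAt.comp (g := fun x => kl x m) (kl_cont m).continuousAt ((c1.add c2).div_const 2)
    exact (((k1.add k2).const_mul l0).sub (k3.const_mul 2)).continuousWithinAt
  -- derivative of `J`
  have hJd : ∀ z, 0 < z → HasDerivAt J
      ((l0 - 1 + (X - Y) ^ 2 * z / ((X + Y + 2 * X * Y * z) * (2 + (X + Y) * z))) / (2 * z)) z := by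
    intro z hz
    have p1 : X + Y + 2 * X * Y * z ≠ 0 := by positivity
    have p2 : 2 + (X + Y) * z ≠ 0 := by positivity
    have l1 : HasDerivAt (fun z : ℝ => X + Y + 2 * X * Y * z) (2 * X * Y) z := by
      simpa using ((hasDerivAt_id z).const_mul (2 * X * Y)).const_add (X + Y)
    have l2 : HasDerivAt (fun z : ℝ => 2 + (X + Y) * z) (X + Y) z := by
      simpa using ((hasDerivAt_id z).const_mul (X + Y)).const_add 2
    have l3 : HasDerivAt (fun z : ℝ => Real.log z) (1 / z) z := by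
      simpa using Real.hasDerivAt_log hz.ne'
    have d := ((((l3.const_mul l0).sub ((l3.add (l1.log p1)).sub (l2.log p2))).add_const
      (Real.log (X + Y + 2 * X * Y) - Real.log (2 + (X + Y)))).div_const 2)
    refine HasDerivAt.congr_deriv (f := J) d ?_
    field_simp
    ring
  have hquasi : ∀ z1 z2 : ℝ, 0 < z1 → z1 < z2 → z2 < 1 →
      0 < l0 - 1 + (X - Y) ^ 2 * z1 / ((X + Y + 2 * X * Y * z1) * (2 + (X + Y) * z1)) →
      0 ≤ l0 - 1 + (X - Y) ^ 2 * z2 / ((X + Y + 2 * X * Y * z2) * (2 + (X + Y) * z2)) := by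
    intro z1 z2 h1 h2 h3 h4
    have h2' : 0 < z2 := h1.trans h2
    have q1 : 0 < (X + Y + 2 * X * Y * z1) * (2 + (X + Y) * z1) := by positivity
    have q2 : 0 < (X + Y + 2 * X * Y * z2) * (2 + (X + Y) * z2) := by positivity
    -- value at 1
    have hG1 : (1 - l0) * ((X + Y + 2 * X * Y) * (2 + (X + Y))) ≤ (X - Y) ^ 2 := by
      have ea : (1 : ℝ) - a ≠ 0 := by linarith [ha.2]
      have eb : (1 : ℝ) - b ≠ 0 := by linarith [hb.2]
      have pa : 0 < 1 - a := by linarith [ha.2]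
      have pb : 0 < 1 - b := by linarith [hb.2]
      have e1 : (X + Y + 2 * X * Y) * (2 + (X + Y))
          = (1 - m ^ 2) * (4 / ((1 - a) * (1 - b))) ^ 2 := by
        rw [hX, hY, hm]
        field_simp
        ring
      have e2 : (X - Y) ^ 2 = ((a - b) / 2) ^ 2 * (4 / ((1 - a) * (1 - b))) ^ 2 := by
        rw [hX, hY]
        field_simp
        ring
      rw [e1, e2, ← mul_assoc]
      exact mul_le_mul_of_nonneg_right hG (sq_nonneg _)
    have g1 : (1 - l0) * ((X + Y + 2 * X * Y * z1) * (2 + (X + Y) * z1)) < (X - Y) ^ 2 * z1 := by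
      have h5 : 1 - l0 < (X - Y) ^ 2 * z1 / ((X + Y + 2 * X * Y * z1) * (2 + (X + Y) * z1)) := by
        linarith
      rwa [lt_div_iff₀ q1] at h5
    have g2 : (1 - l0) * ((X + Y + 2 * X * Y * z2) * (2 + (X + Y) * z2)) ≤ (X - Y) ^ 2 * z2 := by
      rcases le_total 1 l0 with hl | hl
      · have : (1 - l0) * ((X + Y + 2 * X * Y * z2) * (2 + (X + Y) * z2)) ≤ 0 :=
          mul_nonpos_of_nonpos_of_nonneg (by linarith) q2.le
        have h6 : 0 ≤ (X - Y) ^ 2 * z2 := by positivity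
        linarith
      · have id1 : (1 - z1) * ((X - Y) ^ 2 * z2
            - (1 - l0) * ((X + Y + 2 * X * Y * z2) * (2 + (X + Y) * z2)))
            = (1 - z2) * ((X - Y) ^ 2 * z1
              - (1 - l0) * ((X + Y + 2 * X * Y * z1) * (2 + (X + Y) * z1)))
            + (z2 - z1) * ((X - Y) ^ 2 - (1 - l0) * ((X + Y + 2 * X * Y) * (2 + (X + Y))))
            + (1 - l0) * (2 * X * Y * (X + Y)) * ((z2 - z1) * (1 - z2) * (1 - z1)) := by
          ring
        have t1 : 0 ≤ (1 - z2) * ((X - Y) ^ 2 * z1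
              - (1 - l0) * ((X + Y + 2 * X * Y * z1) * (2 + (X + Y) * z1))) :=
          mul_nonneg (by linarith) (by linarith)
        have t2 : 0 ≤ (z2 - z1) * ((X - Y) ^ 2
            - (1 - l0) * ((X + Y + 2 * X * Y) * (2 + (X + Y)))) :=
          mul_nonneg (by linarith) (by linarith)
        have t3 : 0 ≤ (1 - l0) * (2 * X * Y * (X + Y)) * ((z2 - z1) * (1 - z2) * (1 - z1)) := by
          refine mul_nonneg (mul_nonneg (by linarith) (by positivity)) ?_
          exact mul_nonneg (mul_nonneg (by linarith) (by linarith)) (by linarith)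
        have t4 : 0 ≤ (1 - z1) * ((X - Y) ^ 2 * z2
            - (1 - l0) * ((X + Y + 2 * X * Y * z2) * (2 + (X + Y) * z2))) := by
          rw [id1]; linarith
        have t5 := (mul_nonneg_iff_of_pos_left (by linarith : (0:ℝ) < 1 - z1)).1 t4
        linarith
    have h5 : 1 - l0 ≤ (X - Y) ^ 2 * z2 / ((X + Y + 2 * X * Y * z2) * (2 + (X + Y) * z2)) := by
      rwa [le_div_iff₀ q2]
    linarith
  have hJc : ∀ z, 0 < z → ContinuousAt J z := fun z hz => (hJd z hz).continuousAt
  have hpat : ∀ z1 ∈ Ioo (0 : ℝ) 1, ∀ z2 ∈ Ioo (0 : ℝ) 1, z1 < z2 → J z1 < 0 → J z2 ≤ 0 := by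
    intro z1 h1 z2 h2 h12 hneg
    by_contra hcon
    push Not at hcon
    obtain ⟨x1, hx1, hx1'⟩ := exists_hasDerivAt_eq_slope J _ h12
      (fun z hz => (hJc z (lt_of_lt_of_le h1.1 hz.1)).continuousWithinAt)
      (fun z hz => hJd z (h1.1.trans hz.1))
    obtain ⟨x2, hx2, hx2'⟩ := exists_hasDerivAt_eq_slope J _ h2.2
      (fun z hz => (hJc z (lt_of_lt_of_le h2.1 hz.1)).continuousWithinAt)
      (fun z hz => hJd z (h2.1.trans hz.1))
    have hx1p : 0 < x1 := h1.1.trans hx1.1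
    have hx2p : 0 < x2 := h2.1.trans hx2.1
    have s1 : 0 < l0 - 1 + (X - Y) ^ 2 * x1 / ((X + Y + 2 * X * Y * x1) * (2 + (X + Y) * x1)) := by
      have : 0 < (J z2 - J z1) / (z2 - z1) := div_pos (by linarith) (by linarith)
      rw [← hx1'] at this
      exact (div_pos_iff_of_pos_right (by positivity)).1 this
    have s2 : l0 - 1 + (X - Y) ^ 2 * x2 / ((X + Y + 2 * X * Y * x2) * (2 + (X + Y) * x2)) < 0 := by
      have : (J 1 - J z2) / (1 - z2) < 0 := div_neg_of_neg_of_pos (by linarith) (by linarith [h2.2])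
      rw [← hx2'] at this
      rcases div_neg_iff.1 this with h | h
      · linarith [h.2]
      · exact h.1
    have s3 := hquasi x1 x2 hx1p (hx1.2.trans hx2.1) hx2.2 s1
    linarith
  have hκ1 : κ 1 = 0 := by
    simp only [hκ]
    rw [hxs1, hys1, ← hm, kl_self, kl_self, kl_self]
    ring
  have hκ0 : 0 ≤ κ 0 := by
    simp only [hκ]
    rw [hxs0, hys0]
    have : ((-1 : ℝ) + -1) / 2 = -1 := by norm_num
    rw [this]
    linarith
  have hκpos := nonneg_of_unimodal hκc hκd hκ0 hκ1.ge (by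
    intro z1 h1 z2 h2 h12 hneg
    have w1 : 0 < 2 * X / (X * z1 + 1) ^ 2 + 2 * Y / (Y * z1 + 1) ^ 2 := by
      have := mul_pos hX0 h1.1
      have := mul_pos hY0 h1.1
      positivity
    have w2 : 0 < 2 * X / (X * z2 + 1) ^ 2 + 2 * Y / (Y * z2 + 1) ^ 2 := by
      have := mul_pos hX0 h2.1
      have := mul_pos hY0 h2.1
      positivity
    have j1 : J z1 < 0 := by
      by_contra hcon
      push Not at hcon
      have := mul_nonneg w1.le hcon
      linarith
    exact mul_nonpos_of_nonneg_of_nonpos w2.le (hpat z1 h1 z2 h2 h12 j1))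
  -- find the tilt
  have hsc : ContinuousOn (fun z => (xs X z + xs Y z) / 2) (Icc 0 1) := fun z hz =>
    (((hxsd z hz.1).continuousAt.add (hysd z hz.1).continuousAt).div_const 2).continuousWithinAt
  obtain ⟨z, hz, hzs⟩ := intermediate_value_Icc zero_le_one hsc
    (show (x + y) / 2 ∈ Icc ((fun z => (xs X z + xs Y z) / 2) 0)
      ((fun z => (xs X z + xs Y z) / 2) 1) by
      simp only [hxs0, hys0, hxs1, hys1]
      rw [← hm]
      exact ⟨by linarith [hx.1, hy.1], hxy⟩)
  simp only at hzs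
  have hk := hκpos z hz
  simp only [hκ] at hk
  rw [hzs] at hk
  rcases hz.1.eq_or_lt with h0 | h0
  · -- `z = 0`, so `x = y = -1`
    rw [← h0, hxs0, hys0] at hk hzs
    have hx' : x = -1 := by linarith [hx.1, hy.1]
    have hy' : y = -1 := by linarith [hx.1, hy.1]
    rw [hx', hy'] at hk ⊢
    linarith
  · have m1 := xs_mem (mul_pos hX0 h0)
    have m2 := xs_mem (mul_pos hY0 h0)
    have t1 := kl_three x (xs X z) a
    have t2 := kl_three y (xs Y z) b
    have n1 := kl_nonneg hx m1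
    have n2 := kl_nonneg hy m2
    rw [vv_xs hX0 h0, vv_eq_odds ha hX] at t1
    rw [vv_xs hY0 h0, vv_eq_odds hb hY] at t2
    have hsum : kl (xs X z) a + kl (xs Y z) b ≤ kl x a + kl y b := by
      have e : ((Real.log X + Real.log z) / 2 - Real.log X / 2) * (x - xs X z)
          + ((Real.log Y + Real.log z) / 2 - Real.log Y / 2) * (y - xs Y z) = 0 := by
        have : y - xs Y z = -(x - xs X z) := by linarith
        rw [this]; ring
      linarith
    have := mul_le_mul_of_nonneg_left hsum hl0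
    linarith

end Vale.Agent.P322.Sdpi
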