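import Mathlib
import Vale.Agent.Lib.P322.Sdpi3

/-!
Courtade-Kumar, tangent plane bound. Part 4: the case `ρ = 0`, final form.
-/

namespace Vale.Agent.P322.Sdpi

open Set

theorem omega_nonneg {m : ℝ} (hm : m ∈ Icc (0 : ℝ) 1) :
    0 ≤ (1 + m) ^ 2 * (Real.log 2 - Real.log (1 + m))
      - (1 - m) ^ 2 * (Real.log 2 - Real.log (1 - m)) := by
  set F : ℝ → ℝ := fun m => (1 + m) ^ 2 * (Real.log 2 - Real.log (1 + m))
      - (1 - m) ^ 2 * (Real.log 2 - Real.log (1 - m)) with hF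
  set F' : ℝ → ℝ := fun m => 2 * ((1 + m) * (Real.log 2 - Real.log (1 + m))
      + (1 - m) * (Real.log 2 - Real.log (1 - m))) - 2 with hF'
  have hlog : ∀ x ∈ Ioo (-1 : ℝ) 1, HasDerivAt (fun m : ℝ => Real.log 2 - Real.log (1 + m))
      (-(1 / (1 + x))) x ∧ HasDerivAt (fun m : ℝ => Real.log 2 - Real.log (1 - m))
      (1 / (1 - x)) x := by
    intro x hx
    have h1 : (1 : ℝ) + x ≠ 0 := by linarith [hx.1]
    have h2 : (1 : ℝ) - x ≠ 0 := by linarith [hx.2]
    constructor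
    · exact (((hasDerivAt_id x).const_add 1).log h1).const_sub _
    · have := (((hasDerivAt_id x).const_sub 1).log h2).const_sub (Real.log 2)
      refine this.congr_deriv ?_
      simp only [id]
      ring
  have hd : ∀ x ∈ Ioo (0 : ℝ) 1, HasDerivAt F (F' x) x := by
    intro x hx
    obtain ⟨l1, l2⟩ := hlog x ⟨by linarith [hx.1], hx.2⟩
    have h1 : (1 : ℝ) + x ≠ 0 := by linarith [hx.1]
    have h2 : (1 : ℝ) - x ≠ 0 := by linarith [hx.2]
    have d1 := (((hasDerivAt_id x).const_add 1).pow 2).mul l1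
    have d2 := (((hasDerivAt_id x).const_sub 1).pow 2).mul l2
    refine HasDerivAt.congr_deriv (f := F) (d1.sub d2) ?_
    simp only [hF', id, Pi.pow_apply]
    field_simp
    push_cast
    ring
  have hc : ContinuousOn F (Icc 0 1) := by
    have c1 : Continuous (fun x : ℝ => (1 - x) * Real.log (1 - x)) :=
      Real.continuous_mul_log.comp (continuous_const.sub continuous_id)
    have e : F = fun m => (1 + m) ^ 2 * (Real.log 2 - Real.log (1 + m))
      - ((1 - m) ^ 2 * Real.log 2 - (1 - m) * ((1 - m) * Real.log (1 - m))) := by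
      funext x
      simp only [hF]
      ring
    rw [e]
    refine ContinuousOn.sub ?_ ?_
    · intro x hx
      have h1 : (1 : ℝ) + x ≠ 0 := by linarith [hx.1]
      have c2 : ContinuousAt (fun x : ℝ => Real.log (1 + x)) x :=
        ContinuousAt.log (by fun_prop) h1
      exact (ContinuousAt.mul (by fun_prop) (continuousAt_const.sub c2)).continuousWithinAt
    · exact (Continuous.sub (by fun_prop) ((continuous_const.sub continuous_id).mul c1)).continuousOn
  have hanti : ∀ x ∈ Ioo (0 : ℝ) 1, ∀ y ∈ Ioo (0 : ℝ) 1, x < y → F' y ≤ F' x := by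
    have hA : AntitoneOn F' (Ioo 0 1) := by
      have hd' : ∀ x ∈ Ioo (0 : ℝ) 1, HasDerivAt F' (2 * (Real.log (1 - x) - Real.log (1 + x))) x := by
        intro x hx
        obtain ⟨l1, l2⟩ := hlog x ⟨by linarith [hx.1], hx.2⟩
        have h1 : (1 : ℝ) + x ≠ 0 := by linarith [hx.1]
        have h2 : (1 : ℝ) - x ≠ 0 := by linarith [hx.2]
        have d1 := ((hasDerivAt_id x).const_add 1).mul l1
        have d2 := ((hasDerivAt_id x).const_sub 1).mul l2
        refine HasDerivAt.congr_deriv (f := F') (((d1.add d2).const_mul 2).sub_const 2) ?_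
        simp only [id]
        field_simp
        ring
      apply antitoneOn_of_deriv_nonpos (convex_Ioo 0 1)
      · intro x hx; exact (hd' x hx).continuousAt.continuousWithinAt
      · intro x hx
        rw [interior_Ioo] at hx
        exact (hd' x hx).differentiableAt.differentiableWithinAt
      · intro x hx
        rw [interior_Ioo] at hx
        rw [(hd' x hx).deriv]
        have := Real.log_le_log (by linarith [hx.2] : 0 < 1 - x) (by linarith [hx.1] : 1 - x ≤ 1 + x)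
        linarith
    intro x hx y hy hxy
    exact hA hx hy hxy.le
  have := nonneg_of_unimodal hc hd (by simp [hF]) (by
    simp only [hF]
    have : (1 : ℝ) + 1 = 2 := by norm_num
    rw [this]
    simp) (fun x hx y hy hxy h => (hanti x hx y hy hxy).trans h.le) m hm
  exact this

/-- first auxiliary inequality: local curvature -/
theorem curv {m Q S Lp r : ℝ} (hr : r = (1 - m) / (1 + m)) (hm0 : 0 ≤ m) (hm1 : m < 1)
    (hQ0 : 0 ≤ Q) (hQ1 : 0 < 1 - Q) (hLp : (1 - m) / 2 ≤ Lp) (eT : S = 2 * Lp - Real.log (1 - Q))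
    (hS : 0 < S) : (1 - 2 * Lp / S) * (1 - m ^ 2) ≤ Q * (1 + m) ^ 2 := by
  have pm1 : 0 < 1 + m := by linarith
  have pm2 : 0 < 1 - m := by linarith
  have hr0 : 0 < r := by rw [hr]; positivity
  have hr1 : r ≤ 1 := by rw [hr, div_le_one pm1]; linarith
  obtain ⟨T, hT⟩ : ∃ T, T = -Real.log (1 - Q) := ⟨_, rfl⟩
  have hTn : 0 ≤ T := by
    have := Real.log_nonpos hQ1.le (by linarith)
    linarith
  have eT' : S = 2 * Lp + T := by rw [hT, eT]; ring
  have k1 : 1 - 2 * Lp / S = T / S := by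
    rw [eq_div_iff hS.ne', sub_mul, div_mul_cancel₀ _ hS.ne', one_mul, eT']; ring
  have k2 : (1 - m ^ 2) = r * (1 + m) ^ 2 := by
    rw [hr]; field_simp; ring
  rw [k1, k2, ← mul_assoc]
  refine mul_le_mul_of_nonneg_right ?_ (by positivity)
  rw [div_mul_eq_mul_div, div_le_iff₀ hS, eT']
  have k3 : T * (1 - Q) ≤ Q := by
    have h := Real.one_sub_inv_le_log_of_pos hQ1
    have h2 := mul_le_mul_of_nonneg_right h hQ1.le
    rw [sub_mul, inv_mul_cancel₀ hQ1.ne'] at h2
    rw [hT]; linarith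
  have k4 : T * (r - Q) ≤ T * (r * (1 - Q)) :=
    mul_le_mul_of_nonneg_left (by nlinarith) hTn
  have k5 : r * (T * (1 - Q)) ≤ r * Q := mul_le_mul_of_nonneg_left k3 hr0.le
  have k6 : r ≤ 2 * Lp := by
    have : r ≤ 1 - m := by
      rw [hr, div_le_iff₀ pm1]; nlinarith
    linarith
  have k7 : r * Q ≤ 2 * Lp * Q := mul_le_mul_of_nonneg_right k6 hQ0
  have k8 : T * (r * (1 - Q)) = r * (T * (1 - Q)) := by ring
  have k9 : T * r = T * (r - Q) + T * Q := by ring
  rw [k9]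
  linarith

/-- second auxiliary inequality: the far corner -/
theorem farcorner {m Q P Lp Lm r : ℝ} (hr : r = (1 - m) / (1 + m)) (hm0 : 0 ≤ m) (hm1 : m < 1)
    (hLp : Lp = Real.log 2 - Real.log (1 + m)) (hLm : Lm = Real.log 2 - Real.log (1 - m))
    (hP0 : 0 ≤ P) (hP1 : 0 < 1 - P) (hQP : Q = r ^ 2 * P) :
    2 * Lm * (2 * Lp - Real.log (1 - Q)) ≤ 2 * Lp * (2 * Lm - Real.log (1 - P)) := by
  have pm1 : 0 < 1 + m := by linarith
  have pm2 : 0 < 1 - m := by linarith
  have hr0 : 0 < r := by rw [hr]; positivity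
  have hr1 : r ≤ 1 := by rw [hr, div_le_one pm1]; linarith
  have hlog2 := Real.log_pos one_lt_two
  have hLmpos : 0 ≤ Lm := by
    have h := Real.log_nonpos pm2.le (by linarith)
    rw [hLm]; linarith
  have hTn' : 0 ≤ -Real.log (1 - P) := by
    have := Real.log_nonpos hP1.le (by linarith)
    linarith
  have k2 : -Real.log (1 - Q) ≤ r ^ 2 * (-Real.log (1 - P)) := by
    have hr2 : r ^ 2 ≤ 1 := by nlinarith
    have h := (strictConcaveOn_log_Ioi.concaveOn).2 (x := 1 - P) (y := 1) hP1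
      (by norm_num : (0:ℝ) < 1) (sq_nonneg r) (by linarith : 0 ≤ 1 - r ^ 2) (by ring)
    simp only [smul_eq_mul, Real.log_one, mul_zero, add_zero] at h
    have h2 : r ^ 2 * (1 - P) + (1 - r ^ 2) * 1 = 1 - Q := by rw [hQP]; ring
    rw [h2] at h
    linarith
  have k3 : r ^ 2 * Lm ≤ Lp := by
    have h := omega_nonneg (m := m) ⟨hm0, hm1.le⟩
    rw [← hLp, ← hLm] at h
    rw [hr, div_pow, div_mul_eq_mul_div, div_le_iff₀ (by positivity)]
    linarith
  have k4 := mul_le_mul_of_nonneg_left k2 hLmpos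
  have k5 := mul_le_mul_of_nonneg_right k3 hTn'
  have k6 : Lm * (r ^ 2 * -Real.log (1 - P)) = r ^ 2 * Lm * -Real.log (1 - P) := by ring
  have k7 : 2 * Lm * (2 * Lp - Real.log (1 - Q))
      = 4 * (Lm * Lp) + 2 * (Lm * -Real.log (1 - Q)) := by ring
  have k8 : 2 * Lp * (2 * Lm - Real.log (1 - P))
      = 4 * (Lm * Lp) + 2 * (Lp * -Real.log (1 - P)) := by ring
  rw [k7, k8]
  linarith

theorem ta0 {a b x y : ℝ} (ha : a ∈ Ioo (-1 : ℝ) 1) (hb : b ∈ Ioo (-1 : ℝ) 1)
    (h0 : 0 ≤ a + b) (hx : x ∈ Icc (-1 : ℝ) 1) (hy : y ∈ Icc (-1 : ℝ) 1) :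
    2 * kl ((x + y) / 2) ((a + b) / 2)
      ≤ 2 * (Real.log 2 - Real.log (1 + (a + b) / 2))
        / (2 * Real.log 2 - Real.log (1 + a) - Real.log (1 + b)) * (kl x a + kl y b) := by
  obtain ⟨m, hm⟩ : ∃ m, m = (a + b) / 2 := ⟨_, rfl⟩
  obtain ⟨η, hη⟩ : ∃ η, η = (a - b) / 2 := ⟨_, rfl⟩
  have hm0 : 0 ≤ m := by rw [hm]; linarith
  have hm1 : m < 1 := by rw [hm]; linarith [ha.2, hb.2]
  have pm1 : 0 < 1 + m := by linarith
  have pm2 : 0 < 1 - m := by linarith
  have pa1 : 0 < 1 + a := by linarith [ha.1]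
  have pa2 : 0 < 1 - a := by linarith [ha.2]
  have pb1 : 0 < 1 + b := by linarith [hb.1]
  have pb2 : 0 < 1 - b := by linarith [hb.2]
  obtain ⟨Lp, hLp⟩ : ∃ Lp, Lp = Real.log 2 - Real.log (1 + m) := ⟨_, rfl⟩
  obtain ⟨Lm, hLm⟩ : ∃ Lm, Lm = Real.log 2 - Real.log (1 - m) := ⟨_, rfl⟩
  obtain ⟨S, hS⟩ : ∃ S, S = 2 * Real.log 2 - Real.log (1 + a) - Real.log (1 + b) := ⟨_, rfl⟩
  obtain ⟨S', hS'⟩ : ∃ S', S' = 2 * Real.log 2 - Real.log (1 - a) - Real.log (1 - b) := ⟨_, rfl⟩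
  obtain ⟨Q, hQ⟩ : ∃ Q, Q = η ^ 2 / (1 + m) ^ 2 := ⟨_, rfl⟩
  obtain ⟨P, hP⟩ : ∃ P, P = η ^ 2 / (1 - m) ^ 2 := ⟨_, rfl⟩
  have hQP : Q = ((1 - m) / (1 + m)) ^ 2 * P := by
    rw [hQ, hP]
    field_simp
  have hQ0 : 0 ≤ Q := by rw [hQ]; positivity
  have hP0 : 0 ≤ P := by rw [hP]; positivity
  have e1 : 1 - Q = (1 + a) * (1 + b) / (1 + m) ^ 2 := by
    rw [hQ, hη]
    field_simp
    rw [hm]
    ring
  have e2 : 1 - P = (1 - a) * (1 - b) / (1 - m) ^ 2 := by
    rw [hP, hη]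
    field_simp
    rw [hm]
    ring
  have hQ1 : 0 < 1 - Q := by rw [e1]; positivity
  have hP1 : 0 < 1 - P := by rw [e2]; positivity
  have eT : S = 2 * Lp - Real.log (1 - Q) := by
    rw [e1, Real.log_div (by positivity) (by positivity), Real.log_mul pa1.ne' pb1.ne',
      Real.log_pow, hS, hLp]
    push_cast; ring
  have eT' : S' = 2 * Lm - Real.log (1 - P) := by
    rw [e2, Real.log_div (by positivity) (by positivity), Real.log_mul pa2.ne' pb2.ne',
      Real.log_pow, hS', hLm]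
    push_cast; ring
  have hLp0 : (1 - m) / 2 ≤ Lp := by
    have h := Real.log_le_sub_one_of_pos (x := (1 + m) / 2) (by positivity)
    rw [Real.log_div pm1.ne' (by norm_num)] at h
    rw [hLp]; linarith
  have hSpos : 0 < S := by
    have h1 := Real.log_nonpos hQ1.le (by linarith)
    linarith
  have E1 : (1 - 2 * Lp / S) * (1 - m ^ 2) ≤ η ^ 2 := by
    have h1 := curv rfl hm0 hm1 hQ0 hQ1 hLp0 eT hSpos
    have k0 : η ^ 2 = Q * (1 + m) ^ 2 := by
      rw [hQ]; field_simp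
    rw [k0]; exact h1
  have hl0 : 0 ≤ 2 * Lp / S := by
    have : 0 < Lp := by linarith
    positivity
  have c1 : ∀ c : ℝ, kl (-1) c = Real.log 2 - Real.log (1 - c) := by
    intro c
    unfold kl
    norm_num
  have c2 : ∀ c : ℝ, kl (-1) (-c) = Real.log 2 - Real.log (1 + c) := by
    intro c
    rw [c1, sub_neg_eq_add]
  have E2 : 2 * kl (-1) m ≤ 2 * Lp / S * (kl (-1) a + kl (-1) b) := by
    rw [c1, c1, c1]
    have k1 : (Real.log 2 - Real.log (1 - a)) + (Real.log 2 - Real.log (1 - b)) = S' := by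
      rw [hS']; ring
    rw [k1, ← hLm, div_mul_eq_mul_div, le_div_iff₀ hSpos, eT, eT']
    exact farcorner rfl hm0 hm1 hLp hLm hP0 hP1 hQP
  have E3 : 2 * kl (-1) (-m) ≤ 2 * Lp / S * (kl (-1) (-a) + kl (-1) (-b)) := by
    rw [c2, c2, c2]
    have k1 : (Real.log 2 - Real.log (1 + a)) + (Real.log 2 - Real.log (1 + b)) = S := by
      rw [hS]; ring
    rw [k1, ← hLp, div_mul_cancel₀ _ hSpos.ne']
  rw [← hm, ← hLp, ← hS]
  rcases le_total ((x + y) / 2) m with h | h
  · have := half ha hb hl0 (by rw [← hm, ← hη]; exact E1) (by rw [← hm]; exact E2) hx hy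
      (by rw [← hm]; exact h)
    rw [← hm] at this
    exact this
  · have ha' : -a ∈ Ioo (-1 : ℝ) 1 := ⟨by linarith [ha.2], by linarith [ha.1]⟩
    have hb' : -b ∈ Ioo (-1 : ℝ) 1 := ⟨by linarith [hb.2], by linarith [hb.1]⟩
    have hx' : -x ∈ Icc (-1 : ℝ) 1 := ⟨by linarith [hx.2], by linarith [hx.1]⟩
    have hy' : -y ∈ Icc (-1 : ℝ) 1 := ⟨by linarith [hy.2], by linarith [hy.1]⟩
    have q1 : (-a + -b) / 2 = -m := by rw [hm]; ring
    have q2 : (-a - -b) / 2 = -η := by rw [hη]; ring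
    have q3 : (-x + -y) / 2 = -((x + y) / 2) := by ring
    have := half ha' hb' hl0 (by rw [q1, q2, neg_sq, neg_sq]; exact E1)
      (by rw [q1]; exact E3) hx' hy' (by rw [q1, q3]; linarith)
    rw [q1, q3, kl_neg, kl_neg, kl_neg] at this
    exact this

end Vale.Agent.P322.Sdpi
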