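import Mathlib
import Vale.Agent.Lib.P322.Sdpi2
import Vale.Agent.Lib.P322.Sdpi4

/-!
Courtade-Kumar, tangent plane bound. Part 5: the pointwise inequality.
-/

namespace Vale.Agent.P322.Sdpi

open Set

theorem vv_mono {x y : ℝ} (hx : -1 < x) (hxy : x ≤ y) (hy : y < 1) : vv x ≤ vv y := by
  unfold vv
  have h1 := Real.log_le_log (by linarith : 0 < 1 + x) (by linarith : 1 + x ≤ 1 + y)
  have h2 := Real.log_le_log (by linarith : 0 < 1 - y) (by linarith : 1 - y ≤ 1 - x)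
  linarith

theorem vv_nonneg {x : ℝ} (hx : 0 ≤ x) (hx1 : x < 1) : 0 ≤ vv x := by
  have := vv_mono (by norm_num : (-1 : ℝ) < 0) hx hx1
  rwa [vv_zero] at this

theorem vv_pos {x : ℝ} (hx : 0 < x) (hx1 : x < 1) : 0 < vv x := by
  unfold vv
  have h1 := Real.log_pos (by linarith : 1 < 1 + x)
  have h2 := Real.log_nonpos (by linarith : 0 ≤ 1 - x) (by linarith)
  linarith

/-- `vv (ρ x) / vv x` is antitone in `x` -/
theorem ratio_ineq {p q ρ : ℝ} (hq : q ∈ Ico (0 : ℝ) 1) (hp : p ∈ Ico (0 : ℝ) 1) (hqp : q ≤ p)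
    (hρ : ρ ∈ Icc (0 : ℝ) 1) : vv (ρ * p) * vv q ≤ vv (ρ * q) * vv p := by
  set F : ℝ → ℝ := fun r => vv (r * q) * vv p - vv (r * p) * vv q with hF
  have hmem : ∀ {β : ℝ}, β ∈ Ico (0 : ℝ) 1 → ∀ ρ ∈ Icc (0 : ℝ) 1, ρ * β ∈ Ico (0 : ℝ) 1 := by
    intro β hβ ρ hρ
    exact ⟨mul_nonneg hρ.1 hβ.1, by nlinarith [hρ.1, hρ.2, hβ.1, hβ.2]⟩
  have hd : ∀ r ∈ Icc (0 : ℝ) 1, HasDerivAt F
      (1 / (1 - (r * q) ^ 2) * q * vv p - 1 / (1 - (r * p) ^ 2) * p * vv q) r := by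
    intro r hr
    have m1 := hmem hq r hr
    have m2 := hmem hp r hr
    have l1 : HasDerivAt (fun r : ℝ => r * q) q r := by
      simpa using (hasDerivAt_id r).mul_const q
    have l2 : HasDerivAt (fun r : ℝ => r * p) p r := by
      simpa using (hasDerivAt_id r).mul_const p
    have d1 : HasDerivAt (fun r : ℝ => vv (r * q)) (1 / (1 - (r * q) ^ 2) * q) r :=
      HasDerivAt.comp (h₂ := vv) (h := fun r : ℝ => r * q) r
        (vv_hasDerivAt (x := r * q) ⟨by linarith [m1.1], m1.2⟩) l1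
    have d2 : HasDerivAt (fun r : ℝ => vv (r * p)) (1 / (1 - (r * p) ^ 2) * p) r :=
      HasDerivAt.comp (h₂ := vv) (h := fun r : ℝ => r * p) r
        (vv_hasDerivAt (x := r * p) ⟨by linarith [m2.1], m2.2⟩) l2
    exact (d1.mul_const (vv p)).sub (d2.mul_const (vv q))
  have hvq := vv_nonneg hq.1 hq.2
  have hvp := vv_nonneg hp.1 hp.2
  have hvqp := vv_mono (by linarith [hq.1]) hqp hp.2
  have h := nonneg_of_unimodal (f := F) (A := 0) (B := 1)
    (fun r hr => (hd r hr).continuousAt.continuousWithinAt)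
    (fun r hr => hd r ⟨hr.1.le, hr.2.le⟩)
    (by simp [hF, vv_zero]) (by simp only [hF, one_mul]; linarith [mul_comm (vv q) (vv p)])
    (by
      intro x hx y hy hxy hneg
      have m1 := hmem hq x ⟨hx.1.le, hx.2.le⟩
      have m2 := hmem hp x ⟨hx.1.le, hx.2.le⟩
      have m3 := hmem hq y ⟨hy.1.le, hy.2.le⟩
      have m4 := hmem hp y ⟨hy.1.le, hy.2.le⟩
      have b1 : 0 < 1 - (x * q) ^ 2 := by nlinarith [m1.1, m1.2]
      have b2 : 0 < 1 - (x * p) ^ 2 := by nlinarith [m2.1, m2.2]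
      have b3 : 0 < 1 - (y * q) ^ 2 := by nlinarith [m3.1, m3.2]
      have b4 : 0 < 1 - (y * p) ^ 2 := by nlinarith [m4.1, m4.2]
      have e1 : 1 / (1 - (x * q) ^ 2) * q * vv p - 1 / (1 - (x * p) ^ 2) * p * vv q
          = ((q * vv p - p * vv q) - x ^ 2 * (p * q * (p * vv p - q * vv q)))
            / ((1 - (x * q) ^ 2) * (1 - (x * p) ^ 2)) := by
        rw [mul_pow] at b1 b2
        rw [mul_pow, mul_pow]
        have := b1.ne'
        have := b2.ne'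
        field_simp
        ring
      have e2 : 1 / (1 - (y * q) ^ 2) * q * vv p - 1 / (1 - (y * p) ^ 2) * p * vv q
          = ((q * vv p - p * vv q) - y ^ 2 * (p * q * (p * vv p - q * vv q)))
            / ((1 - (y * q) ^ 2) * (1 - (y * p) ^ 2)) := by
        rw [mul_pow] at b3 b4
        rw [mul_pow, mul_pow]
        have := b3.ne'
        have := b4.ne'
        field_simp
        ring
      rw [e1] at hneg
      rw [e2]
      have h1 : (q * vv p - p * vv q) - x ^ 2 * (p * q * (p * vv p - q * vv q)) < 0 := by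
        rcases div_neg_iff.1 hneg with h | h
        · exact absurd h.2 (not_lt.2 (mul_pos b1 b2).le)
        · exact h.1
      have h2 : 0 ≤ p * q * (p * vv p - q * vv q) := by
        refine mul_nonneg (mul_nonneg hp.1 hq.1) ?_
        have : q * vv q ≤ p * vv p := mul_le_mul hqp hvqp hvq hp.1
        linarith
      have h3 : x ^ 2 ≤ y ^ 2 := by nlinarith [hx.1]
      have h4 := mul_le_mul_of_nonneg_right h3 h2
      apply div_nonpos_of_nonpos_of_nonneg _ (mul_pos b3 b4).le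
      linarith) ρ hρ
  have h' : 0 ≤ vv (ρ * q) * vv p - vv (ρ * p) * vv q := h
  linarith

theorem hmono {q ρ : ℝ} (hq : q ∈ Ico (0 : ℝ) 1) (hρ : ρ ∈ Icc (0 : ℝ) 1) :
    2 * (ρ * vv (ρ * q)) + Real.log (1 - (ρ * q) ^ 2) ≤ 2 * vv q + Real.log (1 - q ^ 2) := by
  set F : ℝ → ℝ := fun r => 2 * (r * vv (r * q)) + Real.log (1 - (r * q) ^ 2) with hF
  have hmem : ∀ ρ ∈ Icc (0 : ℝ) 1, ρ * q ∈ Ico (0 : ℝ) 1 := by
    intro ρ hρ
    exact ⟨mul_nonneg hρ.1 hq.1, by nlinarith [hρ.1, hρ.2, hq.1, hq.2]⟩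
  have hd : ∀ r ∈ Icc (0 : ℝ) 1, HasDerivAt F
      (2 * vv (r * q) + 2 * (r * q * (1 - q) / (1 - (r * q) ^ 2))) r := by
    intro r hr
    have m1 := hmem r hr
    have b1 : 0 < 1 - (r * q) ^ 2 := by nlinarith [m1.1, m1.2]
    have l1 : HasDerivAt (fun r : ℝ => r * q) q r := by
      simpa using (hasDerivAt_id r).mul_const q
    have d1 : HasDerivAt (fun r : ℝ => vv (r * q)) (1 / (1 - (r * q) ^ 2) * q) r :=
      HasDerivAt.comp (h₂ := vv) (h := fun r : ℝ => r * q) r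
        (vv_hasDerivAt (x := r * q) ⟨by linarith [m1.1], m1.2⟩) l1
    have d2 := (((hasDerivAt_id r).mul d1).const_mul 2).add
      (((l1.pow 2).const_sub 1).log b1.ne')
    refine HasDerivAt.congr_deriv (f := F) d2 ?_
    simp only [id, Pi.pow_apply]
    rw [mul_pow] at b1 ⊢
    have := b1.ne'
    push_cast
    field_simp
    ring
  have hm : MonotoneOn F (Icc 0 1) := by
    apply monotoneOn_of_deriv_nonneg (convex_Icc 0 1)
    · intro r hr; exact (hd r hr).continuousAt.continuousWithinAt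
    · intro r hr
      rw [interior_Icc] at hr
      exact (hd r ⟨hr.1.le, hr.2.le⟩).differentiableAt.differentiableWithinAt
    · intro r hr
      rw [interior_Icc] at hr
      rw [(hd r ⟨hr.1.le, hr.2.le⟩).deriv]
      have m1 := hmem r ⟨hr.1.le, hr.2.le⟩
      have b1 : 0 < 1 - (r * q) ^ 2 := by nlinarith [m1.1, m1.2]
      have h1 := vv_nonneg m1.1 m1.2
      have h2 : 0 ≤ r * q * (1 - q) / (1 - (r * q) ^ 2) :=
        div_nonneg (mul_nonneg m1.1 (by linarith [hq.2])) b1.le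
      linarith
  have h := hm hρ (right_mem_Icc.2 zero_le_one) hρ.2
  simp only [hF, one_mul] at h
  exact h

theorem slope_ineq {p q ρ Λ : ℝ} (hq : q ∈ Ico (0 : ℝ) 1) (hp : p ∈ Ico (0 : ℝ) 1) (hqp : q ≤ p)
    (hq0 : 0 < q) (hρ : ρ ∈ Icc (0 : ℝ) 1) (hS : 2 * vv q ≤ 2 * Λ - Real.log (1 - q ^ 2)) :
    ρ * (vv (ρ * p) + vv (ρ * q))
      ≤ (2 * Λ - Real.log (1 - (ρ * q) ^ 2)) / (2 * Λ - Real.log (1 - q ^ 2)) * (vv p + vv q) := by
  have hvq := vv_pos hq0 hq.2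
  obtain ⟨S, hSe⟩ : ∃ S, S = 2 * Λ - Real.log (1 - q ^ 2) := ⟨_, rfl⟩
  obtain ⟨N, hN⟩ : ∃ N, N = 2 * Λ - Real.log (1 - (ρ * q) ^ 2) := ⟨_, rfl⟩
  rw [← hSe] at hS
  have hSpos : 0 < S := by linarith
  have h1 := hmono hq hρ
  have h2 := ratio_ineq hq hp hqp hρ
  have m1 : ρ * q ∈ Ico (0 : ℝ) 1 :=
    ⟨mul_nonneg hρ.1 hq.1, by nlinarith [hρ.1, hρ.2, hq.1, hq.2]⟩
  have m2 : ρ * p ∈ Ico (0 : ℝ) 1 :=
    ⟨mul_nonneg hρ.1 hp.1, by nlinarith [hρ.1, hρ.2, hp.1, hp.2]⟩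
  have v1 := vv_nonneg m1.1 m1.2
  have v2 := vv_nonneg m2.1 m2.2
  have v3 : vv (ρ * q) ≤ vv q := vv_mono (by linarith [m1.1])
    (by nlinarith [hρ.2, hq.1]) hq.2
  have v4 : ρ * vv (ρ * q) ≤ vv q := by nlinarith [hρ.1, hρ.2]
  have vp := vv_nonneg hp.1 hp.2
  -- (a)
  have ha : S * (ρ * vv (ρ * q)) ≤ N * vv q := by
    have k1 : S - 2 * (vv q - ρ * vv (ρ * q)) ≤ N := by rw [hN, hSe]; linarith
    have k2 := mul_le_mul_of_nonneg_right k1 hvq.le
    have k3 : (vv q - ρ * vv (ρ * q)) * (2 * vv q) ≤ (vv q - ρ * vv (ρ * q)) * S :=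
      mul_le_mul_of_nonneg_left hS (by linarith)
    nlinarith
  rw [← hN, ← hSe, div_mul_eq_mul_div, le_div_iff₀ hSpos]
  -- multiply by `vv q`
  have hb : (vv (ρ * p) + vv (ρ * q)) * vv q ≤ vv (ρ * q) * (vv p + vv q) := by linarith
  have hc : (ρ * (vv (ρ * p) + vv (ρ * q)) * S) * vv q ≤ (N * (vv p + vv q)) * vv q := by
    have t1 := mul_le_mul_of_nonneg_left hb (mul_nonneg hSpos.le hρ.1)
    have t2 := mul_le_mul_of_nonneg_right ha (by linarith : 0 ≤ vv p + vv q)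
    calc (ρ * (vv (ρ * p) + vv (ρ * q)) * S) * vv q
        = S * ρ * ((vv (ρ * p) + vv (ρ * q)) * vv q) := by ring
      _ ≤ S * ρ * (vv (ρ * q) * (vv p + vv q)) := t1
      _ = S * (ρ * vv (ρ * q)) * (vv p + vv q) := by ring
      _ ≤ N * vv q * (vv p + vv q) := t2
      _ = _ := by ring
  exact le_of_mul_le_mul_right hc hvq

theorem kl_swap (s d a b : ℝ) : kl (s + d) a + kl (s - d) b
    = kl (s - d) a + kl (s + d) b - 2 * d * (vv a - vv b) := by
  unfold kl vv; ring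

end Vale.Agent.P322.Sdpi
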