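import Mathlib
import Vale.Agent.Lib.P322.Sdpi5

/-!
Courtade-Kumar, tangent plane bound. Part 6: the pointwise inequality on the closed square.
-/

namespace Vale.Agent.P322.Sdpi

open Set

theorem vv_split {m η ρ : ℝ} (hm1 : 0 < 1 + m) (hm2 : 0 < 1 - m)
    (hq1 : 0 < 1 - ρ * (η / (1 + m))) (hq2 : 0 < 1 + ρ * (η / (1 + m)))
    (hp1 : 0 < 1 - ρ * (η / (1 - m))) (hp2 : 0 < 1 + ρ * (η / (1 - m))) :
    vv (m + ρ * η) - vv (m - ρ * η) = vv (ρ * (η / (1 - m))) + vv (ρ * (η / (1 + m))) := by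
  have f1 : 1 + (m + ρ * η) = (1 + m) * (1 + ρ * (η / (1 + m))) := by field_simp; ring
  have f2 : 1 - (m + ρ * η) = (1 - m) * (1 - ρ * (η / (1 - m))) := by field_simp; ring
  have f3 : 1 + (m - ρ * η) = (1 + m) * (1 - ρ * (η / (1 + m))) := by field_simp; ring
  have f4 : 1 - (m - ρ * η) = (1 - m) * (1 + ρ * (η / (1 - m))) := by field_simp; ring
  unfold vv
  rw [f1, f2, f3, f4, Real.log_mul hm1.ne' hq2.ne', Real.log_mul hm2.ne' hp1.ne',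
    Real.log_mul hm1.ne' hq1.ne', Real.log_mul hm2.ne' hp2.ne']
  ring

/-- the contraction factor -/
noncomputable def lam (ρ m η : ℝ) : ℝ :=
  (2 * (Real.log 2 - Real.log (1 + m)) - Real.log (1 - (ρ * (η / (1 + m))) ^ 2))
    / (2 * (Real.log 2 - Real.log (1 + m)) - Real.log (1 - (η / (1 + m)) ^ 2))

theorem den_eq {a b : ℝ} (ha : a ∈ Ioo (-1 : ℝ) 1) (hb : b ∈ Ioo (-1 : ℝ) 1) :
    2 * (Real.log 2 - Real.log (1 + (a + b) / 2))
      - Real.log (1 - (((a - b) / 2) / (1 + (a + b) / 2)) ^ 2)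
      = 2 * Real.log 2 - Real.log (1 + a) - Real.log (1 + b) := by
  have pm1 : 0 < 1 + (a + b) / 2 := by linarith [ha.1, hb.1]
  have pa1 : 0 < 1 + a := by linarith [ha.1]
  have pb1 : 0 < 1 + b := by linarith [hb.1]
  have e1 : 1 - (((a - b) / 2) / (1 + (a + b) / 2)) ^ 2
      = (1 + a) * (1 + b) / (1 + (a + b) / 2) ^ 2 := by
    rw [div_pow, eq_div_iff (by positivity), sub_mul, div_mul_cancel₀ _ (by positivity)]
    ring
  rw [e1, Real.log_div (by positivity) (by positivity), Real.log_mul pa1.ne' pb1.ne',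
    Real.log_pow]
  push_cast; ring

theorem den_pos {a b : ℝ} (ha : a ∈ Ioo (-1 : ℝ) 1) (hb : b ∈ Ioo (-1 : ℝ) 1) :
    0 < 2 * Real.log 2 - Real.log (1 + a) - Real.log (1 + b) := by
  have h1 := Real.log_lt_log (by linarith [ha.1] : 0 < 1 + a) (by linarith [ha.2] : 1 + a < 2)
  have h2 := Real.log_lt_log (by linarith [hb.1] : 0 < 1 + b) (by linarith [hb.2] : 1 + b < 2)
  linarith

theorem sdpi_pos {a b x y ρ : ℝ} (ha : a ∈ Ioo (-1 : ℝ) 1) (hb : b ∈ Ioo (-1 : ℝ) 1)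
    (hab : b ≤ a) (h0 : 0 ≤ a + b) (hx : x ∈ Ioo (-1 : ℝ) 1) (hy : y ∈ Ioo (-1 : ℝ) 1)
    (hxy : y ≤ x) (hρ : ρ ∈ Icc (0 : ℝ) 1) :
    kl ((x + y) / 2 + ρ * ((x - y) / 2)) ((a + b) / 2 + ρ * ((a - b) / 2))
      + kl ((x + y) / 2 - ρ * ((x - y) / 2)) ((a + b) / 2 - ρ * ((a - b) / 2))
      ≤ lam ρ ((a + b) / 2) ((a - b) / 2) * (kl x a + kl y b) := by
  obtain ⟨m, hm⟩ : ∃ m, m = (a + b) / 2 := ⟨_, rfl⟩
  obtain ⟨η, hη⟩ : ∃ η, η = (a - b) / 2 := ⟨_, rfl⟩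
  obtain ⟨s, hs⟩ : ∃ s, s = (x + y) / 2 := ⟨_, rfl⟩
  obtain ⟨δ, hδ⟩ : ∃ δ, δ = (x - y) / 2 := ⟨_, rfl⟩
  have hden := den_eq ha hb
  have hdp := den_pos ha hb
  have ht := ta0 ha hb h0 ⟨hx.1.le, hx.2.le⟩ ⟨hy.1.le, hy.2.le⟩
  have ea : m + 1 * η = a := by rw [hm, hη]; ring
  have eb : m - 1 * η = b := by rw [hm, hη]; ring
  have ex : s + 1 * δ = x := by rw [hs, hδ]; ring
  have ey : s - 1 * δ = y := by rw [hs, hδ]; ring
  rw [← hden] at ht hdp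
  rw [← hm, ← hη] at hden hdp
  rw [← hm, ← hη, ← hs] at ht
  rw [← hm, ← hη, ← hs, ← hδ]
  have hm0 : 0 ≤ m := by rw [hm]; linarith
  have pm1 : 0 < 1 + m := by linarith
  have pm2 : 0 < 1 - m := by rw [hm]; linarith [ha.2, hb.2]
  have ps1 : 0 < 1 + s := by rw [hs]; linarith [hx.1, hy.1]
  have ps2 : 0 < 1 - s := by rw [hs]; linarith [hx.2, hy.2]
  have hη0 : 0 ≤ η := by rw [hη]; linarith
  have hδ0 : 0 ≤ δ := by rw [hδ]; linarith
  have hα : δ / (1 + s) ∈ Ico (0 : ℝ) 1 :=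
    ⟨div_nonneg hδ0 ps1.le, by rw [div_lt_one ps1, hδ, hs]; linarith [hy.1]⟩
  have hα' : δ / (1 - s) ∈ Ico (0 : ℝ) 1 :=
    ⟨div_nonneg hδ0 ps2.le, by rw [div_lt_one ps2, hδ, hs]; linarith [hx.2]⟩
  have hq : η / (1 + m) ∈ Ico (0 : ℝ) 1 :=
    ⟨div_nonneg hη0 pm1.le, by rw [div_lt_one pm1, hη, hm]; linarith [hb.1]⟩
  have hp : η / (1 - m) ∈ Ico (0 : ℝ) 1 :=
    ⟨div_nonneg hη0 pm2.le, by rw [div_lt_one pm2, hη, hm]; linarith [ha.2]⟩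
  have hqp : η / (1 + m) ≤ η / (1 - m) :=
    div_le_div_of_nonneg_left hη0 pm2 (by linarith)
  have g1 : (1 + s) * (δ / (1 + s)) = δ := mul_div_cancel₀ _ ps1.ne'
  have g2 : (1 - s) * (δ / (1 - s)) = δ := mul_div_cancel₀ _ ps2.ne'
  have g3 : (1 + m) * (η / (1 + m)) = η := mul_div_cancel₀ _ pm1.ne'
  have g4 : (1 - m) * (η / (1 - m)) = η := mul_div_cancel₀ _ pm2.ne'
  have hmem : ∀ {β : ℝ}, β ∈ Ico (0 : ℝ) 1 → ∀ ρ ∈ Icc (0 : ℝ) 1, ρ * β ∈ Ioo (-1 : ℝ) 1 := by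
    intro β hβ ρ hρ
    have : 0 ≤ ρ * β := mul_nonneg hρ.1 hβ.1
    exact ⟨by linarith, by nlinarith [hρ.1, hρ.2, hβ.1, hβ.2]⟩
  have hch : ∀ ρ ∈ Icc (0 : ℝ) 1, kl (s + ρ * δ) (m + ρ * η) + kl (s - ρ * δ) (m - ρ * η)
      = 2 * kl s m + (1 + s) * kl (ρ * (δ / (1 + s))) (ρ * (η / (1 + m)))
        + (1 - s) * kl (ρ * (δ / (1 - s))) (ρ * (η / (1 - m))) := by
    intro ρ hρ
    have h := chain (s := s) (m := m) (g1.trans g2.symm) (g3.trans g4.symm) ps1 ps2 pm1 pm2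
      (hmem hα ρ hρ) (hmem hα' ρ hρ) (hmem hq ρ hρ) (hmem hp ρ hρ)
    rw [g1, g3] at h
    exact h
  have h1 := hch 1 ⟨zero_le_one, le_refl 1⟩
  rw [ea, eb, ex, ey, one_mul, one_mul, one_mul, one_mul] at h1
  have hfin := interp (s := s) (m := m) (Λ := Real.log 2 - Real.log (1 + m))
    (G := kl x a + kl y b) ps1 ps2 hα hα' hq hp hqp hdp h1 ht ρ hρ
  rw [hch ρ hρ]
  exact hfin

theorem sdpi_open {a b x y ρ : ℝ} (ha : a ∈ Ioo (-1 : ℝ) 1) (hb : b ∈ Ioo (-1 : ℝ) 1)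
    (hab : b < a) (h0 : 0 ≤ a + b) (hx : x ∈ Ioo (-1 : ℝ) 1) (hy : y ∈ Ioo (-1 : ℝ) 1)
    (hρ : ρ ∈ Icc (0 : ℝ) 1) :
    kl ((x + y) / 2 + ρ * ((x - y) / 2)) ((a + b) / 2 + ρ * ((a - b) / 2))
      + kl ((x + y) / 2 - ρ * ((x - y) / 2)) ((a + b) / 2 - ρ * ((a - b) / 2))
      ≤ lam ρ ((a + b) / 2) ((a - b) / 2) * (kl x a + kl y b) := by
  rcases le_total y x with hxy | hxy
  · exact sdpi_pos ha hb hab.le h0 hx hy hxy hρ
  · have h := sdpi_pos ha hb hab.le h0 hy hx hxy hρ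
    obtain ⟨m, hm⟩ : ∃ m, m = (a + b) / 2 := ⟨_, rfl⟩
    obtain ⟨η, hη⟩ : ∃ η, η = (a - b) / 2 := ⟨_, rfl⟩
    have e1 : (y + x) / 2 = (x + y) / 2 := by ring
    have e2 : (y - x) / 2 = -((x - y) / 2) := by ring
    obtain ⟨s, hs⟩ : ∃ s, s = (x + y) / 2 := ⟨_, rfl⟩
    obtain ⟨δ, hδ⟩ : ∃ δ, δ = (x - y) / 2 := ⟨_, rfl⟩
    have hden := den_eq ha hb
    have hdp := den_pos ha hb
    rw [← hden, ← hm, ← hη] at hdp
    have ea : a = m + 1 * η := by rw [hm, hη]; ring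
    have eb : b = m - 1 * η := by rw [hm, hη]; ring
    have ex : x = s + δ := by rw [hs, hδ]; ring
    have ey : y = s - δ := by rw [hs, hδ]; ring
    rw [e1, e2, ← hm, ← hη, ← hs, ← hδ] at h
    rw [← hm, ← hη, ← hs, ← hδ]
    have hm0 : 0 ≤ m := by rw [hm]; linarith
    have pm1 : 0 < 1 + m := by linarith
    have pm2 : 0 < 1 - m := by rw [hm]; linarith [ha.2, hb.2]
    have hη0 : 0 < η := by rw [hη]; linarith
    have hδ0 : δ ≤ 0 := by rw [hδ]; linarith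
    have hq : η / (1 + m) ∈ Ico (0 : ℝ) 1 :=
      ⟨div_nonneg hη0.le pm1.le, by rw [div_lt_one pm1, hη, hm]; linarith [hb.1]⟩
    have hp : η / (1 - m) ∈ Ico (0 : ℝ) 1 :=
      ⟨div_nonneg hη0.le pm2.le, by rw [div_lt_one pm2, hη, hm]; linarith [ha.2]⟩
    have hqp : η / (1 + m) ≤ η / (1 - m) :=
      div_le_div_of_nonneg_left hη0.le pm2 (by linarith)
    have hmem : ∀ {β : ℝ}, β ∈ Ico (0 : ℝ) 1 → ∀ ρ ∈ Icc (0 : ℝ) 1, ρ * β ∈ Ico (0 : ℝ) 1 := by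
      intro β hβ ρ hρ
      exact ⟨mul_nonneg hρ.1 hβ.1, by nlinarith [hρ.1, hρ.2, hβ.1, hβ.2]⟩
    have hvs : ∀ ρ ∈ Icc (0 : ℝ) 1, vv (m + ρ * η) - vv (m - ρ * η)
        = vv (ρ * (η / (1 - m))) + vv (ρ * (η / (1 + m))) := by
      intro ρ hρ
      have m1 := hmem hq ρ hρ
      have m2 := hmem hp ρ hρ
      exact vv_split pm1 pm2 (by linarith [m1.2]) (by linarith [m1.1]) (by linarith [m2.2])
        (by linarith [m2.1])
    have hS : 2 * vv (η / (1 + m)) ≤ 2 * (Real.log 2 - Real.log (1 + m))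
        - Real.log (1 - (η / (1 + m)) ^ 2) := by
      have f1 : 1 - (η / (1 + m)) ^ 2 = (1 + η / (1 + m)) * (1 - η / (1 + m)) := by ring
      have q1 : 0 < 1 + η / (1 + m) := by linarith [hq.1]
      have q2 : 0 < 1 - η / (1 + m) := by linarith [hq.2]
      have f2 : (1 + m) * (1 + η / (1 + m)) ≤ 2 := by
        have : (1 + m) * (1 + η / (1 + m)) = 1 + m + η := by field_simp
        rw [this, hm, hη]; linarith [ha.2]
      have f3 := Real.log_le_log (by positivity) f2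
      rw [Real.log_mul pm1.ne' q1.ne'] at f3
      rw [f1, Real.log_mul q1.ne' q2.ne']
      unfold vv
      linarith
    have hsl := slope_ineq hq hp hqp (by positivity) hρ hS
    have hv1 := hvs ρ hρ
    have hv2 := hvs 1 ⟨zero_le_one, le_refl 1⟩
    rw [← ea, ← eb, one_mul, one_mul] at hv2
    rw [← hv1, ← hv2] at hsl
    have k1 := kl_swap s (ρ * δ) (m + ρ * η) (m - ρ * η)
    have k2 := kl_swap s δ a b
    have k3 : s + ρ * -δ = s - ρ * δ := by ring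
    have k4 : s - ρ * -δ = s + ρ * δ := by ring
    rw [k3, k4] at h
    rw [ex, ey] at h ⊢
    have hl : lam ρ m η = (2 * (Real.log 2 - Real.log (1 + m))
      - Real.log (1 - (ρ * (η / (1 + m))) ^ 2)) / (2 * (Real.log 2 - Real.log (1 + m))
        - Real.log (1 - (η / (1 + m)) ^ 2)) := rfl
    rw [← hl] at hsl
    have k5 := mul_le_mul_of_nonneg_left hsl (by linarith : 0 ≤ -(2 * δ))
    rw [k1, k2]
    have k6 : lam ρ m η * (kl (s - δ) a + kl (s + δ) b - 2 * δ * (vv a - vv b))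
        = lam ρ m η * (kl (s - δ) a + kl (s + δ) b)
          + -(2 * δ) * (lam ρ m η * (vv a - vv b)) := by ring
    rw [k6]
    have k7 : 2 * (ρ * δ) * (vv (m + ρ * η) - vv (m - ρ * η))
        = -(-(2 * δ) * (ρ * (vv (m + ρ * η) - vv (m - ρ * η)))) := by ring
    rw [k7]
    linarith

theorem sdpi {a b x y ρ : ℝ} (ha : a ∈ Ioo (-1 : ℝ) 1) (hb : b ∈ Ioo (-1 : ℝ) 1)
    (hab : b < a) (h0 : 0 ≤ a + b) (hx : x ∈ Icc (-1 : ℝ) 1) (hy : y ∈ Icc (-1 : ℝ) 1)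
    (hρ : ρ ∈ Icc (0 : ℝ) 1) :
    kl ((x + y) / 2 + ρ * ((x - y) / 2)) ((a + b) / 2 + ρ * ((a - b) / 2))
      + kl ((x + y) / 2 - ρ * ((x - y) / 2)) ((a + b) / 2 - ρ * ((a - b) / 2))
      ≤ lam ρ ((a + b) / 2) ((a - b) / 2) * (kl x a + kl y b) := by
  have hc : ∀ (c : ℝ) (l : ℝ), Filter.Tendsto (fun r : ℝ => kl (r * l) c)
      (nhdsWithin 1 (Iio 1)) (nhds (kl (1 * l) c)) := by
    intro c l
    have : Continuous (fun r : ℝ => kl (r * l) c) :=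
      (kl_cont c).comp (continuous_id.mul continuous_const)
    exact this.continuousAt.tendsto.mono_left nhdsWithin_le_nhds
  have h1 := (hc ((a + b) / 2 + ρ * ((a - b) / 2)) ((x + y) / 2 + ρ * ((x - y) / 2))).add
    (hc ((a + b) / 2 - ρ * ((a - b) / 2)) ((x + y) / 2 - ρ * ((x - y) / 2)))
  have h2 := ((hc a x).add (hc b y)).const_mul (lam ρ ((a + b) / 2) ((a - b) / 2))
  rw [one_mul, one_mul] at h1 h2
  refine le_of_tendsto_of_tendsto h1 h2 ?_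
  have hev : ∀ᶠ r : ℝ in nhdsWithin 1 (Iio 1), r ∈ Ioo (0 : ℝ) 1 :=
    Ioo_mem_nhdsLT (by norm_num)
  filter_upwards [hev] with r hr
  have hx' : r * x ∈ Ioo (-1 : ℝ) 1 := by
    constructor
    · nlinarith [hx.1, hr.1, hr.2]
    · nlinarith [hx.2, hr.1, hr.2]
  have hy' : r * y ∈ Ioo (-1 : ℝ) 1 := by
    constructor
    · nlinarith [hy.1, hr.1, hr.2]
    · nlinarith [hy.2, hr.1, hr.2]
  have h := sdpi_open ha hb hab h0 hx' hy' hρ
  have e1 : (r * x + r * y) / 2 + ρ * ((r * x - r * y) / 2)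
      = r * ((x + y) / 2 + ρ * ((x - y) / 2)) := by ring
  have e2 : (r * x + r * y) / 2 - ρ * ((r * x - r * y) / 2)
      = r * ((x + y) / 2 - ρ * ((x - y) / 2)) := by ring
  rw [e1, e2] at h
  exact h

end Vale.Agent.P322.Sdpi
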