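import Mathlib
import Vale.Agent.Lib.P322.Fix
import Vale.Agent.Lib.P322.Sdpi6

/-!
Courtade-Kumar, tangent plane bound (TA) for the average entropy after one noisy bit.
-/

namespace Vale.Agent.P322

open Set Sdpi

/-- slope of the tangent plane bound -/
noncomputable def lamT (ρ m η : ℝ) : ℝ :=
  Real.log (4 / ((1 + m) ^ 2 - ρ ^ 2 * η ^ 2)) / Real.log (4 / ((1 + m) ^ 2 - η ^ 2))

theorem hh_eq_logs {x : ℝ} (hx : x ∈ Icc (-1 : ℝ) 1) :
    hh x = Real.log 2 - ((1 + x) * Real.log (1 + x) + (1 - x) * Real.log (1 - x)) / 2 := by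
  unfold hh
  rw [Real.binEntropy_eq_negMulLog_add_negMulLog_one_sub, Real.negMulLog, Real.negMulLog]
  have e : 1 - (1 + x) / 2 = (1 - x) / 2 := by ring
  rw [e]
  have h1 : (1 + x) / 2 * Real.log ((1 + x) / 2)
      = ((1 + x) * Real.log (1 + x) - (1 + x) * Real.log 2) / 2 := by
    rcases hx.1.eq_or_lt with h | h
    · rw [← h]; norm_num
    · rw [Real.log_div (by linarith) (by norm_num)]; ring
  have h2 : (1 - x) / 2 * Real.log ((1 - x) / 2)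
      = ((1 - x) * Real.log (1 - x) - (1 - x) * Real.log 2) / 2 := by
    rcases hx.2.eq_or_lt with h | h
    · rw [h]; norm_num
    · rw [Real.log_div (by linarith) (by norm_num)]; ring
  have h1' : -((1 + x) / 2) * Real.log ((1 + x) / 2)
      = -((1 + x) / 2 * Real.log ((1 + x) / 2)) := by ring
  have h2' : -((1 - x) / 2) * Real.log ((1 - x) / 2)
      = -((1 - x) / 2 * Real.log ((1 - x) / 2)) := by ring
  rw [h1', h2', h1, h2]
  ring

theorem kl_eq_hh {x a : ℝ} (hx : x ∈ Icc (-1 : ℝ) 1) (ha : a ∈ Icc (-1 : ℝ) 1) :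
    kl x a = hh a - hh x - vv a * (x - a) := by
  rw [hh_eq_logs hx, hh_eq_logs ha]
  unfold kl vv
  ring

theorem lam_eq {m η ρ : ℝ} (hm : 0 < 1 + m) (h1 : (ρ * (η / (1 + m))) ^ 2 < 1)
    (h2 : (η / (1 + m)) ^ 2 < 1) : lam ρ m η = lamT ρ m η := by
  unfold lam lamT
  have e1 : (1 + m) ^ 2 - ρ ^ 2 * η ^ 2 = (1 + m) ^ 2 * (1 - (ρ * (η / (1 + m))) ^ 2) := by
    field_simp
  have e2 : (1 + m) ^ 2 - η ^ 2 = (1 + m) ^ 2 * (1 - (η / (1 + m)) ^ 2) := by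
    field_simp
  have p1 : 0 < 1 - (ρ * (η / (1 + m))) ^ 2 := by linarith
  have p2 : 0 < 1 - (η / (1 + m)) ^ 2 := by linarith
  have l4 : Real.log 4 = 2 * Real.log 2 := by
    rw [show (4 : ℝ) = 2 ^ 2 by norm_num, Real.log_pow]; push_cast; ring
  rw [e1, e2, Real.log_div (by norm_num) (by positivity), Real.log_div (by norm_num)
    (by positivity), Real.log_mul (by positivity) p1.ne', Real.log_mul (by positivity) p2.ne',
    Real.log_pow, l4]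
  push_cast
  congr 1 <;> ring

theorem EE_lin4 {n : ℕ} (c0 c1 c2 c3 c4 : ℝ) (A B C D : (Fin n → Bool) → ℝ) :
    EE (fun x => c0 + c1 * A x + c2 * B x + c3 * C x + c4 * D x)
      = c0 + c1 * EE A + c2 * EE B + c3 * EE C + c4 * EE D := by
  rw [EE_add (fun x => c0 + c1 * A x + c2 * B x + c3 * C x) (fun x => c4 * D x),
    EE_add (fun x => c0 + c1 * A x + c2 * B x) (fun x => c3 * C x),
    EE_add (fun x => c0 + c1 * A x) (fun x => c2 * B x),
    EE_add (fun _ => c0) (fun x => c1 * A x), EE_const, EE_mul_left, EE_mul_left, EE_mul_left,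
    EE_mul_left]

/-- (TA): the tangent plane bound -/
theorem EE_NN_ge_tangent {n : ℕ} {ρ : ℝ} (hρ : ρ ∈ Ioo (0 : ℝ) 1) (X Y : (Fin n → Bool) → ℝ)
    (hX : ∀ x, X x ∈ Icc (-1 : ℝ) 1) (hY : ∀ x, Y x ∈ Icc (-1 : ℝ) 1)
    (ha : EE X ∈ Ioo (-1 : ℝ) 1) (hb : EE Y ∈ Ioo (-1 : ℝ) 1) (hab : EE Y < EE X)
    (h0 : 0 ≤ EE X + EE Y) :
    NN ρ (EE X) (EE Y) - lamT ρ ((EE X + EE Y) / 2) ((EE X - EE Y) / 2)
        * ((hh (EE X) + hh (EE Y)) / 2 - (EE (fun x => hh (X x)) + EE (fun x => hh (Y x))) / 2)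
      ≤ EE (fun x => NN ρ (X x) (Y x)) := by
  obtain ⟨a, hae⟩ : ∃ a, a = EE X := ⟨_, rfl⟩
  obtain ⟨b, hbe⟩ : ∃ b, b = EE Y := ⟨_, rfl⟩
  rw [← hae] at ha hab h0 ⊢
  rw [← hbe] at hb hab h0 ⊢
  obtain ⟨m, hm⟩ : ∃ m, m = (a + b) / 2 := ⟨_, rfl⟩
  obtain ⟨η, hη⟩ : ∃ η, η = (a - b) / 2 := ⟨_, rfl⟩
  have hm0 : 0 ≤ m := by rw [hm]; linarith
  have pm1 : 0 < 1 + m := by linarith
  have hη0 : 0 < η := by rw [hη]; linarith
  have hq0 : 0 < η / (1 + m) := by positivity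
  have hq1 : η / (1 + m) < 1 := by rw [div_lt_one pm1, hη, hm]; linarith [hb.1]
  have hrq1 : ρ * (η / (1 + m)) < 1 := by nlinarith [hρ.1, hρ.2]
  have hrq0 : 0 < ρ * (η / (1 + m)) := mul_pos hρ.1 hq0
  have hl : lam ρ m η = lamT ρ m η := lam_eq pm1 (by nlinarith) (by nlinarith)
  obtain ⟨l, hle⟩ : ∃ l, l = lam ρ m η := ⟨_, rfl⟩
  obtain ⟨u, hu⟩ : ∃ u, u = m + ρ * η := ⟨_, rfl⟩
  obtain ⟨w, hw⟩ : ∃ w, w = m - ρ * η := ⟨_, rfl⟩
  have hum : u ∈ Icc (-1 : ℝ) 1 := by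
    rw [hu, hm, hη]
    constructor
    · nlinarith [ha.1, hb.1, hρ.1, hρ.2]
    · nlinarith [ha.2, hb.2, hρ.1, hρ.2]
  have hwm : w ∈ Icc (-1 : ℝ) 1 := by
    rw [hw, hm, hη]
    constructor
    · nlinarith [ha.1, hb.1, hρ.1, hρ.2]
    · nlinarith [ha.2, hb.2, hρ.1, hρ.2]
  have hpt : ∀ x, (hh u + hh w) - 2 * NN ρ (X x) (Y x)
      - vv u * ((X x + Y x) / 2 + ρ * ((X x - Y x) / 2) - u)
      - vv w * ((X x + Y x) / 2 - ρ * ((X x - Y x) / 2) - w)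
      ≤ l * ((hh a + hh b) - (hh (X x) + hh (Y x)) - vv a * (X x - a) - vv b * (Y x - b)) := by
    intro x
    have hx := hX x
    have hy := hY x
    have h := sdpi ha hb hab h0 hx hy ⟨hρ.1.le, hρ.2.le⟩
    rw [← hm, ← hη, ← hle, ← hu, ← hw] at h
    have mx : (X x + Y x) / 2 + ρ * ((X x - Y x) / 2) ∈ Icc (-1 : ℝ) 1 := by
      constructor
      · nlinarith [hx.1, hy.1, hρ.1, hρ.2]
      · nlinarith [hx.2, hy.2, hρ.1, hρ.2]
    have my : (X x + Y x) / 2 - ρ * ((X x - Y x) / 2) ∈ Icc (-1 : ℝ) 1 := by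
      constructor
      · nlinarith [hx.1, hy.1, hρ.1, hρ.2]
      · nlinarith [hx.2, hy.2, hρ.1, hρ.2]
    rw [kl_eq_hh mx hum, kl_eq_hh my hwm, kl_eq_hh hx ⟨ha.1.le, ha.2.le⟩,
      kl_eq_hh hy ⟨hb.1.le, hb.2.le⟩] at h
    have e : 2 * NN ρ (X x) (Y x) = hh ((X x + Y x) / 2 + ρ * ((X x - Y x) / 2))
        + hh ((X x + Y x) / 2 - ρ * ((X x - Y x) / 2)) := by
      unfold NN
      have e1 : ((1 + ρ) * X x + (1 - ρ) * Y x) / 2 = (X x + Y x) / 2 + ρ * ((X x - Y x) / 2) := by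
        ring
      have e2 : ((1 - ρ) * X x + (1 + ρ) * Y x) / 2 = (X x + Y x) / 2 - ρ * ((X x - Y x) / 2) := by
        ring
      rw [e1, e2]; ring
    rw [e]
    linarith
  have hE := EE_mono hpt
  have eL : EE (fun x => (hh u + hh w) - 2 * NN ρ (X x) (Y x)
      - vv u * ((X x + Y x) / 2 + ρ * ((X x - Y x) / 2) - u)
      - vv w * ((X x + Y x) / 2 - ρ * ((X x - Y x) / 2) - w))
      = (hh u + hh w) - 2 * EE (fun x => NN ρ (X x) (Y x)) := by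
    have e1 : (fun x => (hh u + hh w) - 2 * NN ρ (X x) (Y x)
      - vv u * ((X x + Y x) / 2 + ρ * ((X x - Y x) / 2) - u)
      - vv w * ((X x + Y x) / 2 - ρ * ((X x - Y x) / 2) - w))
      = fun x => (hh u + hh w + vv u * u + vv w * w) + (-2) * NN ρ (X x) (Y x)
        + (-(vv u * (1 + ρ) / 2) - vv w * (1 - ρ) / 2) * X x
        + (-(vv u * (1 - ρ) / 2) - vv w * (1 + ρ) / 2) * Y x + 0 * X x := by
      funext x; ring
    rw [e1, EE_lin4 _ _ _ _ _ (fun x => NN ρ (X x) (Y x)) X Y X, ← hae, ← hbe, hu, hw, hm, hη]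
    ring
  have eR : EE (fun x => l * ((hh a + hh b) - (hh (X x) + hh (Y x)) - vv a * (X x - a)
      - vv b * (Y x - b)))
      = l * ((hh a + hh b) - (EE (fun x => hh (X x)) + EE (fun x => hh (Y x)))) := by
    have e1 : (fun x => l * ((hh a + hh b) - (hh (X x) + hh (Y x)) - vv a * (X x - a)
      - vv b * (Y x - b)))
      = fun x => l * (hh a + hh b + vv a * a + vv b * b) + (-l) * hh (X x) + (-l) * hh (Y x)
        + (-(l * vv a)) * X x + (-(l * vv b)) * Y x := by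
      funext x; ring
    rw [e1, EE_lin4 _ _ _ _ _ (fun x => hh (X x)) (fun x => hh (Y x)) X Y, ← hae, ← hbe]
    ring
  rw [eL, eR] at hE
  have eN : NN ρ a b = (hh u + hh w) / 2 := by
    unfold NN
    have e1 : ((1 + ρ) * a + (1 - ρ) * b) / 2 = u := by rw [hu, hm, hη]; ring
    have e2 : ((1 - ρ) * a + (1 + ρ) * b) / 2 = w := by rw [hw, hm, hη]; ring
    rw [e1, e2]
  rw [← hm, ← hη, ← hl, ← hle, eN]
  linarith

end Vale.Agent.P322
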