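import Mathlib
import Vale.Agent.Lib.P322.Twop
import Vale.Agent.Lib.P322.Calc

/-!
Courtade-Kumar: the path argument. A cost inequality for general laws follows from the cost
inequality at atoms, monotonicity of the required cost divided by the scale along rays to the
corner, and the homogeneous corner certificate.
-/

namespace Vale.Agent.P322

open Finset

/-- average entropy at the atom `(1 - u + u x, 1 - u - u x)` -/
noncomputable def hbr (u x : ℝ) : ℝ := (hh (1 - u + u * x) + hh (1 - u - u * x)) / 2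

/-- the set of scales on a ray where the entropy constraint holds -/
def RaySet (x τ : ℝ) : Set ℝ := {u | 0 < u ∧ u ≤ 1 ∧ u * τ ≤ hbr u x}

/-- the corner certificate in homogeneous form -/
def CornerCert : Prop :=
  ∀ (n : ℕ) (X Y : (Fin n → Bool) → ℝ), (∀ x, X x ∈ Set.Ioo (-1 : ℝ) 1) →
    (∀ x, Y x ∈ Set.Ioo (-1 : ℝ) 1) → ∀ a b c : ℝ, -1 < b → b < a → a < 1 → 0 ≤ a + b → 0 < c →
    2 - EE X - EE Y = c * (2 - a - b) → EE X - EE Y = c * (a - b) →
    (EE (fun x => hh (X x)) + EE (fun x => hh (Y x))) / 2 = c * ((hh a + hh b) / 2) →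
    c * KK a b ≤ EE (fun x => KK (X x) (Y x))

theorem KK_self (a : ℝ) : KK a a = 0 := by unfold KK; ring

theorem KK_theta (θ : ℝ) : KK θ (-θ) = kk θ := by
  have h : Real.artanh (-θ) = -Real.artanh θ := by
    unfold Real.artanh
    rw [show (1 + -θ) / (1 - -θ) = ((1 + θ) / (1 - θ))⁻¹ by rw [inv_div, sub_neg_eq_add]; rfl,
      Real.sqrt_inv, Real.log_inv]
  unfold KK kk
  rw [h]
  ring

/-- balanced certificate, homogeneous form -/
theorem balanced_cert {n : ℕ} (X Y : (Fin n → Bool) → ℝ) (hX : ∀ x, X x ∈ Set.Ioo (-1 : ℝ) 1)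
    (hY : ∀ x, Y x ∈ Set.Ioo (-1 : ℝ) 1) {θ c : ℝ} (h0 : 0 < θ) (h1 : θ < 1)
    (hδ : (EE X - EE Y) / 2 = c * θ)
    (hT : (EE (fun x => hh (X x)) + EE (fun x => hh (Y x))) / 2 = c * hh θ) :
    c * kk θ ≤ EE (fun x => KK (X x) (Y x)) := by
  have hθ : θ ∈ Set.Ioo (-1 : ℝ) 1 := ⟨by linarith, h1⟩
  have ht : 0 < Real.artanh θ := Real.artanh_pos ⟨h0, h1⟩
  have h := EE_KK_ge_lin ht X Y hX hY
  rw [hδ, hT] at h
  refine le_trans (le_of_eq ?_) h
  unfold pp
  rw [AA_eq ht, Real.tanh_artanh hθ]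
  unfold kk
  field_simp
  ring

theorem hbr_continuous (x : ℝ) : Continuous (fun u => hbr u x) := by
  unfold hbr
  have := hh_continuous
  fun_prop

/-- The path argument. -/
theorem costIneq_of_path {Φ : ℝ → ℝ → ℝ → ℝ}
    (h0 : ∀ a ∈ Set.Ioo (-1 : ℝ) 1, ∀ T, 0 < T → Φ a a T ≤ 0)
    (hm1 : ∀ x ∈ Set.Ioo (0 : ℝ) 1, ∀ τ, 0 < τ →
      MonotoneOn (fun u => Φ (1 - u + u * x) (1 - u - u * x) (u * τ) / u) (RaySet x τ))
    (hm2 : ∀ θ ∈ Set.Ioo (0 : ℝ) 1,
      MonotoneOn (fun w => Φ (w * θ) (-(w * θ)) (w * hh θ) / w) (Set.Ioc 0 1))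
    (he : ∀ a b : ℝ, -1 < b → b < a → a < 1 → 0 ≤ a + b → Φ a b ((hh a + hh b) / 2) ≤ KK a b)
    (hC : CornerCert) : CostIneq Φ := by
  intro n X Y hX hY hle hs
  have hA := mem_Ioo_EE hX
  have hB := mem_Ioo_EE hY
  have hTpos : 0 < (EE (fun x => hh (X x)) + EE (fun x => hh (Y x))) / 2 := by
    linarith [EE_hh_pos hX, EE_hh_pos hY]
  have hTle : (EE (fun x => hh (X x)) + EE (fun x => hh (Y x))) / 2
      ≤ (hh (EE X) + hh (EE Y)) / 2 := by
    linarith [EE_hh_le hX, EE_hh_le hY]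
  have hKnn := EE_KK_ge X Y hX hY
  rcases hle.lt_or_eq with hlt | heq
  swap
  · have h1 := h0 (EE X) hA _ hTpos
    rw [heq] at hKnn ⊢
    rw [KK_self] at hKnn
    linarith
  set a := EE X with ha
  set b := EE Y with hb
  set T := (EE (fun x => hh (X x)) + EE (fun x => hh (Y x))) / 2 with hT
  set E := EE (fun x => KK (X x) (Y x)) with hE
  set u := 1 - (a + b) / 2 with hu
  have hu0 : 0 < u := by rw [hu]; linarith [hA.2]
  have hu1 : u ≤ 1 := by rw [hu]; linarith
  set x := (a - b) / 2 / u with hx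
  have hux : u * x = (a - b) / 2 := by rw [hx]; field_simp
  have hx0 : 0 < x := by rw [hx]; exact div_pos (by linarith) hu0
  have hx1 : x < 1 := by rw [hx, div_lt_one hu0, hu]; linarith [hA.2]
  set τ := T / u with hτ
  have huτ : u * τ = T := by rw [hτ]; field_simp
  have hτ0 : 0 < τ := div_pos hTpos hu0
  have ea : 1 - u + u * x = a := by rw [hux, hu]; ring
  have eb : 1 - u - u * x = b := by rw [hux, hu]; ring
  have huS : u ∈ RaySet x τ := by
    refine ⟨hu0, hu1, ?_⟩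
    unfold hbr
    rw [ea, eb, huτ]
    exact hTle
  have hmono := hm1 x ⟨hx0, hx1⟩ τ hτ0
  have hfu : Φ a b T = u * (Φ (1 - u + u * x) (1 - u - u * x) (u * τ) / u) := by
    rw [ea, eb, huτ]; field_simp
  rcases le_or_gt (hh x) τ with hcase | hcase
  · -- the ray reaches the entropy constraint
    have hG1 : hbr 1 x - 1 * τ ≤ 0 := by
      unfold hbr
      rw [show (1:ℝ) - 1 + 1 * x = x by ring, show (1:ℝ) - 1 - 1 * x = -x by ring, hh_neg]
      linarith
    have hGu : 0 ≤ hbr u x - u * τ := by linarith [huS.2.2]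
    have hcont : ContinuousOn (fun u => hbr u x - u * τ) (Set.Icc u 1) :=
      ((hbr_continuous x).sub (by fun_prop)).continuousOn
    obtain ⟨u1, hu1mem, hu1z⟩ := intermediate_value_Icc' hu1 hcont ⟨hG1, hGu⟩
    simp only at hu1z
    have hu1pos : 0 < u1 := lt_of_lt_of_le hu0 hu1mem.1
    have hu1S : u1 ∈ RaySet x τ := ⟨hu1pos, hu1mem.2, by linarith⟩
    have h1 := hmono huS hu1S hu1mem.1
    simp only at h1
    have hT1 : u1 * τ = hbr u1 x := by linarith
    have hb1 : -1 < 1 - u1 - u1 * x := by nlinarith [hu1mem.2]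
    have hab1 : 1 - u1 - u1 * x < 1 - u1 + u1 * x := by nlinarith
    have ha1 : 1 - u1 + u1 * x < 1 := by nlinarith
    have hs1 : 0 ≤ 1 - u1 + u1 * x + (1 - u1 - u1 * x) := by linarith [hu1mem.2]
    have h2 := he _ _ hb1 hab1 ha1 hs1
    have h3 := hC n X Y hX hY (1 - u1 + u1 * x) (1 - u1 - u1 * x) (u / u1) hb1 hab1 ha1 hs1
      (div_pos hu0 hu1pos)
      (by rw [← ha, ← hb, ← ea, ← eb]; field_simp; ring)
      (by rw [← ha, ← hb, ← ea, ← eb]; field_simp; ring)
      (by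
        rw [← hT, ← huτ]
        have : (hh (1 - u1 + u1 * x) + hh (1 - u1 - u1 * x)) / 2 = u1 * τ := by
          rw [hT1]; rfl
        rw [this]; field_simp)
    rw [← hE] at h3
    rw [hfu]
    have h4 : Φ (1 - u1 + u1 * x) (1 - u1 - u1 * x) (u1 * τ)
        ≤ KK (1 - u1 + u1 * x) (1 - u1 - u1 * x) := by
      rw [hT1]; exact h2
    calc u * (Φ (1 - u + u * x) (1 - u - u * x) (u * τ) / u)
        ≤ u * (Φ (1 - u1 + u1 * x) (1 - u1 - u1 * x) (u1 * τ) / u1) :=
          mul_le_mul_of_nonneg_left h1 hu0.le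
      _ = u / u1 * Φ (1 - u1 + u1 * x) (1 - u1 - u1 * x) (u1 * τ) := by ring
      _ ≤ u / u1 * KK (1 - u1 + u1 * x) (1 - u1 - u1 * x) :=
          mul_le_mul_of_nonneg_left h4 (div_pos hu0 hu1pos).le
      _ ≤ E := h3
  · -- the ray reaches the balanced laws
    have h1S : (1 : ℝ) ∈ RaySet x τ := by
      refine ⟨one_pos, le_refl _, ?_⟩
      unfold hbr
      rw [show (1:ℝ) - 1 + 1 * x = x by ring, show (1:ℝ) - 1 - 1 * x = -x by ring, hh_neg]
      linarith
    have h1 := hmono huS h1S hu1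
    simp only at h1
    rw [show (1:ℝ) - 1 + 1 * x = x by ring, show (1:ℝ) - 1 - 1 * x = -x by ring, one_mul,
      div_one] at h1
    have hcont : ContinuousOn (fun θ => x * hh θ - τ * θ) (Set.Icc x 1) := by
      have := hh_continuous
      fun_prop
    have hz1 : x * hh 1 - τ * 1 < 0 := by rw [hh_one]; linarith
    have hzx : 0 < x * hh x - τ * x := by nlinarith
    obtain ⟨θ, hθmem, hθz⟩ := intermediate_value_Icc' hx1.le hcont ⟨hz1.le, hzx.le⟩
    simp only at hθz
    have hθ1 : θ < 1 := by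
      rcases hθmem.2.lt_or_eq with h | h
      · exact h
      · rw [h] at hθz; linarith
    have hθ0 : 0 < θ := lt_of_lt_of_le hx0 hθmem.1
    have hw0 : 0 < x / θ := div_pos hx0 hθ0
    have hw1 : x / θ ≤ 1 := by rw [div_le_one hθ0]; exact hθmem.1
    have h2 := hm2 θ ⟨hθ0, hθ1⟩ ⟨hw0, hw1⟩ ⟨one_pos, le_refl _⟩ hw1
    simp only at h2
    have ex : x / θ * θ = x := by field_simp
    have eτ : x / θ * hh θ = τ := by
      field_simp
      linarith
    rw [ex, eτ, one_mul, one_mul, div_one] at h2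
    have h3 := he θ (-θ) (by linarith) (by linarith) hθ1 (by linarith)
    rw [hh_neg, show (hh θ + hh θ) / 2 = hh θ by ring, KK_theta] at h3
    have h4 := balanced_cert X Y hX hY (θ := θ) (c := u * (x / θ)) hθ0 hθ1
      (by rw [← ha, ← hb, ← hux]; field_simp)
      (by rw [← hT, ← huτ, ← eτ]; ring)
    rw [← hE] at h4
    rw [hfu]
    have h5 : Φ x (-x) τ ≤ x / θ * kk θ := by
      rw [div_le_iff₀ hw0] at h2
      have : Φ θ (-θ) (hh θ) * (x / θ) ≤ kk θ * (x / θ) := mul_le_mul_of_nonneg_right h3 hw0.le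
      linarith
    calc u * (Φ (1 - u + u * x) (1 - u - u * x) (u * τ) / u)
        ≤ u * Φ x (-x) τ := mul_le_mul_of_nonneg_left h1 hu0.le
      _ ≤ u * (x / θ * kk θ) := mul_le_mul_of_nonneg_left h5 hu0.le
      _ = u * (x / θ) * kk θ := by ring
      _ ≤ E := h4

end Vale.Agent.P322
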