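import Mathlib
import Vale.Agent.Lib.P322.Path

/-!
Courtade-Kumar: monotonicity of the required cost divided by the scale along rays to the corner,
from the two differential inequalities (W) and (S).
-/

namespace Vale.Agent.P322

open Finset

/-- the differential inequality for the first state function -/
def WIneq (J1 : ℝ) : Prop :=
  ∀ v x C : ℝ, 0 < v → v ≤ 1 → 0 < x → x < 1 → 0 ≤ C →
    0 ≤ Psi1' J1 C * (-(1 / 2) * Real.log (1 - (v * x) ^ 2))
      + (Psi1' J1 (C + (v * ph x + ph (v * x)) / (1 + v))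
          * (C + (v * ph x + ph (v * x)) / (1 + v) - Real.log (1 + v))
        - Psi1 J1 (C + (v * ph x + ph (v * x)) / (1 + v)))
      - (Psi1' J1 C * (C - Real.log (1 + v)) - Psi1 J1 C)

/-- the differential inequality for the second state function -/
def SIneq : Prop :=
  ∀ v x T : ℝ, 0 < v → v ≤ 1 → 0 < x → x < 1 → 0 < T →
    0 ≤ -Real.log (1 - (v * x) ^ 2)
      - (2 * v / (1 + v)) ^ 2 * rhoR (T / (1 - (1 - 2 * v / (1 + v)) ^ 2))
      + ((2 * v / (1 + v)) ^ 2 + (2 * v / (1 + v) * x) ^ 2)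
        * rhoR (T / (1 - (1 - 2 * v / (1 + v)) ^ 2 - (2 * v / (1 + v) * x) ^ 2))

/-- monotonicity of `f u / u` -/
theorem mono_div {f f' : ℝ → ℝ} {D : Set ℝ} (hD : Convex ℝ D) (hpos : ∀ u ∈ D, 0 < u)
    (hd : ∀ u ∈ D, HasDerivAt f (f' u) u) (h : ∀ u ∈ D, 0 ≤ u * f' u - f u) :
    MonotoneOn (fun u => f u / u) D := by
  have hd2 : ∀ u ∈ D, HasDerivAt (fun u => f u / u) ((f' u * u - f u * 1) / u ^ 2) u := by
    intro u hu
    exact (hd u hu).div (hasDerivAt_id u) (hpos u hu).ne'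
  apply monotoneOn_of_deriv_nonneg hD
  · exact fun u hu => (hd2 u hu).continuousAt.continuousWithinAt
  · exact fun u hu => (hd2 u (interior_subset hu)).differentiableAt.differentiableWithinAt
  · intro u hu
    rw [(hd2 u (interior_subset hu)).deriv]
    have := h u (interior_subset hu)
    apply div_nonneg _ (sq_nonneg u)
    linarith

theorem hh_concaveOn : ConcaveOn ℝ (Set.Icc (-1 : ℝ) 1) hh := by
  refine ⟨convex_Icc _ _, ?_⟩
  intro x hx y hy a b ha hb hab
  have h := Real.strictConcave_binEntropy.concaveOn.2 (x := (1 + x) / 2) (y := (1 + y) / 2)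
    ⟨by linarith [hx.1], by linarith [hx.2]⟩ ⟨by linarith [hy.1], by linarith [hy.2]⟩ ha hb hab
  unfold hh
  simp only [smul_eq_mul] at *
  have e : (1 + (a * x + b * y)) / 2 = a * ((1 + x) / 2) + b * ((1 + y) / 2) := by
    have : (1 : ℝ) = a + b := hab.symm
    nlinarith
  rw [e]
  exact h

theorem RaySet_convex {x : ℝ} (hx : x ∈ Set.Ioo (0 : ℝ) 1) (τ : ℝ) : Convex ℝ (RaySet x τ) := by
  intro p hp q hq s t hs ht hst
  obtain ⟨_, hcc⟩ := hh_concaveOn
  obtain ⟨hp0, hp1, hp2⟩ := hp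
  obtain ⟨hq0, hq1, hq2⟩ := hq
  have hx0 := hx.1
  have hx1 := hx.2
  have mem1 : ∀ u, 0 < u → u ≤ 1 → 1 - u + u * x ∈ Set.Icc (-1 : ℝ) 1 := by
    intro u h0 h1
    constructor <;> nlinarith
  have mem2 : ∀ u, 0 < u → u ≤ 1 → 1 - u - u * x ∈ Set.Icc (-1 : ℝ) 1 := by
    intro u h0 h1
    constructor <;> nlinarith
  have c1 := hcc (mem1 p hp0 hp1) (mem1 q hq0 hq1) hs ht hst
  have c2 := hcc (mem2 p hp0 hp1) (mem2 q hq0 hq1) hs ht hst
  simp only [smul_eq_mul] at c1 c2 ⊢
  have hst1 : s = 1 - t := by linarith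
  have e1 : s * (1 - p + p * x) + t * (1 - q + q * x) = 1 - (s * p + t * q) + (s * p + t * q) * x := by
    rw [hst1]; ring
  have e2 : s * (1 - p - p * x) + t * (1 - q - q * x) = 1 - (s * p + t * q) - (s * p + t * q) * x := by
    rw [hst1]; ring
  rw [e1] at c1
  rw [e2] at c2
  refine ⟨?_, ?_, ?_⟩
  · rcases hs.lt_or_eq with h | h
    · have := mul_pos h hp0
      have := mul_nonneg ht hq0.le
      linarith
    · have ht1 : t = 1 := by linarith
      rw [← h, ht1]; linarith
  · nlinarith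
  · unfold hbr at *
    nlinarith

theorem hh_logs {c : ℝ} (hc : c ∈ Set.Ioo (-1 : ℝ) 1) :
    hh c = Real.log 2 - ((1 + c) * Real.log (1 + c) + (1 - c) * Real.log (1 - c)) / 2 := by
  have h1 : 0 < 1 + c := by linarith [hc.1]
  have h2 : 0 < 1 - c := by linarith [hc.2]
  unfold hh Real.binEntropy
  rw [Real.log_inv, Real.log_inv, show 1 - (1 + c) / 2 = (1 - c) / 2 by ring,
    Real.log_div h1.ne' two_ne_zero, Real.log_div h2.ne' two_ne_zero]
  ring

/-- `(1 - c) artanh c = h(c) - log (2 / (1 + c))` -/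
theorem art_ident {c : ℝ} (hc : c ∈ Set.Ioo (-1 : ℝ) 1) :
    (1 - c) * Real.artanh c = hh c - (Real.log 2 - Real.log (1 + c)) := by
  rw [hh_logs hc, artanh_eq_logs hc]
  ring

/-- the side identity -/
theorem side_ident {m d : ℝ} (h1 : -1 < m - d) (h2 : m + d < 1) (h3 : 0 < d) :
    hh m - (hh (m + d) + hh (m - d)) / 2
      = (1 - m) / 2 * ph (d / (1 - m)) + (1 + m) / 2 * ph (d / (1 + m)) := by
  have p1 : 0 < 1 - m := by linarith
  have p2 : 0 < 1 + m := by linarith
  have q1 : d / (1 - m) ∈ Set.Ioo (-1 : ℝ) 1 :=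
    ⟨by have := div_pos h3 p1; linarith, by rw [div_lt_one p1]; linarith⟩
  have q2 : d / (1 + m) ∈ Set.Ioo (-1 : ℝ) 1 :=
    ⟨by have := div_pos h3 p2; linarith, by rw [div_lt_one p2]; linarith⟩
  unfold ph
  rw [hh_logs (c := m) ⟨by linarith, by linarith⟩, hh_logs (c := m + d) ⟨by linarith, by linarith⟩,
    hh_logs (c := m - d) ⟨by linarith, by linarith⟩, hh_logs q1, hh_logs q2]
  rw [show 1 + d / (1 - m) = (1 - m + d) / (1 - m) by field_simp,
    show 1 - d / (1 - m) = (1 - m - d) / (1 - m) by field_simp,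
    show 1 + d / (1 + m) = (1 + m + d) / (1 + m) by field_simp,
    show 1 - d / (1 + m) = (1 + m - d) / (1 + m) by field_simp,
    Real.log_div (by linarith) p1.ne', Real.log_div (by linarith) p1.ne',
    Real.log_div (by linarith) p2.ne', Real.log_div (by linarith) p2.ne',
    show 1 + (m + d) = 1 + m + d by ring, show 1 - (m + d) = 1 - m - d by ring,
    show 1 + (m - d) = 1 + m - d by ring, show 1 - (m - d) = 1 - m + d by ring]
  field_simp
  ring

/-! ### the first state function -/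

theorem mono1_ray {J1 : ℝ} (hJ1 : J1 < Real.log 2) (hW : WIneq J1) {x : ℝ}
    (hx : x ∈ Set.Ioo (0 : ℝ) 1) (τ : ℝ) :
    MonotoneOn (fun u => Phi1 (Psi1 J1) (1 - u + u * x) (1 - u - u * x) (u * τ) / u)
      (RaySet x τ) := by
  have hx0 := hx.1
  have hx1 := hx.2
  have hfun : ∀ u, Phi1 (Psi1 J1) (1 - u + u * x) (1 - u - u * x) (u * τ)
      = Psi1 J1 (hh (1 - u) - u * τ) - Psi1 J1 (hbr u x - u * τ) := by
    intro u
    unfold Phi1 hbr
    rw [show (1 - u + u * x + (1 - u - u * x)) / 2 = 1 - u by ring]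
  simp only [hfun]
  apply mono_div (f' := fun u => Psi1' J1 (hh (1 - u) - u * τ) * (Real.artanh (1 - u) - τ)
    - Psi1' J1 (hbr u x - u * τ) * (((1 - x) * Real.artanh (1 - u + u * x)
      + (1 + x) * Real.artanh (1 - u - u * x)) / 2 - τ)) (RaySet_convex hx τ) (fun u hu => hu.1)
  · intro u hu
    obtain ⟨hu0, hu1, hu2⟩ := hu
    have m0 : 1 - u ∈ Set.Ioo (-1 : ℝ) 1 := ⟨by linarith, by linarith⟩
    have ma : 1 - u + u * x ∈ Set.Ioo (-1 : ℝ) 1 := ⟨by nlinarith, by nlinarith⟩
    have mb : 1 - u - u * x ∈ Set.Ioo (-1 : ℝ) 1 := ⟨by nlinarith, by nlinarith⟩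
    have l0 : HasDerivAt (fun u : ℝ => 1 - u) (-1) u := by
      simpa using (hasDerivAt_id u).const_sub 1
    have la : HasDerivAt (fun u : ℝ => 1 - u + u * x) (-1 + x) u :=
      (l0.add ((hasDerivAt_id u).mul_const x)).congr_deriv (by ring)
    have lb : HasDerivAt (fun u : ℝ => 1 - u - u * x) (-1 - x) u :=
      (l0.sub ((hasDerivAt_id u).mul_const x)).congr_deriv (by ring)
    have lτ : HasDerivAt (fun u : ℝ => u * τ) τ u := by
      simpa using (hasDerivAt_id u).mul_const τ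
    have dA : HasDerivAt (fun u : ℝ => hh (1 - u) - u * τ) (Real.artanh (1 - u) - τ) u := by
      have := ((hh_hasDerivAt m0).comp u l0).sub lτ
      refine this.congr_deriv ?_
      ring
    have dC : HasDerivAt (fun u : ℝ => hbr u x - u * τ) (((1 - x) * Real.artanh (1 - u + u * x)
      + (1 + x) * Real.artanh (1 - u - u * x)) / 2 - τ) u := by
      have := ((((hh_hasDerivAt ma).comp u la).add ((hh_hasDerivAt mb).comp u lb)).div_const 2).sub lτ
      refine this.congr_deriv ?_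
      ring
    exact ((Psi1_hasDerivAt hJ1 _).comp u dA).sub ((Psi1_hasDerivAt hJ1 _).comp u dC)
  · intro u hu
    obtain ⟨hu0, hu1, hu2⟩ := hu
    have m0 : 1 - u ∈ Set.Ioo (-1 : ℝ) 1 := ⟨by linarith, by linarith⟩
    have ma : 1 - u + u * x ∈ Set.Ioo (-1 : ℝ) 1 := ⟨by nlinarith, by nlinarith⟩
    have mb : 1 - u - u * x ∈ Set.Ioo (-1 : ℝ) 1 := ⟨by nlinarith, by nlinarith⟩
    have h2u : 0 < 2 - u := by linarith
    set v := u / (2 - u) with hv
    have hv0 : 0 < v := div_pos hu0 h2u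
    have hv1 : v ≤ 1 := by rw [hv, div_le_one h2u]; linarith
    have hC : 0 ≤ hbr u x - u * τ := by linarith
    have key := hW v x (hbr u x - u * τ) hv0 hv1 hx0 hx1 hC
    -- identities
    have e1v : 1 + v = 2 / (2 - u) := by rw [hv]; field_simp; ring
    have elog : Real.log (1 + v) = Real.log 2 - Real.log (2 - u) := by
      rw [e1v, Real.log_div two_ne_zero h2u.ne']
    have hg : hbr u x - u * τ + (v * ph x + ph (v * x)) / (1 + v) = hh (1 - u) - u * τ := by
      have hs := side_ident (m := 1 - u) (d := u * x) mb.1 ma.2 (mul_pos hu0 hx0)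
      have e3 : u * x / (1 - (1 - u)) = x := by
        rw [show 1 - (1 - u) = u by ring]; field_simp
      have e4 : u * x / (1 + (1 - u)) = v * x := by
        rw [show 1 + (1 - u) = 2 - u by ring, hv]; ring
      rw [e3, e4] at hs
      have e5 : (v * ph x + ph (v * x)) / (1 + v)
          = (1 - (1 - u)) / 2 * ph x + (1 + (1 - u)) / 2 * ph (v * x) := by
        rw [e1v, hv]; field_simp; ring
      rw [e5, ← hs]
      unfold hbr
      ring
    have hlog2 : Real.log (1 + (1 - u + u * x)) + Real.log (1 + (1 - u - u * x))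
        = 2 * Real.log (2 - u) + Real.log (1 - (v * x) ^ 2) := by
      have hvx : 0 < 1 - (v * x) ^ 2 := by
        have h1 : v * x < 1 := by nlinarith
        have h2 : 0 < v * x := mul_pos hv0 hx0
        nlinarith
      rw [← Real.log_mul (by linarith [ma.1]) (by linarith [mb.1])]
      have h3 : 2 * Real.log (2 - u) = Real.log ((2 - u) ^ 2) := by
        rw [Real.log_pow]; norm_num
      rw [h3, ← Real.log_mul (by positivity) hvx.ne']
      congr 1
      rw [hv]
      field_simp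
      ring
    have iA : u * (Real.artanh (1 - u) - τ) = hh (1 - u) - u * τ - Real.log (1 + v) := by
      have := art_ident m0
      rw [show 1 - (1 - u) = u by ring, show 1 + (1 - u) = 2 - u by ring] at this
      rw [elog]
      linarith
    have iC : u * (((1 - x) * Real.artanh (1 - u + u * x)
      + (1 + x) * Real.artanh (1 - u - u * x)) / 2 - τ)
        = hbr u x - u * τ - Real.log (1 + v) - (-(1 / 2) * Real.log (1 - (v * x) ^ 2)) := by
      have h1 := art_ident ma
      have h2 := art_ident mb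
      rw [elog]
      unfold hbr
      have h3 : u * (((1 - x) * Real.artanh (1 - u + u * x)
        + (1 + x) * Real.artanh (1 - u - u * x)) / 2 - τ)
          = ((1 - (1 - u + u * x)) * Real.artanh (1 - u + u * x)
            + (1 - (1 - u - u * x)) * Real.artanh (1 - u - u * x)) / 2 - u * τ := by ring
      rw [h3, h1, h2]
      linarith
    rw [hg] at key
    have hfin : u * (Psi1' J1 (hh (1 - u) - u * τ) * (Real.artanh (1 - u) - τ)
      - Psi1' J1 (hbr u x - u * τ) * (((1 - x) * Real.artanh (1 - u + u * x)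
      + (1 + x) * Real.artanh (1 - u - u * x)) / 2 - τ))
        = Psi1' J1 (hh (1 - u) - u * τ) * (u * (Real.artanh (1 - u) - τ))
          - Psi1' J1 (hbr u x - u * τ) * (u * (((1 - x) * Real.artanh (1 - u + u * x)
      + (1 + x) * Real.artanh (1 - u - u * x)) / 2 - τ)) := by ring
    rw [hfin, iA, iC]
    linarith

theorem mono1_bal {J1 : ℝ} (hJ1 : J1 < Real.log 2) (hW : WIneq J1) {θ : ℝ}
    (hθ : θ ∈ Set.Ioo (0 : ℝ) 1) :
    MonotoneOn (fun w => Phi1 (Psi1 J1) (w * θ) (-(w * θ)) (w * hh θ) / w) (Set.Ioc 0 1) := by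
  have hθ0 := hθ.1
  have hθ1 := hθ.2
  have hfun : ∀ w, Phi1 (Psi1 J1) (w * θ) (-(w * θ)) (w * hh θ)
      = Psi1 J1 (Real.log 2 - w * hh θ) - Psi1 J1 (hh (w * θ) - w * hh θ) := by
    intro w
    unfold Phi1
    rw [hh_neg, show (w * θ + -(w * θ)) / 2 = 0 by ring, hh_zero,
      show (hh (w * θ) + hh (w * θ)) / 2 = hh (w * θ) by ring]
  simp only [hfun]
  apply mono_div (f' := fun w => Psi1' J1 (Real.log 2 - w * hh θ) * (-(hh θ))
    - Psi1' J1 (hh (w * θ) - w * hh θ) * (-(θ * Real.artanh (w * θ)) - hh θ)) (convex_Ioc 0 1)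
    (fun w hw => hw.1)
  · intro w hw
    have mw : w * θ ∈ Set.Ioo (-1 : ℝ) 1 := by
      have := mul_pos hw.1 hθ0
      constructor
      · linarith
      · nlinarith [hw.2]
    have l1 : HasDerivAt (fun w : ℝ => w * θ) θ w := by
      simpa using (hasDerivAt_id w).mul_const θ
    have l2 : HasDerivAt (fun w : ℝ => w * hh θ) (hh θ) w := by
      simpa using (hasDerivAt_id w).mul_const (hh θ)
    have dA : HasDerivAt (fun w : ℝ => Real.log 2 - w * hh θ) (-(hh θ)) w := by
      simpa using l2.const_sub (Real.log 2)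
    have dC : HasDerivAt (fun w : ℝ => hh (w * θ) - w * hh θ)
        (-(θ * Real.artanh (w * θ)) - hh θ) w := by
      have := ((hh_hasDerivAt mw).comp w l1).sub l2
      refine this.congr_deriv ?_
      ring
    exact ((Psi1_hasDerivAt hJ1 _).comp w dA).sub ((Psi1_hasDerivAt hJ1 _).comp w dC)
  · intro w hw
    have hw0 := hw.1
    have hw1 := hw.2
    have hwθ : 0 < w * θ := mul_pos hw0 hθ0
    have hwθ1 : w * θ < 1 := by nlinarith
    have mw : w * θ ∈ Set.Ioo (-1 : ℝ) 1 := ⟨by linarith, hwθ1⟩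
    have hC : 0 ≤ hh (w * θ) - w * hh θ := by
      obtain ⟨_, hcc⟩ := hh_concaveOn
      have h := hcc (x := θ) (y := 0) ⟨by linarith, hθ1.le⟩ ⟨by norm_num, by norm_num⟩ hw0.le
        (b := 1 - w) (by linarith) (by ring)
      simp only [smul_eq_mul, mul_zero, add_zero, hh_zero] at h
      have : 0 ≤ (1 - w) * Real.log 2 := mul_nonneg (by linarith) log_two_pos'.le
      linarith
    have key := hW 1 (w * θ) (hh (w * θ) - w * hh θ) one_pos le_rfl hwθ hwθ1 hC
    rw [one_mul, one_mul, show (1:ℝ) + 1 = 2 by norm_num,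
      show (ph (w * θ) + ph (w * θ)) / 2 = ph (w * θ) by ring,
      show hh (w * θ) - w * hh θ + ph (w * θ) = Real.log 2 - w * hh θ by unfold ph; ring] at key
    have iC : w * (-(θ * Real.artanh (w * θ)) - hh θ)
        = hh (w * θ) - w * hh θ - Real.log 2 - (-(1 / 2) * Real.log (1 - (w * θ) ^ 2)) := by
      have p1 : 0 < 1 + w * θ := by linarith
      have p2 : 0 < 1 - w * θ := by linarith
      rw [hh_logs mw, artanh_eq_logs mw, show 1 - (w * θ) ^ 2 = (1 + w * θ) * (1 - w * θ) by ring,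
        Real.log_mul p1.ne' p2.ne']
      ring
    have hfin : w * (Psi1' J1 (Real.log 2 - w * hh θ) * (-(hh θ))
        - Psi1' J1 (hh (w * θ) - w * hh θ) * (-(θ * Real.artanh (w * θ)) - hh θ))
        = Psi1' J1 (Real.log 2 - w * hh θ) * (Real.log 2 - w * hh θ - Real.log 2)
          - Psi1' J1 (hh (w * θ) - w * hh θ) * (w * (-(θ * Real.artanh (w * θ)) - hh θ)) := by ring
    rw [hfin, iC]
    linarith

/-! ### the second state function -/

theorem mono2_ray (hS : SIneq) {x : ℝ} (hx : x ∈ Set.Ioo (0 : ℝ) 1) {τ : ℝ} (hτ : 0 < τ) :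
    MonotoneOn (fun u => Phi2 RR (1 - u + u * x) (1 - u - u * x) (u * τ) / u) (RaySet x τ) := by
  have hx0 := hx.1
  have hx1 := hx.2
  set f : ℝ → ℝ := fun u => 2 * (hh (1 - u) - hbr u x)
    + u * (PP (2 - u) τ - PP (2 - u - u * x ^ 2) τ) with hf
  have hfun : ∀ u ∈ RaySet x τ, Phi2 RR (1 - u + u * x) (1 - u - u * x) (u * τ) / u = f u / u := by
    intro u hu
    have hu0 := hu.1
    congr 1
    rw [hf]
    simp only
    unfold Phi2
    rw [Pp_RR, Pp_RR]
    rw [show 1 - ((1 - u + u * x + (1 - u - u * x)) / 2) ^ 2 = u * (2 - u) by ring,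
      show u * (2 - u) - ((1 - u + u * x - (1 - u - u * x)) / 2) ^ 2
        = u * (2 - u - u * x ^ 2) by ring, PP_smul hu0, PP_smul hu0,
      show (1 - u + u * x + (1 - u - u * x)) / 2 = 1 - u by ring]
    unfold hbr
    ring
  have hmono : MonotoneOn (fun u => f u / u) (RaySet x τ) := by
    apply mono_div (f' := fun u => 2 * (Real.artanh (1 - u) - ((1 - x) * Real.artanh (1 - u + u * x)
        + (1 + x) * Real.artanh (1 - u - u * x)) / 2)
      + ((PP (2 - u) τ - PP (2 - u - u * x ^ 2) τ)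
        + u * (-rhoR (τ / (2 - u)) + (1 + x ^ 2) * rhoR (τ / (2 - u - u * x ^ 2)))))
      (RaySet_convex hx τ) (fun u hu => hu.1)
    · intro u hu
      obtain ⟨hu0, hu1, hu2⟩ := hu
      have m0 : 1 - u ∈ Set.Ioo (-1 : ℝ) 1 := ⟨by linarith, by linarith⟩
      have ma : 1 - u + u * x ∈ Set.Ioo (-1 : ℝ) 1 := ⟨by nlinarith, by nlinarith⟩
      have mb : 1 - u - u * x ∈ Set.Ioo (-1 : ℝ) 1 := ⟨by nlinarith, by nlinarith⟩
      have l0 : HasDerivAt (fun u : ℝ => 1 - u) (-1) u := by
        simpa using (hasDerivAt_id u).const_sub 1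
      have la : HasDerivAt (fun u : ℝ => 1 - u + u * x) (-1 + x) u :=
        (l0.add ((hasDerivAt_id u).mul_const x)).congr_deriv (by ring)
      have lb : HasDerivAt (fun u : ℝ => 1 - u - u * x) (-1 - x) u :=
        (l0.sub ((hasDerivAt_id u).mul_const x)).congr_deriv (by ring)
      have lz0 : HasDerivAt (fun u : ℝ => 2 - u) (-1) u := by
        simpa using (hasDerivAt_id u).const_sub 2
      have lz1 : HasDerivAt (fun u : ℝ => 2 - u - u * x ^ 2) (-1 - x ^ 2) u :=
        (lz0.sub ((hasDerivAt_id u).mul_const (x ^ 2))).congr_deriv (by ring)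
      have hz0 : 0 < 2 - u := by linarith
      have hz1 : 0 < 2 - u - u * x ^ 2 := by nlinarith [mul_pos hu0 hx0]
      have d1 := (hh_hasDerivAt m0).comp u l0
      have d2 := (((hh_hasDerivAt ma).comp u la).add ((hh_hasDerivAt mb).comp u lb)).div_const 2
      have d3 := (PP_hasDerivAt_left hz0 hτ).comp u lz0
      have d4 := (PP_hasDerivAt_left hz1 hτ).comp u lz1
      have d5 := ((d1.sub d2).const_mul 2).add ((hasDerivAt_id u).mul (d3.sub d4))
      refine HasDerivAt.congr_deriv (f := f) d5 ?_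
      simp only [id_eq, Pi.sub_apply, Function.comp]
      ring
    · intro u hu
      obtain ⟨hu0, hu1, hu2⟩ := hu
      have m0 : 1 - u ∈ Set.Ioo (-1 : ℝ) 1 := ⟨by linarith, by linarith⟩
      have ma : 1 - u + u * x ∈ Set.Ioo (-1 : ℝ) 1 := ⟨by nlinarith, by nlinarith⟩
      have mb : 1 - u - u * x ∈ Set.Ioo (-1 : ℝ) 1 := ⟨by nlinarith, by nlinarith⟩
      have h2u : 0 < 2 - u := by linarith
      set v := u / (2 - u) with hv
      have hv0 : 0 < v := div_pos hu0 h2u
      have hv1 : v ≤ 1 := by rw [hv, div_le_one h2u]; linarith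
      have key := hS v x (u * τ) hv0 hv1 hx0 hx1 (mul_pos hu0 hτ)
      have hz1 : 0 < 2 - u - u * x ^ 2 := by nlinarith [mul_pos hu0 hx0]
      have euv : 2 * v / (1 + v) = u := by rw [hv]; field_simp; ring
      have es0 : u * τ / (1 - (1 - u) ^ 2) = τ / (2 - u) := by
        rw [show 1 - (1 - u) ^ 2 = u * (2 - u) by ring, mul_div_mul_left _ _ hu0.ne']
      have es1 : u * τ / (1 - (1 - u) ^ 2 - (u * x) ^ 2) = τ / (2 - u - u * x ^ 2) := by
        rw [show 1 - (1 - u) ^ 2 - (u * x) ^ 2 = u * (2 - u - u * x ^ 2) by ring,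
          mul_div_mul_left _ _ hu0.ne']
      rw [euv, es0, es1] at key
      have hlog2 : Real.log (1 + (1 - u + u * x)) + Real.log (1 + (1 - u - u * x))
          = 2 * Real.log (2 - u) + Real.log (1 - (v * x) ^ 2) := by
        have hvx : 0 < 1 - (v * x) ^ 2 := by
          have h1 : v * x < 1 := by nlinarith
          have h2 : 0 < v * x := mul_pos hv0 hx0
          nlinarith
        rw [← Real.log_mul (by linarith [ma.1]) (by linarith [mb.1])]
        have h3 : 2 * Real.log (2 - u) = Real.log ((2 - u) ^ 2) := by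
          rw [Real.log_pow]; norm_num
        rw [h3, ← Real.log_mul (by positivity) hvx.ne']
        congr 1
        rw [hv]
        field_simp
        ring
      have i0 := art_ident m0
      have i1 := art_ident ma
      have i2 := art_ident mb
      rw [show 1 - (1 - u) = u by ring, show 1 + (1 - u) = 2 - u by ring] at i0
      have hfin : u * (2 * (Real.artanh (1 - u) - ((1 - x) * Real.artanh (1 - u + u * x)
            + (1 + x) * Real.artanh (1 - u - u * x)) / 2)
          + ((PP (2 - u) τ - PP (2 - u - u * x ^ 2) τ)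
            + u * (-rhoR (τ / (2 - u)) + (1 + x ^ 2) * rhoR (τ / (2 - u - u * x ^ 2))))) - f u
          = 2 * (u * Real.artanh (1 - u)) - 2 * hh (1 - u)
            - ((1 - (1 - u + u * x)) * Real.artanh (1 - u + u * x)
              + (1 - (1 - u - u * x)) * Real.artanh (1 - u - u * x)) + 2 * hbr u x
            - u ^ 2 * rhoR (τ / (2 - u))
            + (u ^ 2 + (u * x) ^ 2) * rhoR (τ / (2 - u - u * x ^ 2)) := by
        rw [hf]; ring
      rw [hfin, i0, i1, i2]
      unfold hbr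
      linarith
  intro p hp q hq hpq
  have := hmono hp hq hpq
  simp only at this ⊢
  rw [hfun p hp, hfun q hq]
  exact this

theorem mono2_bal (hS : SIneq) {θ : ℝ} (hθ : θ ∈ Set.Ioo (0 : ℝ) 1) :
    MonotoneOn (fun w => Phi2 RR (w * θ) (-(w * θ)) (w * hh θ) / w) (Set.Ioc 0 1) := by
  have hθ0 := hθ.1
  have hθ1 := hθ.2
  have hH : 0 < hh θ := hh_pos ⟨by linarith, hθ1⟩
  set f : ℝ → ℝ := fun w => 2 * (Real.log 2 - hh (w * θ))
    + w * (PP w⁻¹ (hh θ) - PP (w⁻¹ - w * θ ^ 2) (hh θ)) with hf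
  have hfun : ∀ w ∈ Set.Ioc (0 : ℝ) 1,
      Phi2 RR (w * θ) (-(w * θ)) (w * hh θ) / w = f w / w := by
    intro w hw
    have hw0 := hw.1
    congr 1
    rw [hf]
    simp only
    unfold Phi2
    rw [Pp_RR, Pp_RR, hh_neg, show (w * θ + -(w * θ)) / 2 = 0 by ring, hh_zero,
      show (1:ℝ) - 0 ^ 2 = w * w⁻¹ by rw [mul_inv_cancel₀ hw0.ne']; ring,
      show w * w⁻¹ - ((w * θ - -(w * θ)) / 2) ^ 2 = w * (w⁻¹ - w * θ ^ 2) by ring,
      PP_smul hw0, PP_smul hw0]
    ring
  have hz : ∀ w ∈ Set.Ioc (0 : ℝ) 1, 0 < w⁻¹ - w * θ ^ 2 := by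
    intro w hw
    have h1 : 1 ≤ w⁻¹ := one_le_inv_iff₀.mpr hw
    have h2 : w * θ ^ 2 ≤ 1 * θ ^ 2 := mul_le_mul_of_nonneg_right hw.2 (sq_nonneg θ)
    nlinarith
  have hmono : MonotoneOn (fun w => f w / w) (Set.Ioc 0 1) := by
    apply mono_div (f' := fun w => 2 * (θ * Real.artanh (w * θ))
      + ((PP w⁻¹ (hh θ) - PP (w⁻¹ - w * θ ^ 2) (hh θ))
        + w * (-(w ^ 2)⁻¹ * rhoR (hh θ / w⁻¹)
          + ((w ^ 2)⁻¹ + θ ^ 2) * rhoR (hh θ / (w⁻¹ - w * θ ^ 2)))))
      (convex_Ioc 0 1) (fun w hw => hw.1)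
    · intro w hw
      have hw0 := hw.1
      have mw : w * θ ∈ Set.Ioo (-1 : ℝ) 1 := by
        have := mul_pos hw.1 hθ0
        constructor
        · linarith
        · nlinarith [hw.2]
      have l1 : HasDerivAt (fun w : ℝ => w * θ) θ w := by
        simpa using (hasDerivAt_id w).mul_const θ
      have li : HasDerivAt (fun w : ℝ => w⁻¹) (-(w ^ 2)⁻¹) w := hasDerivAt_inv hw0.ne'
      have lz : HasDerivAt (fun w : ℝ => w⁻¹ - w * θ ^ 2) (-(w ^ 2)⁻¹ - θ ^ 2) w :=
        (li.sub ((hasDerivAt_id w).mul_const (θ ^ 2))).congr_deriv (by ring)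
      have d1 := ((hh_hasDerivAt mw).comp w l1).const_sub (Real.log 2)
      have d3 := (PP_hasDerivAt_left (inv_pos.mpr hw0) hH).comp w li
      have d4 := (PP_hasDerivAt_left (hz w hw) hH).comp w lz
      have d5 := (d1.const_mul 2).add ((hasDerivAt_id w).mul (d3.sub d4))
      refine HasDerivAt.congr_deriv (f := f) d5 ?_
      simp only [id_eq, Pi.sub_apply, Function.comp]
      ring
    · intro w hw
      have hw0 := hw.1
      have hw1 := hw.2
      have hwθ : 0 < w * θ := mul_pos hw0 hθ0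
      have hwθ1 : w * θ < 1 := by nlinarith
      have mw : w * θ ∈ Set.Ioo (-1 : ℝ) 1 := ⟨by linarith, hwθ1⟩
      have key := hS 1 (w * θ) (w * hh θ) one_pos le_rfl hwθ hwθ1 (mul_pos hw0 hH)
      have e0 : w * hh θ / (1 - (1 - 2 * 1 / (1 + 1)) ^ 2) = hh θ / w⁻¹ := by
        field_simp; ring
      have e1 : w * hh θ / (1 - (1 - 2 * 1 / (1 + 1)) ^ 2 - (2 * 1 / (1 + 1) * (w * θ)) ^ 2)
          = hh θ / (w⁻¹ - w * θ ^ 2) := by
        rw [show w⁻¹ - w * θ ^ 2 = w⁻¹ * (1 - (1 - 2 * 1 / (1 + 1)) ^ 2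
          - (2 * 1 / (1 + 1) * (w * θ)) ^ 2) by field_simp; ring]
        rw [← mul_div_mul_left (w * hh θ) _ (inv_pos.mpr hw0).ne']
        congr 1
        field_simp
      rw [e0, e1, one_mul] at key
      have i1 : 2 * (w * θ * Real.artanh (w * θ)) - 2 * (Real.log 2 - hh (w * θ))
          = -Real.log (1 - (w * θ) ^ 2) := by
        have p1 : 0 < 1 + w * θ := by linarith
        have p2 : 0 < 1 - w * θ := by linarith
        rw [hh_logs mw, artanh_eq_logs mw,
          show 1 - (w * θ) ^ 2 = (1 + w * θ) * (1 - w * θ) by ring, Real.log_mul p1.ne' p2.ne']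
        ring
      have hfin : w * (2 * (θ * Real.artanh (w * θ))
          + ((PP w⁻¹ (hh θ) - PP (w⁻¹ - w * θ ^ 2) (hh θ))
            + w * (-(w ^ 2)⁻¹ * rhoR (hh θ / w⁻¹)
              + ((w ^ 2)⁻¹ + θ ^ 2) * rhoR (hh θ / (w⁻¹ - w * θ ^ 2))))) - f w
          = (2 * (w * θ * Real.artanh (w * θ)) - 2 * (Real.log 2 - hh (w * θ)))
            - (w ^ 2 * (w ^ 2)⁻¹) * rhoR (hh θ / w⁻¹)
            + (w ^ 2 * (w ^ 2)⁻¹ + (w * θ) ^ 2) * rhoR (hh θ / (w⁻¹ - w * θ ^ 2)) := by
        rw [hf]; ring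
      rw [hfin, i1, mul_inv_cancel₀ (pow_pos hw0 2).ne']
      refine le_trans key (le_of_eq ?_)
      ring
  intro p hp q hq hpq
  have := hmono hp hq hpq
  simp only at this ⊢
  rw [hfun p hp, hfun q hq]
  exact this

/-- cost inequality for the second state function -/
theorem costIneq_Phi2 (hS : SIneq)
    (hE : ∀ a b : ℝ, -1 < b → b < a → a < 1 → 0 ≤ a + b →
      2 * (hh ((a + b) / 2) - (hh a + hh b) / 2)
        + PP (1 - ((a + b) / 2) ^ 2) ((hh a + hh b) / 2) ≤ KK a b)
    (hC : CornerCert) : CostIneq (Phi2 RR) := by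
  apply costIneq_of_path
  · intro a _ T _
    unfold Phi2
    rw [show (a + a) / 2 = a by ring, show (hh a + hh a) / 2 = hh a by ring, sub_self]
    simp
  · exact fun x hx τ hτ => mono2_ray hS hx hτ
  · exact fun θ hθ => mono2_bal hS hθ
  · intro a b hb hab ha hs
    have h := hE a b hb hab ha hs
    have ha0 : 0 < hh a := hh_pos ⟨by linarith, ha⟩
    have hb0 : 0 < hh b := hh_pos ⟨hb, by linarith⟩
    have hs1 : 0 < 1 - ((a + b) / 2) ^ 2 - ((a - b) / 2) ^ 2 := by
      nlinarith [mul_pos (show 0 < 1 - a by linarith) (show 0 < 1 + a by linarith),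
        mul_pos (show 0 < 1 - b by linarith) (show 0 < 1 + b by linarith)]
    have hnn := PP_nonneg hs1 (show 0 < (hh a + hh b) / 2 by linarith)
    unfold Phi2
    rw [Pp_RR, Pp_RR]
    linarith
  · exact hC

/-- cost inequality for the first state function -/
theorem costIneq_Phi1 {J1 : ℝ} (hJ0 : 0 ≤ J1) (hJ1 : J1 < Real.log 2) (hW : WIneq J1)
    (hE : ∀ a b : ℝ, -1 < b → b < a → a < 1 → 0 ≤ a + b →
      Psi (hh ((a + b) / 2) - (hh a + hh b) / 2) ≤ KK a b)
    (hC : CornerCert) : CostIneq (Phi1 (Psi1 J1)) := by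
  apply costIneq_of_path
  · intro a _ T _
    unfold Phi1
    rw [show (a + a) / 2 = a by ring, show (hh a + hh a) / 2 = hh a by ring, sub_self]
  · exact fun x hx τ _ => mono1_ray hJ1 hW hx τ
  · exact fun θ hθ => mono1_bal hJ1 hW hθ
  · intro a b hb hab ha hs
    have h := hE a b hb hab ha hs
    unfold Phi1
    rw [sub_self, Psi1_zero hJ0, sub_zero]
    refine le_trans (Psi1_le_Psi hJ1 ?_) h
    have h1 := hh_le ((a + b) / 2)
    have h2 := hh_pos (x := a) ⟨by linarith, ha⟩
    have h3 := hh_pos (x := b) ⟨hb, by linarith⟩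
    linarith
  · exact hC

end Vale.Agent.P322
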