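import Vale.Agent.Lib.P322.Cost

/-!
Courtade-Kumar: the one-variable inequality (R0).  With `h = hh (tanh p)` it says
`h ^ 2 * (p * (1 + tanh p ^ 2) - tanh p) ≤ (2/3) * (1 - tanh p ^ 2) ^ 2 * p ^ 3` for all `p > 0`.
-/

namespace Vale.Agent.P322

open Real

theorem tanh_hasDerivAt' (p : ℝ) : HasDerivAt Real.tanh (1 - Real.tanh p ^ 2) p := by
  have h := (Real.hasDerivAt_sinh p).div (Real.hasDerivAt_cosh p) (Real.cosh_pos p).ne'
  have hfun : Real.tanh = fun y => Real.sinh y / Real.cosh y := by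
    funext y; exact Real.tanh_eq_sinh_div_cosh y
  rw [hfun]
  refine h.congr_deriv ?_
  have hc := (Real.cosh_pos p).ne'
  field_simp

/-- monotonicity from a nonnegative derivative, started at `0` -/
theorem nonneg_of_deriv_nonneg {f f' : ℝ → ℝ} (hf : ∀ x, HasDerivAt f (f' x) x)
    (h0 : f 0 = 0) (hf' : ∀ x, 0 ≤ x → 0 ≤ f' x) {x : ℝ} (hx : 0 ≤ x) : 0 ≤ f x := by
  have hmono : MonotoneOn f (Set.Ici 0) := by
    apply monotoneOn_of_deriv_nonneg (convex_Ici 0)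
    · exact fun y _ => (hf y).continuousAt.continuousWithinAt
    · exact fun y _ => (hf y).differentiableAt.differentiableWithinAt
    · intro y hy
      rw [interior_Ici] at hy
      rw [(hf y).deriv]
      exact hf' y hy.le
  have := hmono (Set.mem_Ici.2 le_rfl) (Set.mem_Ici.2 hx) hx
  rwa [h0] at this

theorem tanh_sq_lt_one (p : ℝ) : Real.tanh p ^ 2 < 1 := by
  have h := tanh_mem p
  nlinarith [h.1, h.2]

/-- lower bound for `p = artanh θ` -/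
theorem artanh_lower {p : ℝ} (hp : 0 ≤ p) :
    Real.tanh p + Real.tanh p ^ 3 / 3 + Real.tanh p ^ 5 / 5 + Real.tanh p ^ 7 / 7
      + Real.tanh p ^ 9 / 9 ≤ p := by
  have key := nonneg_of_deriv_nonneg
    (f := fun p => p - (Real.tanh p + Real.tanh p ^ 3 / 3 + Real.tanh p ^ 5 / 5
      + Real.tanh p ^ 7 / 7 + Real.tanh p ^ 9 / 9))
    (f' := fun p => Real.tanh p ^ 10) ?_ (by simp) (fun x _ => by positivity) hp
  · linarith
  · intro x
    have ht := tanh_hasDerivAt' x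
    have h := (hasDerivAt_id x).sub ((((ht.add ((ht.pow 3).div_const 3)).add
      ((ht.pow 5).div_const 5)).add ((ht.pow 7).div_const 7)).add ((ht.pow 9).div_const 9))
    refine h.congr_deriv ?_
    simp only [Nat.cast_ofNat, Nat.reduceSub]
    ring

/-- upper bound for `p = artanh θ` -/
theorem artanh_upper {p : ℝ} (hp : 0 ≤ p) :
    p ≤ Real.tanh p + Real.tanh p ^ 3 / 3 + Real.tanh p ^ 5 / 5 + Real.tanh p ^ 7 / 7
      + Real.tanh p ^ 9 / 9 + Real.tanh p ^ 11 / 11 / (1 - Real.tanh p ^ 2) := by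
  have key := nonneg_of_deriv_nonneg
    (f := fun p => (Real.tanh p + Real.tanh p ^ 3 / 3 + Real.tanh p ^ 5 / 5
      + Real.tanh p ^ 7 / 7 + Real.tanh p ^ 9 / 9
      + Real.tanh p ^ 11 / 11 / (1 - Real.tanh p ^ 2)) - p)
    (f' := fun p => 2 * Real.tanh p ^ 12 / 11 / (1 - Real.tanh p ^ 2)) ?_ (by simp)
    (fun x _ => by
      have := tanh_sq_lt_one x
      have h1 : 0 < 1 - Real.tanh x ^ 2 := by linarith
      positivity) hp
  · linarith
  · intro x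
    have ht := tanh_hasDerivAt' x
    have h1 : (1 - Real.tanh x ^ 2) ≠ 0 := by
      have := tanh_sq_lt_one x
      intro h; linarith
    have hd := ((ht.pow 11).div_const 11).div ((hasDerivAt_const x (1:ℝ)).sub (ht.pow 2)) h1
    have h := (((((ht.add ((ht.pow 3).div_const 3)).add
      ((ht.pow 5).div_const 5)).add ((ht.pow 7).div_const 7)).add ((ht.pow 9).div_const 9)).add
      hd).sub (hasDerivAt_id x)
    refine h.congr_deriv ?_
    simp only [Nat.cast_ofNat, Nat.reduceSub, Pi.pow_apply, Pi.sub_apply]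
    field_simp
    ring

theorem hh_tanh_hasDerivAt (p : ℝ) :
    HasDerivAt (fun p => Real.log (2 * Real.cosh p) - p * Real.tanh p)
      (-(p * (1 - Real.tanh p ^ 2))) p := by
  have hc : (2 * Real.cosh p) ≠ 0 := (two_cosh_pos p).ne'
  have h1 := ((Real.hasDerivAt_cosh p).const_mul 2).log hc
  have h2 := (hasDerivAt_id p).mul (tanh_hasDerivAt' p)
  refine (h1.sub h2).congr_deriv ?_
  have hc' := (Real.cosh_pos p).ne'
  have : 2 * Real.sinh p / (2 * Real.cosh p) = Real.tanh p := by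
    rw [Real.tanh_eq_sinh_div_cosh]; field_simp
  rw [this]
  simp only [id]
  ring

/-- upper bound for the entropy -/
theorem hh_upper {p : ℝ} (hp : 0 ≤ p) :
    Real.log (2 * Real.cosh p) - p * Real.tanh p ≤
      Real.log 2 - Real.tanh p ^ 2 / 2 - Real.tanh p ^ 4 / 12 - Real.tanh p ^ 6 / 30 := by
  have key := nonneg_of_deriv_nonneg
    (f := fun p => (Real.log 2 - Real.tanh p ^ 2 / 2 - Real.tanh p ^ 4 / 12
      - Real.tanh p ^ 6 / 30) - (Real.log (2 * Real.cosh p) - p * Real.tanh p))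
    (f' := fun p => (1 - Real.tanh p ^ 2) *
      (p - (Real.tanh p + Real.tanh p ^ 3 / 3 + Real.tanh p ^ 5 / 5))) ?_ (by simp)
    (fun x hx => ?_) hp
  · linarith
  · intro x
    have ht := tanh_hasDerivAt' x
    have h := ((((hasDerivAt_const x (Real.log 2)).sub ((ht.pow 2).div_const 2)).sub
      ((ht.pow 4).div_const 12)).sub ((ht.pow 6).div_const 30)).sub (hh_tanh_hasDerivAt x)
    refine h.congr_deriv ?_
    simp only [Nat.cast_ofNat, Nat.reduceSub]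
    ring
  · have h1 := artanh_lower hx
    have h2 := tanh_sq_lt_one x
    have h3 : 0 ≤ Real.tanh x := by
      rcases hx.eq_or_lt with h | h
      · rw [← h]; simp
      · exact (tanh_pos' h).le
    have h4 : 0 ≤ Real.tanh x ^ 7 := by positivity
    have h5 : 0 ≤ Real.tanh x ^ 9 := by positivity
    apply mul_nonneg (by linarith) (by linarith)

theorem tanh_le_of_le_one {p : ℝ} (hp : p ≤ 1) : Real.tanh p ≤ 0.765 := by
  rw [Real.tanh_eq_sinh_div_cosh, div_le_iff₀ (Real.cosh_pos p), Real.sinh_eq, Real.cosh_eq]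
  have h1 : Real.exp (2 * p) ≤ 7.4 := by
    have h2 : Real.exp (2 * p) ≤ Real.exp 1 ^ 2 := by
      rw [← Real.exp_nat_mul]
      apply Real.exp_le_exp.2
      push_cast; linarith
    have h3 := Real.exp_one_lt_d9
    have h4 : Real.exp 1 ^ 2 ≤ 2.7182818286 ^ 2 := pow_le_pow_left₀ (Real.exp_pos 1).le h3.le 2
    have h5 : (2.7182818286 : ℝ) ^ 2 ≤ 7.4 := by norm_num
    exact h2.trans (h4.trans h5)
  have h5 : Real.exp p = Real.exp (2 * p) * Real.exp (-p) := by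
    rw [← Real.exp_add]; congr 1; ring
  have h6 := Real.exp_pos (-p)
  rw [h5]
  nlinarith

theorem poly_a {s : ℝ} (h0 : 0 ≤ s) (h1 : s ≤ 0.5853) :
    Real.log 2 - s / 2 - s ^ 2 / 12 - s ^ 3 / 30 ≤
      (1 - s) * (0.7 + 0.19 * s + 0.21 * s ^ 2) := by
  have hl := Real.log_two_lt_d9
  nlinarith [mul_nonneg h0 (sub_nonneg.2 h1), mul_nonneg (mul_nonneg h0 h0) (sub_nonneg.2 h1),
    mul_nonneg h0 (mul_nonneg (sub_nonneg.2 h1) (sub_nonneg.2 h1)), sq_nonneg (s - 0.1),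
    sq_nonneg (s - 0.05)]

theorem poly_b {s : ℝ} (h0 : 0 ≤ s) (h1 : s ≤ 0.5853) :
    (0.7 + 0.19 * s + 0.21 * s ^ 2) ^ 2 *
      (4 / 3 - 4 / 5 * s - 4 / 21 * s ^ 2 - 4 / 45 * s ^ 3 - 4 / 77 * s ^ 4 - 2 / 99 * s ^ 5) ≤
      2 / 3 * (1 - s) * (1 + s / 3 + s ^ 2 / 5 + s ^ 3 / 7 + s ^ 4 / 9) ^ 3 := by
  have h2 : (1 + s + 14 / 15 * s ^ 2 + 818 / 945 * s ^ 3 + 141 / 175 * s ^ 4
      + 758 / 1575 * s ^ 5) ≤ (1 + s / 3 + s ^ 2 / 5 + s ^ 3 / 7 + s ^ 4 / 9) ^ 3 := by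
    have e : (1 + s / 3 + s ^ 2 / 5 + s ^ 3 / 7 + s ^ 4 / 9) ^ 3 -
      (1 + s + 14 / 15 * s ^ 2 + 818 / 945 * s ^ 3 + 141 / 175 * s ^ 4 + 758 / 1575 * s ^ 5) =
      49073 / 165375 * s ^ 6 + 1954 / 11025 * s ^ 7 + 3121 / 33075 * s ^ 8
        + 4766 / 138915 * s ^ 9 + 94 / 6615 * s ^ 10 + 1 / 189 * s ^ 11 + 1 / 729 * s ^ 12 := by
      ring
    have : 0 ≤ 49073 / 165375 * s ^ 6 + 1954 / 11025 * s ^ 7 + 3121 / 33075 * s ^ 8
        + 4766 / 138915 * s ^ 9 + 94 / 6615 * s ^ 10 + 1 / 189 * s ^ 11 + 1 / 729 * s ^ 12 := by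
      positivity
    linarith
  have h3 : (0.7 + 0.19 * s + 0.21 * s ^ 2) ^ 2 *
      (4 / 3 - 4 / 5 * s - 4 / 21 * s ^ 2 - 4 / 45 * s ^ 3 - 4 / 77 * s ^ 4 - 2 / 99 * s ^ 5) ≤
      49 / 75 - 14 / 375 * s + 67 / 500 * s ^ 2 - 28339 / 112500 * s ^ 3
        - 253411 / 2165625 * s ^ 4 - 4271 / 41250 * s ^ 5 := by
    have e : (0.7 + 0.19 * s + 0.21 * s ^ 2) ^ 2 *
      (4 / 3 - 4 / 5 * s - 4 / 21 * s ^ 2 - 4 / 45 * s ^ 3 - 4 / 77 * s ^ 4 - 2 / 99 * s ^ 5) =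
      49 / 75 - 14 / 375 * s + 67 / 500 * s ^ 2 - 28339 / 112500 * s ^ 3
        - 253411 / 2165625 * s ^ 4 - 4271 / 41250 * s ^ 5 -
      (164653 / 4331250 * s ^ 6 + 36467 / 2475000 * s ^ 7 + 161 / 41250 * s ^ 8
        + 49 / 55000 * s ^ 9) := by ring
    have : 0 ≤ 164653 / 4331250 * s ^ 6 + 36467 / 2475000 * s ^ 7 + 161 / 41250 * s ^ 8
        + 49 / 55000 * s ^ 9 := by positivity
    linarith
  have h4 : 49 / 75 - 14 / 375 * s + 67 / 500 * s ^ 2 - 28339 / 112500 * s ^ 3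
        - 253411 / 2165625 * s ^ 4 - 4271 / 41250 * s ^ 5 ≤
      2 / 3 * (1 - s) * (1 + s + 14 / 15 * s ^ 2 + 818 / 945 * s ^ 3 + 141 / 175 * s ^ 4
      + 758 / 1575 * s ^ 5) := by
    have e : 2 / 3 * (1 - s) * (1 + s + 14 / 15 * s ^ 2 + 818 / 945 * s ^ 3 + 141 / 175 * s ^ 4
      + 758 / 1575 * s ^ 5) - (49 / 75 - 14 / 375 * s + 67 / 500 * s ^ 2
        - 28339 / 112500 * s ^ 3 - 253411 / 2165625 * s ^ 4 - 4271 / 41250 * s ^ 5) =
      1 / 75 + 14 / 375 * s - (67 / 500 + 2 / 45) * s ^ 2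
        + (28339 / 112500 - 128 / 2835) * s ^ 3
        + (253411 / 2165625 + 2 / 3 * (141 / 175 - 818 / 945)) * s ^ 4
        - (2 / 3 * (141 / 175 - 758 / 1575) - 4271 / 41250) * s ^ 5
        - 2 / 3 * (758 / 1575) * s ^ 6 := by ring
    have h5 : s ^ 5 ≤ 0.5853 * s ^ 4 := by
      have : 0 ≤ s ^ 4 := by positivity
      nlinarith
    have h6 : s ^ 6 ≤ 0.201 * s ^ 3 := by
      have a1 : s ^ 3 ≤ 0.5853 ^ 3 := pow_le_pow_left₀ h0 h1 3
      have a2 : 0 ≤ s ^ 3 := by positivity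
      have a3 : s ^ 3 * s ^ 3 ≤ 0.5853 ^ 3 * s ^ 3 := mul_le_mul_of_nonneg_right a1 a2
      have a4 : s ^ 6 = s ^ 3 * s ^ 3 := by ring
      rw [a4]
      have a5 : (0.5853 : ℝ) ^ 3 * s ^ 3 ≤ 0.201 * s ^ 3 := by
        apply mul_le_mul_of_nonneg_right _ a2
        norm_num
      linarith
    have h7 : 0 ≤ 0.0133 + 0.0373 * s - 0.1785 * s ^ 2 + 0.142 * s ^ 3 := by
      nlinarith [mul_nonneg h0 (sub_nonneg.2 h1), sq_nonneg (s - 0.58), sq_nonneg (s - 0.5),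
        mul_nonneg h0 (sq_nonneg (s - 0.58)), mul_nonneg h0 (sq_nonneg (s - 0.6)),
        mul_nonneg (mul_nonneg h0 h0) (sub_nonneg.2 h1)]
    have h8 : 0 ≤ s ^ 4 := by positivity
    have h9 : 0 ≤ s ^ 3 := by positivity
    have h10 : 0 ≤ s ^ 2 := by positivity
    have : 0 ≤ 1 / 75 + 14 / 375 * s - (67 / 500 + 2 / 45) * s ^ 2
        + (28339 / 112500 - 128 / 2835) * s ^ 3
        + (253411 / 2165625 + 2 / 3 * (141 / 175 - 818 / 945)) * s ^ 4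
        - (2 / 3 * (141 / 175 - 758 / 1575) - 4271 / 41250) * s ^ 5
        - 2 / 3 * (758 / 1575) * s ^ 6 := by
      norm_num at h5 h6 h7 ⊢
      linarith
    linarith
  have h5 : 2 / 3 * (1 - s) * (1 + s + 14 / 15 * s ^ 2 + 818 / 945 * s ^ 3 + 141 / 175 * s ^ 4
      + 758 / 1575 * s ^ 5) ≤
      2 / 3 * (1 - s) * (1 + s / 3 + s ^ 2 / 5 + s ^ 3 / 7 + s ^ 4 / 9) ^ 3 := by
    apply mul_le_mul_of_nonneg_left h2
    norm_num at h1
    linarith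
  linarith

theorem poly_c {p e : ℝ} (hp : 1 ≤ p) (he : 0 ≤ e) (he1 : e ≤ 0.1354) :
    (1 + e + 2 * p) ^ 2 * (2 * p * (1 + e ^ 2) - (1 - e ^ 2)) ≤ 32 / 3 * p ^ 3 := by
  have h1 : (1 + e + 2 * p) ^ 2 ≤ (1.1354 + 2 * p) ^ 2 := by
    apply pow_le_pow_left₀ (by linarith)
    norm_num at he1 ⊢
    linarith
  have h2 : e ^ 2 ≤ 0.01834 := by
    norm_num at he1 ⊢
    nlinarith
  have h3 : 2 * p * (1 + e ^ 2) - (1 - e ^ 2) ≤ 2.03668 * p - 0.98166 := by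
    norm_num at h2 ⊢
    nlinarith
  have h4 : 0 ≤ 2 * p * (1 + e ^ 2) - (1 - e ^ 2) := by nlinarith [sq_nonneg e]
  calc (1 + e + 2 * p) ^ 2 * (2 * p * (1 + e ^ 2) - (1 - e ^ 2))
      ≤ (1.1354 + 2 * p) ^ 2 * (2.03668 * p - 0.98166) := by
        apply mul_le_mul h1 h3 h4 (by positivity)
    _ ≤ 32 / 3 * p ^ 3 := by
        obtain ⟨x, rfl⟩ : ∃ x, p = 1 + x := ⟨p - 1, by ring⟩
        have hx : 0 ≤ x := by linarith
        nlinarith [mul_nonneg hx (sq_nonneg (x - 0.22)), sq_nonneg (x - 0.22),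
          mul_nonneg hx (sq_nonneg (x - 0.3))]

/-- (R0), hyperbolic form -/
theorem R0_tanh {p : ℝ} (hp : 0 < p) :
    (Real.log (2 * Real.cosh p) - p * Real.tanh p) ^ 2 *
      (p * (1 + Real.tanh p ^ 2) - Real.tanh p) ≤
      2 / 3 * (1 - Real.tanh p ^ 2) ^ 2 * p ^ 3 := by
  rcases le_total p 1 with h1 | h1
  · set θ := Real.tanh p with hθ
    have hθ0 : 0 < θ := tanh_pos' hp
    have hθ1 : θ ≤ 0.765 := tanh_le_of_le_one h1
    have hs0 : 0 ≤ θ ^ 2 := by positivity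
    have hs1 : θ ^ 2 ≤ 0.5853 := by
      have := pow_le_pow_left₀ hθ0.le hθ1 2
      norm_num at this ⊢
      linarith
    have hlt : 0 < 1 - θ ^ 2 := by
      norm_num at hs1; linarith
    have hlow := artanh_lower hp.le
    have hup := artanh_upper hp.le
    rw [← hθ] at hlow hup
    have hh0 : 0 ≤ Real.log (2 * Real.cosh p) - p * θ := by
      have := hh_pos (tanh_mem p)
      rw [hh_tanh] at this
      exact this.le
    have hH := hh_upper hp.le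
    rw [← hθ] at hH
    have ha := poly_a hs0 hs1
    have hb := poly_b hs0 hs1
    set w := 0.7 + 0.19 * θ ^ 2 + 0.21 * (θ ^ 2) ^ 2 with hw
    have hw0 : 0 < w := by positivity
    have h2 : Real.log (2 * Real.cosh p) - p * θ ≤ (1 - θ ^ 2) * w := by
      have e1 : θ ^ 4 = (θ ^ 2) ^ 2 := by ring
      have e2 : θ ^ 6 = (θ ^ 2) ^ 3 := by ring
      rw [e1, e2] at hH
      linarith
    -- bound of the second factor
    set Bh := 4 / 3 - 4 / 5 * θ ^ 2 - 4 / 21 * (θ ^ 2) ^ 2 - 4 / 45 * (θ ^ 2) ^ 3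
      - 4 / 77 * (θ ^ 2) ^ 4 - 2 / 99 * (θ ^ 2) ^ 5 with hBh
    have h3 : (p * (1 + θ ^ 2) - θ) * (1 - θ ^ 2) ≤ θ * θ ^ 2 * Bh := by
      have h5 : p * (1 - θ ^ 2) ≤ (θ + θ ^ 3 / 3 + θ ^ 5 / 5 + θ ^ 7 / 7 + θ ^ 9 / 9)
          * (1 - θ ^ 2) + θ ^ 11 / 11 := by
        have h6 := mul_le_mul_of_nonneg_right hup hlt.le
        have h7 : θ ^ 11 / 11 / (1 - θ ^ 2) * (1 - θ ^ 2) = θ ^ 11 / 11 := by
          field_simp
        rw [add_mul, h7] at h6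
        exact h6
      have h8 : (p * (1 + θ ^ 2) - θ) * (1 - θ ^ 2)
          = p * (1 - θ ^ 2) * (1 + θ ^ 2) - θ * (1 - θ ^ 2) := by ring
      rw [h8]
      have h9 := mul_le_mul_of_nonneg_right h5 (show (0:ℝ) ≤ 1 + θ ^ 2 by positivity)
      have h10 : ((θ + θ ^ 3 / 3 + θ ^ 5 / 5 + θ ^ 7 / 7 + θ ^ 9 / 9) * (1 - θ ^ 2)
          + θ ^ 11 / 11) * (1 + θ ^ 2) - θ * (1 - θ ^ 2) = θ * θ ^ 2 * Bh := by
        rw [hBh]; ring
      linarith
    have h4 : 0 ≤ p * (1 + θ ^ 2) - θ := by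
      have : θ ≤ p := by
        have a3 : 0 ≤ θ ^ 3 := by positivity
        have a5 : 0 ≤ θ ^ 5 := by positivity
        have a7 : 0 ≤ θ ^ 7 := by positivity
        have a9 : 0 ≤ θ ^ 9 := by positivity
        linarith
      have : 0 ≤ p * θ ^ 2 := by positivity
      linarith
    have h5 : (θ * (1 + θ ^ 2 / 3 + (θ ^ 2) ^ 2 / 5 + (θ ^ 2) ^ 3 / 7 + (θ ^ 2) ^ 4 / 9)) ^ 3
        ≤ p ^ 3 := by
      apply pow_le_pow_left₀ (by positivity)
      calc θ * (1 + θ ^ 2 / 3 + (θ ^ 2) ^ 2 / 5 + (θ ^ 2) ^ 3 / 7 + (θ ^ 2) ^ 4 / 9)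
          = θ + θ ^ 3 / 3 + θ ^ 5 / 5 + θ ^ 7 / 7 + θ ^ 9 / 9 := by ring
        _ ≤ p := hlow
    -- assemble, after multiplication by `1 - θ ^ 2`
    have h6 : (Real.log (2 * Real.cosh p) - p * θ) ^ 2 ≤ ((1 - θ ^ 2) * w) ^ 2 :=
      pow_le_pow_left₀ hh0 h2 2
    have h7 : (Real.log (2 * Real.cosh p) - p * θ) ^ 2 *
        ((p * (1 + θ ^ 2) - θ) * (1 - θ ^ 2)) ≤ ((1 - θ ^ 2) * w) ^ 2 * (θ * θ ^ 2 * Bh) := by
      apply mul_le_mul h6 h3 (mul_nonneg h4 hlt.le) (by positivity)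
    have h8 : ((1 - θ ^ 2) * w) ^ 2 * (θ * θ ^ 2 * Bh) =
        (1 - θ ^ 2) ^ 2 * (θ * θ ^ 2) * (w ^ 2 * Bh) := by ring
    have h9 : (1 - θ ^ 2) ^ 2 * (θ * θ ^ 2) * (w ^ 2 * Bh) ≤
        (1 - θ ^ 2) ^ 2 * (θ * θ ^ 2) * (2 / 3 * (1 - θ ^ 2) *
          (1 + θ ^ 2 / 3 + (θ ^ 2) ^ 2 / 5 + (θ ^ 2) ^ 3 / 7 + (θ ^ 2) ^ 4 / 9) ^ 3) :=
      mul_le_mul_of_nonneg_left hb (by positivity)
    have h10 : (1 - θ ^ 2) ^ 2 * (θ * θ ^ 2) * (2 / 3 * (1 - θ ^ 2) *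
          (1 + θ ^ 2 / 3 + (θ ^ 2) ^ 2 / 5 + (θ ^ 2) ^ 3 / 7 + (θ ^ 2) ^ 4 / 9) ^ 3) =
        2 / 3 * (1 - θ ^ 2) ^ 2 *
        (θ * (1 + θ ^ 2 / 3 + (θ ^ 2) ^ 2 / 5 + (θ ^ 2) ^ 3 / 7 + (θ ^ 2) ^ 4 / 9)) ^ 3
          * (1 - θ ^ 2) := by ring
    have h11 : 2 / 3 * (1 - θ ^ 2) ^ 2 *
        (θ * (1 + θ ^ 2 / 3 + (θ ^ 2) ^ 2 / 5 + (θ ^ 2) ^ 3 / 7 + (θ ^ 2) ^ 4 / 9)) ^ 3
          * (1 - θ ^ 2) ≤ 2 / 3 * (1 - θ ^ 2) ^ 2 * p ^ 3 * (1 - θ ^ 2) := by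
      apply mul_le_mul_of_nonneg_right _ hlt.le
      apply mul_le_mul_of_nonneg_left h5 (by positivity)
    have h12 : (Real.log (2 * Real.cosh p) - p * θ) ^ 2 * (p * (1 + θ ^ 2) - θ) * (1 - θ ^ 2)
        ≤ 2 / 3 * (1 - θ ^ 2) ^ 2 * p ^ 3 * (1 - θ ^ 2) := by
      calc _ = (Real.log (2 * Real.cosh p) - p * θ) ^ 2 *
        ((p * (1 + θ ^ 2) - θ) * (1 - θ ^ 2)) := by ring
        _ ≤ _ := by linarith
    exact le_of_mul_le_mul_right h12 hlt
  · set e := Real.exp (-(2 * p)) with he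
    have he0 : 0 < e := Real.exp_pos _
    have he1 : e ≤ 0.1354 := by
      have h2 : e ≤ Real.exp (-2) := by
        rw [he]; apply Real.exp_le_exp.2; linarith
      have h3 : Real.exp (-2) * Real.exp 1 ^ 2 = 1 := by
        rw [← Real.exp_nat_mul, ← Real.exp_add]; norm_num
      have h4 := Real.exp_one_gt_d9
      have h5 : (2.7182818283 : ℝ) ^ 2 ≤ Real.exp 1 ^ 2 :=
        pow_le_pow_left₀ (by norm_num) h4.le 2
      have h6 := Real.exp_pos (-2)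
      have h7 : (7.389 : ℝ) ≤ (2.7182818283 : ℝ) ^ 2 := by norm_num
      have h8 : (7.389 : ℝ) ≤ Real.exp 1 ^ 2 := h7.trans h5
      have h9 : Real.exp (-2) * 7.389 ≤ 1 := by
        rw [← h3]; exact mul_le_mul_of_nonneg_left h8 h6.le
      have h10 : Real.exp (-2) ≤ 0.1354 := by
        norm_num at h9 ⊢
        linarith
      exact h2.trans h10
    have hne : (1 + e) ≠ 0 := by positivity
    have hep : Real.exp (-p) = Real.exp p * e := by
      rw [he, ← Real.exp_add]; congr 1; ring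
    have hθ : Real.tanh p = (1 - e) / (1 + e) := by
      rw [Real.tanh_eq_sinh_div_cosh, Real.sinh_eq, Real.cosh_eq, hep]
      have := (Real.exp_pos p).ne'
      field_simp
    have hlog : Real.log (2 * Real.cosh p) = p + Real.log (1 + e) := by
      have : 2 * Real.cosh p = Real.exp p * (1 + e) := by
        rw [Real.cosh_eq, hep]; ring
      rw [this, Real.log_mul (Real.exp_pos p).ne' (by positivity), Real.log_exp]
    have hl : Real.log (1 + e) ≤ e := by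
      have := Real.log_le_sub_one_of_pos (show (0:ℝ) < 1 + e by positivity)
      linarith
    have hl0 : 0 ≤ Real.log (1 + e) := Real.log_nonneg (by linarith)
    have hH : Real.log (2 * Real.cosh p) - p * Real.tanh p =
        (Real.log (1 + e) * (1 + e) + 2 * p * e) / (1 + e) := by
      rw [hlog, hθ]; field_simp; ring
    have hX : Real.log (1 + e) * (1 + e) + 2 * p * e ≤ e * (1 + e + 2 * p) := by
      nlinarith
    have hX0 : 0 ≤ Real.log (1 + e) * (1 + e) + 2 * p * e := by positivity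
    have hY : p * (1 + Real.tanh p ^ 2) - Real.tanh p =
        (2 * p * (1 + e ^ 2) - (1 - e ^ 2)) / (1 + e) ^ 2 := by
      rw [hθ]; field_simp; ring
    have hZ : 1 - Real.tanh p ^ 2 = 4 * e / (1 + e) ^ 2 := by
      rw [hθ]; field_simp; ring
    have hY0 : 0 ≤ 2 * p * (1 + e ^ 2) - (1 - e ^ 2) := by nlinarith [sq_nonneg e]
    rw [hH, hY, hZ]
    have hc := poly_c h1 he0.le he1
    have h2 : (Real.log (1 + e) * (1 + e) + 2 * p * e) ^ 2 ≤ (e * (1 + e + 2 * p)) ^ 2 :=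
      pow_le_pow_left₀ hX0 hX 2
    have h3 : (Real.log (1 + e) * (1 + e) + 2 * p * e) ^ 2 *
        (2 * p * (1 + e ^ 2) - (1 - e ^ 2)) ≤ e ^ 2 * (32 / 3 * p ^ 3) := by
      calc _ ≤ (e * (1 + e + 2 * p)) ^ 2 * (2 * p * (1 + e ^ 2) - (1 - e ^ 2)) :=
            mul_le_mul_of_nonneg_right h2 hY0
        _ = e ^ 2 * ((1 + e + 2 * p) ^ 2 * (2 * p * (1 + e ^ 2) - (1 - e ^ 2))) := by ring
        _ ≤ _ := mul_le_mul_of_nonneg_left hc (by positivity)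
    have e1 : ((Real.log (1 + e) * (1 + e) + 2 * p * e) / (1 + e)) ^ 2 *
        ((2 * p * (1 + e ^ 2) - (1 - e ^ 2)) / (1 + e) ^ 2) =
        ((Real.log (1 + e) * (1 + e) + 2 * p * e) ^ 2 *
        (2 * p * (1 + e ^ 2) - (1 - e ^ 2))) / (1 + e) ^ 4 := by
      field_simp
    have e2 : 2 / 3 * (4 * e / (1 + e) ^ 2) ^ 2 * p ^ 3 =
        (e ^ 2 * (32 / 3 * p ^ 3)) / (1 + e) ^ 4 := by
      field_simp; ring
    rw [e1, e2]
    exact div_le_div_of_nonneg_right h3 (by positivity)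

/-- (R0), in the variable `θ = tanh p` -/
theorem R0 {θ : ℝ} (hθ : θ ∈ Set.Ioo (0 : ℝ) 1) :
    hh θ ^ 2 * (Real.artanh θ * (1 + θ ^ 2) - θ) ≤
      2 / 3 * (1 - θ ^ 2) ^ 2 * Real.artanh θ ^ 3 := by
  have h1 : θ ∈ Set.Ioo (-1 : ℝ) 1 := ⟨by linarith [hθ.1], hθ.2⟩
  have h2 : Real.tanh (Real.artanh θ) = θ := Real.tanh_artanh h1
  have h3 : 0 < Real.artanh θ := Real.artanh_pos hθ
  have h4 := R0_tanh h3
  rw [← hh_tanh, h2] at h4
  exact h4

end Vale.Agent.P322
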