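import Mathlib
import Vale.Agent.Lib.P322.Calc
import Vale.Agent.Lib.P322.R0

/-!
Courtade-Kumar: module S5b, the inequality (S) from (R0) and (R2).
-/

namespace Vale.Agent.P322

open Finset

/-- Padé upper bound for `log (1 + v)` -/
theorem log_one_add_le_pade {v : ℝ} (h0 : 0 ≤ v) :
    Real.log (1 + v) ≤ v * (6 + v) / (6 + 4 * v) := by
  have hmono : MonotoneOn (fun y : ℝ => y * (6 + y) / (6 + 4 * y) - Real.log (1 + y))
      (Set.Ici 0) := by
    have hd : ∀ y : ℝ, 0 ≤ y → HasDerivAt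
        (fun y : ℝ => y * (6 + y) / (6 + 4 * y) - Real.log (1 + y))
        (4 * y ^ 3 / ((6 + 4 * y) ^ 2 * (1 + y))) y := by
      intro y hy
      have h1 : 0 < 6 + 4 * y := by positivity
      have h2 : 0 < 1 + y := by positivity
      have a := (((hasDerivAt_id y).mul ((hasDerivAt_id y).const_add 6)).div
        (((hasDerivAt_id y).const_mul 4).const_add 6) h1.ne').sub
        (((hasDerivAt_id y).const_add 1).log h2.ne')
      refine a.congr_deriv ?_
      simp only [id_eq, Pi.mul_apply]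
      field_simp
      ring
    apply monotoneOn_of_deriv_nonneg (convex_Ici 0)
    · exact fun y hy => (hd y hy).continuousAt.continuousWithinAt
    · intro y hy
      rw [interior_Ici] at hy
      exact (hd y (le_of_lt hy)).differentiableAt.differentiableWithinAt
    · intro y hy
      rw [interior_Ici] at hy
      have hy' : 0 < y := hy
      rw [(hd y hy'.le).deriv]
      positivity
  have := hmono (Set.mem_Ici.2 le_rfl) (Set.mem_Ici.2 h0) h0
  simp only [zero_mul, zero_div, add_zero, Real.log_one, sub_zero] at this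
  linarith

/-- Padé lower bound for `- log (1 - v)` -/
theorem pade_le_neg_log_one_sub {v : ℝ} (h0 : 0 ≤ v) (h1 : v < 1) :
    v * (6 - v) / (6 - 4 * v) ≤ -Real.log (1 - v) := by
  have hmono : MonotoneOn (fun y : ℝ => -Real.log (1 - y) - y * (6 - y) / (6 - 4 * y))
      (Set.Ico 0 1) := by
    have hd : ∀ y : ℝ, y ∈ Set.Ico (0:ℝ) 1 → HasDerivAt
        (fun y : ℝ => -Real.log (1 - y) - y * (6 - y) / (6 - 4 * y))
        (4 * y ^ 3 / ((6 - 4 * y) ^ 2 * (1 - y))) y := by
      intro y hy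
      have h1 : 0 < 6 - 4 * y := by linarith [hy.2]
      have h2 : 0 < 1 - y := by linarith [hy.2]
      have a := (((hasDerivAt_id y).const_sub 1).log h2.ne').neg.sub
        (((hasDerivAt_id y).mul ((hasDerivAt_id y).const_sub 6)).div
        (((hasDerivAt_id y).const_mul 4).const_sub 6) h1.ne')
      refine a.congr_deriv ?_
      simp only [id_eq, Pi.mul_apply]
      rw [neg_div', div_sub_div _ _ h2.ne' (pow_ne_zero 2 h1.ne'),
        div_eq_div_iff (by positivity) (by positivity)]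
      ring
    apply monotoneOn_of_deriv_nonneg (convex_Ico 0 1)
    · exact fun y hy => (hd y hy).continuousAt.continuousWithinAt
    · intro y hy
      rw [interior_Ico] at hy
      exact (hd y ⟨hy.1.le, hy.2⟩).differentiableAt.differentiableWithinAt
    · intro y hy
      rw [interior_Ico] at hy
      have hy' : 0 < y := hy.1
      have hy2 : y < 1 := hy.2
      rw [(hd y ⟨hy.1.le, hy.2⟩).deriv]
      have : 0 < 1 - y := by linarith
      have h6 : 0 < 6 - 4 * y := by linarith
      positivity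
  have := hmono (show (0:ℝ) ∈ Set.Ico (0:ℝ) 1 from ⟨le_rfl, one_pos⟩)
    (show v ∈ Set.Ico (0:ℝ) 1 from ⟨h0, h1⟩) h0
  simp only [zero_mul, zero_div, sub_zero, Real.log_one, neg_zero] at this
  linarith

/-- (R2) at the end point `f = v` -/
theorem R2_end {v : ℝ} (h0 : 0 < v) (h1 : v < 1) :
    8 / 3 * v ^ 2 / (1 + v) ^ 2 * (-Real.log (1 - v)) ≤ -Real.log (1 - v ^ 2) := by
  have ha := log_one_add_le_pade h0.le
  have hb := pade_le_neg_log_one_sub h0.le h1
  have h2 : 0 < 1 - v := by linarith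
  have h3 : 0 < 1 + v := by linarith
  have h4 : 0 < 6 - 4 * v := by linarith
  have h5 : 0 < 6 + 4 * v := by linarith
  have e : Real.log (1 - v ^ 2) = Real.log (1 - v) + Real.log (1 + v) := by
    rw [← Real.log_mul h2.ne' h3.ne']; congr 1; ring
  rw [e]
  have h6 : 0 < 1 + 2 * v - 5 / 3 * v ^ 2 := by nlinarith
  have key : (1 + v) ^ 2 * Real.log (1 + v) ≤ (1 + 2 * v - 5 / 3 * v ^ 2) * (-Real.log (1 - v)) := by
    calc (1 + v) ^ 2 * Real.log (1 + v) ≤ (1 + v) ^ 2 * (v * (6 + v) / (6 + 4 * v)) :=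
          mul_le_mul_of_nonneg_left ha (by positivity)
      _ ≤ (1 + 2 * v - 5 / 3 * v ^ 2) * (v * (6 - v) / (6 - 4 * v)) := by
          rw [← mul_div_assoc, ← mul_div_assoc, div_le_div_iff₀ h5 h4]
          have : (1 + 2 * v - 5 / 3 * v ^ 2) * (v * (6 - v)) * (6 + 4 * v) -
              (1 + v) ^ 2 * (v * (6 + v)) * (6 - 4 * v) =
              v * (12 * v * (1 - v) * (3 + v) + 32 / 3 * v ^ 4) := by ring
          have : 0 ≤ v * (12 * v * (1 - v) * (3 + v) + 32 / 3 * v ^ 4) := by positivity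
          linarith
      _ ≤ _ := mul_le_mul_of_nonneg_left hb h6.le
  have h7 : 8 / 3 * v ^ 2 / (1 + v) ^ 2 = 1 - (1 + 2 * v - 5 / 3 * v ^ 2) / (1 + v) ^ 2 := by
    field_simp; ring
  have h8 : Real.log (1 + v) ≤ (1 + 2 * v - 5 / 3 * v ^ 2) / (1 + v) ^ 2 * (-Real.log (1 - v)) := by
    rw [div_mul_eq_mul_div, le_div_iff₀ (by positivity)]
    linarith
  rw [h7, sub_mul]
  linarith

/-- (R2) -/
theorem R2 {v f : ℝ} (h0 : 0 < v) (h1 : v ≤ 1) (hf0 : 0 < f) (hfv : f < v) :
    8 / 3 * v ^ 2 / (1 + v) ^ 2 * (-Real.log (1 - f)) ≤ -Real.log (1 - v * f) := by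
  rcases h1.lt_or_eq with h1 | h1
  · -- concavity of `x ^ l`
    have h2 : 0 < 1 - v := by linarith
    have hlv : Real.log (1 - v) < 0 := Real.log_neg h2 (by linarith)
    have hlf : Real.log (1 - f) < 0 := Real.log_neg (by linarith) (by linarith)
    set l := Real.log (1 - f) / Real.log (1 - v) with hl
    have hl0 : 0 ≤ l := div_nonneg_of_nonpos hlf.le hlv.le
    have hl1 : l ≤ 1 := by
      rw [hl, div_le_one_of_neg hlv]
      exact Real.log_le_log h2 (by linarith)
    have hp : (1 - v) ^ l = 1 - f := by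
      rw [Real.rpow_def_of_pos h2, hl, mul_div_cancel₀ _ hlv.ne, Real.exp_log (by linarith)]
    have hc := (Real.concaveOn_rpow hl0 hl1).2 (Set.mem_Ici.2 (zero_le_one (α := ℝ)))
      (Set.mem_Ici.2 h2.le) h2.le h0.le (by ring)
    simp only [smul_eq_mul, Real.one_rpow, hp, mul_one] at hc
    have e1 : 1 - v + v * (1 - v) = 1 - v ^ 2 := by ring
    have e2 : 1 - v + v * (1 - f) = 1 - v * f := by ring
    rw [e1, e2] at hc
    have h3 : 0 < 1 - v ^ 2 := by nlinarith
    have h4 : 0 < 1 - v * f := by nlinarith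
    have h5 : Real.log (1 - v * f) ≤ l * Real.log (1 - v ^ 2) := by
      rw [← Real.log_rpow h3]
      exact Real.log_le_log h4 hc
    have h6 := R2_end h0 h1
    have h7 := mul_le_mul_of_nonneg_left h6 hl0
    have h8 : l * Real.log (1 - v) = Real.log (1 - f) := by
      rw [hl, div_mul_cancel₀ _ hlv.ne]
    have h9 : l * (8 / 3 * v ^ 2 / (1 + v) ^ 2 * (-Real.log (1 - v))) =
        8 / 3 * v ^ 2 / (1 + v) ^ 2 * (-Real.log (1 - f)) := by
      rw [← h8]; ring
    rw [h9] at h7
    linarith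
  · subst h1
    have hlf : Real.log (1 - f) < 0 := Real.log_neg (by linarith) (by linarith)
    rw [one_mul]
    norm_num
    linarith

/-- the Lipschitz form of (R0) -/
theorem rhoR_log_monotoneOn :
    MonotoneOn (fun t => rhoR t + 2 / 3 * Real.log t) (Set.Ioc 0 (Real.log 2)) := by
  apply monotoneOn_of_deriv_nonneg (convex_Ioc _ _)
  · apply ContinuousOn.add
    · exact rhoR_continuousOn.mono (fun t ht => ht.1)
    · apply ContinuousOn.mul continuousOn_const
      exact Real.continuousOn_log.mono (fun t ht => ne_of_gt ht.1)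
  · intro t ht
    rw [interior_Ioc] at ht
    exact ((rhoR_hasDerivAt ht.1 ht.2).add
      ((Real.hasDerivAt_log ht.1.ne').const_mul (2 / 3))).differentiableAt.differentiableWithinAt
  · intro t ht
    rw [interior_Ioc] at ht
    have hd := (rhoR_hasDerivAt ht.1 ht.2).add
      ((Real.hasDerivAt_log ht.1.ne').const_mul (2 / 3))
    have : (fun t => rhoR t + 2 / 3 * Real.log t) = rhoR + fun t => 2 / 3 * Real.log t := rfl
    rw [this, hd.deriv]
    have hJ0 : 0 < Real.log 2 - t := by linarith [ht.2]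
    have hJ1 : Real.log 2 - t < Real.log 2 := by linarith [ht.1]
    have hx0 := xi_pos hJ0 hJ1
    have hx1 := (xi_mem (Real.log 2 - t)).2
    set x := xi (Real.log 2 - t) with hx
    have hhx : hh x = t := by
      have := ph_xi hJ0.le hJ1
      rw [← hx] at this
      unfold ph at this
      linarith
    have hR := R0 (θ := x) ⟨hx0, hx1⟩
    rw [hhx] at hR
    have hp := one_sub_sq_pos (x := x) ⟨by linarith, hx1⟩
    have ha := artanh_pos' hx0 hx1
    have hK : t * Rdd x ≤ 2 / 3 * t⁻¹ := by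
      unfold Rdd
      rw [← div_eq_mul_inv, mul_div_assoc', div_le_div_iff₀ (by positivity) ht.1]
      nlinarith
    linarith

theorem rhoR_lip {s t : ℝ} (hs : 0 < s) (hst : s ≤ t) :
    rhoR s - rhoR t ≤ 2 / 3 * (Real.log t - Real.log s) := by
  have ht : 0 < t := by linarith
  rcases le_total t (Real.log 2) with h | h
  · have := rhoR_log_monotoneOn (show s ∈ Set.Ioc (0:ℝ) (Real.log 2) from ⟨hs, hst.trans h⟩)
      (show t ∈ Set.Ioc (0:ℝ) (Real.log 2) from ⟨ht, h⟩) hst
    simp only at this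
    linarith
  · rcases le_total s (Real.log 2) with h2 | h2
    · have := rhoR_log_monotoneOn (show s ∈ Set.Ioc (0:ℝ) (Real.log 2) from ⟨hs, h2⟩)
        (show Real.log 2 ∈ Set.Ioc (0:ℝ) (Real.log 2) from ⟨log_two_pos', le_rfl⟩) h2
      simp only at this
      rw [rhoR_of_ge le_rfl] at this
      rw [rhoR_of_ge h]
      have := Real.log_le_log log_two_pos' h
      linarith
    · rw [rhoR_of_ge h, rhoR_of_ge h2]
      have := Real.log_le_log hs hst
      linarith

/-- the inequality (S) -/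
theorem S_main {v x T : ℝ} (hv0 : 0 < v) (hv1 : v ≤ 1) (hx0 : 0 < x) (hx1 : x < 1) (hT : 0 < T) :
    0 ≤ -Real.log (1 - (v * x) ^ 2)
      - (2 * v / (1 + v)) ^ 2 * rhoR (T / (1 - (1 - 2 * v / (1 + v)) ^ 2))
      + ((2 * v / (1 + v)) ^ 2 + (2 * v / (1 + v) * x) ^ 2) *
        rhoR (T / (1 - (1 - 2 * v / (1 + v)) ^ 2 - (2 * v / (1 + v) * x) ^ 2)) := by
  have hv : 0 < 1 + v := by linarith
  have hf0 : 0 < v * x ^ 2 := by positivity
  have hx2 : x ^ 2 < 1 := by nlinarith
  have hfv : v * x ^ 2 < v := by nlinarith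
  set s0 := 1 - (1 - 2 * v / (1 + v)) ^ 2 with hs0
  set s1 := 1 - (1 - 2 * v / (1 + v)) ^ 2 - (2 * v / (1 + v) * x) ^ 2 with hs1
  have es0 : s0 = 4 * v / (1 + v) ^ 2 := by rw [hs0]; field_simp; ring
  have es1 : s1 = s0 * (1 - v * x ^ 2) := by
    have : s1 = s0 - (2 * v / (1 + v) * x) ^ 2 := rfl
    rw [this, es0]; field_simp; ring
  have hs0p : 0 < s0 := by rw [es0]; positivity
  have hfp : 0 < 1 - v * x ^ 2 := by linarith
  have hs1p : 0 < s1 := by rw [es1]; positivity
  have hle : T / s0 ≤ T / s1 := by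
    apply div_le_div_of_nonneg_left hT.le hs1p
    rw [es1]; nlinarith
  have hlip := rhoR_lip (s := T / s0) (t := T / s1) (by positivity) hle
  rw [Real.log_div hT.ne' hs0p.ne', Real.log_div hT.ne' hs1p.ne', es1,
    Real.log_mul hs0p.ne' hfp.ne', ← es1] at hlip
  have hR2 := R2 hv0 hv1 hf0 hfv
  have hn := rhoR_nonneg (t := T / s1) (by positivity)
  have h1 := mul_le_mul_of_nonneg_left hlip (show 0 ≤ (2 * v / (1 + v)) ^ 2 by positivity)
  have h2 : 0 ≤ (2 * v / (1 + v) * x) ^ 2 * rhoR (T / s1) := by positivity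
  have e1 : v * (v * x ^ 2) = (v * x) ^ 2 := by ring
  rw [e1] at hR2
  have e2 : 8 / 3 * v ^ 2 / (1 + v) ^ 2 = 2 / 3 * (2 * v / (1 + v)) ^ 2 := by
    field_simp; ring
  rw [e2] at hR2
  have e3 : (2 * v / (1 + v)) ^ 2 * (2 / 3 * (Real.log T - (Real.log s0 + Real.log (1 - v * x ^ 2))
      - (Real.log T - Real.log s0))) = 2 / 3 * (2 * v / (1 + v)) ^ 2 * -Real.log (1 - v * x ^ 2) := by
    ring
  rw [e3] at h1
  nlinarith

end Vale.Agent.P322
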