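import Mathlib
import Vale.Agent.Lib.P322.Calc
import Vale.Agent.Lib.P322.Fix

/-!
Courtade-Kumar, module S4: the second member dominates `Ψ(J)` for `J ≥ J₁ = φ(tanh 1)`.
-/

namespace Vale.Agent.P322

open Finset

/-- abstract form of (Q): one convexity line. -/
theorem Q_core {R R' : ℝ → ℝ} {L J1 c0 : ℝ} (hmono : MonotoneOn R (Set.Iio L))
    (htan : ∀ x < L, ∀ y < L, R x + R' x * (y - x) ≤ R y)
    (hR'mono : MonotoneOn R' (Set.Iio L)) (hc : c0 ≤ J1)
    (hJ1 : R J1 ≤ (J1 - c0) * R' J1)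
    {J Jm t : ℝ} (ht0 : 0 ≤ t) (ht1 : t < 1) (hJm : Jm ≤ c0 * t) (hJ : J1 ≤ J)
    (hlt : (J - Jm) / (1 - t) < L) (hJL : J < L) :
    R J ≤ (1 - t) * R ((J - Jm) / (1 - t)) := by
  have h1t : 0 < 1 - t := by linarith
  have hJ1L : J1 < L := lt_of_le_of_lt hJ hJL
  have hle : (J - c0 * t) / (1 - t) ≤ (J - Jm) / (1 - t) := by
    gcongr
  have hlt' : (J - c0 * t) / (1 - t) < L := lt_of_le_of_lt hle hlt
  have h1 : R ((J - c0 * t) / (1 - t)) ≤ R ((J - Jm) / (1 - t)) := hmono hlt' hlt hle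
  have h2 := htan J hJL _ hlt'
  have h3 : R J ≤ (J - c0) * R' J := by
    have h4 := htan J hJL J1 hJ1L
    have h5 : R' J1 ≤ R' J := hR'mono hJ1L hJL hJ
    have h6 : (J1 - c0) * R' J1 ≤ (J1 - c0) * R' J :=
      mul_le_mul_of_nonneg_left h5 (by linarith)
    nlinarith
  have h7 : (1 - t) * (R J + R' J * ((J - c0 * t) / (1 - t) - J))
      = (1 - t) * R J + t * ((J - c0) * R' J) := by
    field_simp
    ring
  have h8 : (1 - t) * (R J + R' J * ((J - c0 * t) / (1 - t) - J))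
      ≤ (1 - t) * R ((J - Jm) / (1 - t)) :=
    mul_le_mul_of_nonneg_left (h2.trans h1) h1t.le
  have h9 : t * R J ≤ t * ((J - c0) * R' J) := mul_le_mul_of_nonneg_left h3 ht0
  nlinarith

theorem ph_tanh_one : ph (Real.tanh 1) = Real.tanh 1 - Real.log (Real.cosh 1) := by
  unfold ph
  rw [hh_tanh, Real.log_mul (by norm_num) (Real.cosh_pos 1).ne']
  ring

theorem cosh_one_lt : Real.cosh 1 < 1.5431 := by
  rw [Real.cosh_eq]
  have h1 := Real.exp_one_lt_d9
  have h2 := Real.exp_one_gt_d9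
  have h3 : Real.exp (-1) < 0.36788 := by
    rw [Real.exp_neg]
    rw [inv_lt_comm₀ (Real.exp_pos 1) (by norm_num)]
    norm_num
    linarith
  linarith

theorem cosh_one_gt : 1.543 < Real.cosh 1 := by
  rw [Real.cosh_eq]
  have h1 := Real.exp_one_lt_d9
  have h2 := Real.exp_one_gt_d9
  have h3 : 0.367879 < Real.exp (-1) := by
    rw [Real.exp_neg]
    rw [lt_inv_comm₀ (by norm_num) (Real.exp_pos 1)]
    norm_num
    linarith
  linarith

theorem sinh_one_gt : 1.1752 < Real.sinh 1 := by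
  rw [Real.sinh_eq]
  have h1 := Real.exp_one_lt_d9
  have h2 := Real.exp_one_gt_d9
  have h3 : Real.exp (-1) < 0.3678795 := by
    rw [Real.exp_neg]
    rw [inv_lt_comm₀ (Real.exp_pos 1) (by norm_num)]
    norm_num
    linarith
  linarith

theorem sinh_one_lt : Real.sinh 1 < 1.17521 := by
  rw [Real.sinh_eq]
  have h1 := Real.exp_one_lt_d9
  have h3 : 0.367879 < Real.exp (-1) := by
    rw [Real.exp_neg]
    rw [lt_inv_comm₀ (by norm_num) (Real.exp_pos 1)]
    norm_num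
    linarith
  linarith

theorem log_cosh_one_lt : Real.log (Real.cosh 1) < 0.4342 := by
  rw [Real.log_lt_iff_lt_exp (Real.cosh_pos 1)]
  have h := Real.sum_le_exp_of_nonneg (x := 0.4342) (by norm_num) 5
  have h2 := cosh_one_lt
  norm_num [Finset.sum_range_succ, Nat.factorial] at h
  linarith

theorem tanh_one_gt : 0.76159 < Real.tanh 1 := by
  rw [Real.tanh_eq_sinh_div_cosh, lt_div_iff₀ (Real.cosh_pos 1)]
  have h1 := Real.exp_one_lt_d9
  have h2 := Real.exp_one_gt_d9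
  rw [Real.cosh_eq, Real.sinh_eq]
  have h3 : Real.exp (-1) < 0.3678795 := by
    rw [Real.exp_neg]
    rw [inv_lt_comm₀ (Real.exp_pos 1) (by norm_num)]
    norm_num
    linarith
  linarith

theorem artanh_tanh_one : Real.artanh (Real.tanh 1) = 1 := Real.artanh_tanh 1

theorem mu_tanh_one : mu (Real.tanh 1) = Real.sinh 1 * Real.cosh 1 - 1 := by
  unfold mu
  have h0 : Real.tanh 1 ≠ 0 := by
    have := tanh_one_gt
    intro h
    rw [h] at this
    norm_num at this
  rw [if_neg h0, artanh_tanh_one, Real.tanh_eq_sinh_div_cosh]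
  have hc := (Real.cosh_pos 1).ne'
  have hs := Real.cosh_sq 1
  have h1 : 1 - (Real.sinh 1 / Real.cosh 1) ^ 2 = 1 / Real.cosh 1 ^ 2 := by
    field_simp
    linarith
  rw [h1]
  field_simp

/-- the numerical inequality at `J₁` -/
theorem Q_num : kk (Real.tanh 1) - 2 * ph (Real.tanh 1)
    ≤ (ph (Real.tanh 1) - (Real.log 2 - 1 / 2)) * mu (Real.tanh 1) := by
  rw [mu_tanh_one, ph_tanh_one]
  unfold kk
  rw [artanh_tanh_one]
  have h1 := tanh_one_gt
  have h2 := log_cosh_one_lt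
  have h3 := sinh_one_gt
  have h4 := cosh_one_gt
  have h5 := Real.log_two_lt_d9
  have h6 : 1.1752 * 1.543 ≤ Real.sinh 1 * Real.cosh 1 := by
    have := Real.cosh_pos 1
    nlinarith
  set T := Real.tanh 1
  set C := Real.log (Real.cosh 1)
  set P := Real.sinh 1 * Real.cosh 1
  have h7 : 0.76159 - 0.4342 - (0.6931471808 - 1 / 2) ≤ T - C - (Real.log 2 - 1 / 2) := by
    linarith
  have h8 : (1.1752 * 1.543 - 1) * (T - C - (Real.log 2 - 1 / 2))
      ≤ (T - C - (Real.log 2 - 1 / 2)) * (P - 1) := by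
    have h9 : 0 ≤ T - C - (Real.log 2 - 1 / 2) := by
      have : (0:ℝ) ≤ 0.76159 - 0.4342 - (0.6931471808 - 1 / 2) := by norm_num
      linarith
    nlinarith
  norm_num at h7 h8 ⊢
  linarith

theorem c0_le_J1 : Real.log 2 - 1 / 2 ≤ ph (Real.tanh 1) := by
  rw [ph_tanh_one]
  have h1 := tanh_one_gt
  have h2 := log_cosh_one_lt
  have h5 := Real.log_two_lt_d9
  linarith

/-- (Q): the second member dominates `Ψ(J)` beyond the cut `J₁ = φ(tanh 1)`. -/
theorem Q_main {m T : ℝ} (hm : m ∈ Set.Ioo (-1 : ℝ) 1) (hT : 0 < T)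
    (hJ : ph (Real.tanh 1) ≤ hh m - T) :
    Psi (hh m - T) ≤ 2 * (hh m - T) + PP (1 - m ^ 2) T := by
  have hv : RR (ph (Real.tanh 1)) = kk (Real.tanh 1) - 2 * ph (Real.tanh 1) :=
    RR_ph (by linarith [tanh_one_gt]) (tanh_mem 1).2
  have hv' : RR' (ph (Real.tanh 1)) = mu (Real.tanh 1) := by
    unfold RR'
    rw [xi_ph (by linarith [tanh_one_gt]) (tanh_mem 1).2]
  have hm2 : m ^ 2 < 1 := by
    have := hm.1; have := hm.2; nlinarith
  have hJL : hh m - T < Real.log 2 := by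
    have := hh_le m; linarith
  have hsq := sq_div_two_le (m := m) ⟨hm.1.le, hm.2.le⟩
  have h1t : 0 < 1 - m ^ 2 := by linarith
  have key := Q_core (R := RR) (R' := RR') (L := Real.log 2) (J1 := ph (Real.tanh 1))
    (c0 := Real.log 2 - 1 / 2) RR_monotoneOn (fun x hx y hy => RR_tangent hx hy)
    RR'_monotoneOn c0_le_J1
    (by rw [hv, hv']; exact Q_num) (J := hh m - T) (Jm := hh m - (1 - m ^ 2) * Real.log 2)
    (t := m ^ 2) (sq_nonneg m) hm2 (by nlinarith) hJ
    (by rw [div_lt_iff₀ h1t]; nlinarith) hJL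
  unfold Psi PP
  have e : (hh m - T - (hh m - (1 - m ^ 2) * Real.log 2)) / (1 - m ^ 2)
      = Real.log 2 - T / (1 - m ^ 2) := by
    field_simp
    ring
  rw [e] at key
  linarith

end Vale.Agent.P322
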