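import Mathlib
import Vale.Agent.Lib.P322.Calc
import Vale.Agent.Lib.P322.Twop

/-!
Courtade-Kumar: the inequalities at `n = 1`.
`N1`: `h(m) - (h(a)+h(b))/2 ≤ δ φ(tanh d)/tanh d`, `d = (artanh a - artanh b)/2`, `δ = (a-b)/2`.
Consequences: `Psi g ≤ K`, `2 g + P(1-m², (h a+h b)/2) ≤ K`, `(1-m²) h(tanh d) ≤ (h a+h b)/2`.
-/

namespace Vale.Agent.P322

open Finset

/-- `F(s) = s - coth s log cosh s = φ(tanh s)/tanh s` -/
noncomputable def FN (s : ℝ) : ℝ := s - Real.cosh s / Real.sinh s * Real.log (Real.cosh s)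

theorem ph_tanh (v : ℝ) : ph (Real.tanh v) = v * Real.tanh v - Real.log (Real.cosh v) := by
  unfold ph
  rw [hh_tanh, Real.log_mul (by norm_num) (Real.cosh_pos v).ne']
  ring

theorem FN_eq {s : ℝ} (hs : 0 < s) : FN s = ph (Real.tanh s) / Real.tanh s := by
  have h1 := Real.sinh_pos_iff.mpr hs
  have h2 := Real.cosh_pos s
  rw [ph_tanh, FN, Real.tanh_eq_sinh_div_cosh]
  field_simp

theorem FN_hasDerivAt {s : ℝ} (hs : 0 < s) :
    HasDerivAt FN (Real.log (Real.cosh s) / Real.sinh s ^ 2) s := by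
  have h1 := Real.sinh_pos_iff.mpr hs
  have h2 := Real.cosh_pos s
  have hc : HasDerivAt (fun s : ℝ => Real.log (Real.cosh s))
      (Real.sinh s / Real.cosh s) s := (Real.hasDerivAt_cosh s).log h2.ne'
  have hd : HasDerivAt (fun s : ℝ => Real.cosh s / Real.sinh s)
      ((Real.sinh s * Real.sinh s - Real.cosh s * Real.cosh s) / Real.sinh s ^ 2) s :=
    (Real.hasDerivAt_cosh s).div (Real.hasDerivAt_sinh s) h1.ne'
  have h3 := (hasDerivAt_id s).sub (hd.mul hc)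
  refine HasDerivAt.congr_deriv (f := FN) h3 ?_
  have h4 : Real.cosh s ^ 2 = Real.sinh s ^ 2 + 1 := Real.cosh_sq s
  have h5 : Real.sinh s * Real.sinh s - Real.cosh s * Real.cosh s = -1 := by nlinarith
  rw [h5]
  field_simp
  ring

theorem log_one_add_div_anti {u v : ℝ} (hu : 0 < u) (huv : u ≤ v) :
    Real.log (1 + v) / v ≤ Real.log (1 + u) / u := by
  have hv : 0 < v := lt_of_lt_of_le hu huv
  have p1 : 0 ≤ 1 - u / v := by rw [sub_nonneg, div_le_one hv]; exact huv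
  have p2 : 0 ≤ u / v := by positivity
  have hc := strictConcaveOn_log_Ioi.concaveOn.2 (Set.mem_Ioi.2 (one_pos : (0:ℝ) < 1))
    (Set.mem_Ioi.2 (by linarith : (0:ℝ) < 1 + v)) p1 p2 (by ring)
  simp only [smul_eq_mul, Real.log_one, mul_zero, zero_add] at hc
  rw [show (1 - u / v) * 1 + u / v * (1 + v) = 1 + u by field_simp; ring] at hc
  rw [div_le_div_iff₀ hv hu]
  rw [div_mul_eq_mul_div, div_le_iff₀ hv] at hc
  linarith

theorem FN'_antitoneOn : AntitoneOn (fun s => Real.log (Real.cosh s) / Real.sinh s ^ 2)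
    (Set.Ioi 0) := by
  intro s hs t ht hst
  have hs' : 0 < s := hs
  have ht' : 0 < t := ht
  have h1 := Real.sinh_pos_iff.mpr hs'
  have h2 : Real.sinh s ≤ Real.sinh t := Real.sinh_le_sinh.2 hst
  have h3 : Real.sinh s ^ 2 ≤ Real.sinh t ^ 2 := pow_le_pow_left₀ h1.le h2 2
  have h4 := log_one_add_div_anti (pow_pos h1 2) h3
  have e : ∀ r : ℝ, Real.log (1 + Real.sinh r ^ 2) = 2 * Real.log (Real.cosh r) := by
    intro r
    rw [add_comm, ← Real.cosh_sq, Real.log_pow]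
    norm_num
  rw [e, e, mul_div_assoc, mul_div_assoc] at h4
  linarith

theorem FN_concaveOn : ConcaveOn ℝ (Set.Ioi 0) FN := by
  apply AntitoneOn.concaveOn_of_deriv (convex_Ioi 0)
  · intro s hs
    exact (FN_hasDerivAt hs).continuousAt.continuousWithinAt
  · intro s hs
    rw [interior_Ioi] at hs
    exact (FN_hasDerivAt hs).differentiableAt.differentiableWithinAt
  · rw [interior_Ioi]
    intro s hs t ht hst
    rw [(FN_hasDerivAt hs).deriv, (FN_hasDerivAt ht).deriv]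
    exact FN'_antitoneOn hs ht hst

theorem FN_mid {s t : ℝ} (hs : 0 < s) (ht : 0 < t) : FN s + FN t ≤ 2 * FN ((s + t) / 2) := by
  have h := FN_concaveOn.2 (Set.mem_Ioi.2 hs) (Set.mem_Ioi.2 ht)
    (by norm_num : (0:ℝ) ≤ 1 / 2) (by norm_num : (0:ℝ) ≤ 1 / 2) (by norm_num)
  simp only [smul_eq_mul] at h
  rw [show 1 / 2 * s + 1 / 2 * t = (s + t) / 2 by ring] at h
  linarith

/-! ### side identities -/

theorem ph_eq_logs {x : ℝ} (hx : x ∈ Set.Ioo (-1 : ℝ) 1) :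
    ph x = ((1 + x) * Real.log (1 + x) + (1 - x) * Real.log (1 - x)) / 2 := by
  have h1 : 0 < 1 + x := by linarith [hx.1]
  have h2 : 0 < 1 - x := by linarith [hx.2]
  unfold ph hh Real.binEntropy
  rw [Real.log_inv, Real.log_inv, show 1 - (1 + x) / 2 = (1 - x) / 2 by ring,
    Real.log_div h1.ne' (by norm_num), Real.log_div h2.ne' (by norm_num)]
  ring

theorem one_add_div_aux {u v w : ℝ} (hu : u ≠ 0) (h : u + v = w) : 1 + v / u = w / u := by
  rw [← h]; field_simp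

theorem one_sub_div_aux {u v w : ℝ} (hu : u ≠ 0) (h : u - v = w) : 1 - v / u = w / u := by
  rw [← h]; field_simp

theorem side_aux3 {u p q l m : ℝ} (hu : u ≠ 0) :
    u * ((p / u * l + q / u * m) / 2) = (p * l + q * m) / 2 := by
  field_simp

theorem side_aux4 {u v : ℝ} (hu : u ≠ 0) : v = u * (v / u) := by field_simp

theorem side_aux5 {m δ : ℝ} (h1 : 1 - m ≠ 0) (h2 : 1 + m ≠ 0) :
    δ = (1 - m ^ 2) * ((δ / (1 - m) + δ / (1 + m)) / 2) := by
  rw [show 1 - m ^ 2 = (1 - m) * (1 + m) by ring]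
  field_simp
  ring

/-- data of the two sides -/
theorem side_mem {a b : ℝ} (ha : a ∈ Set.Ioo (-1 : ℝ) 1) (hb : b ∈ Set.Ioo (-1 : ℝ) 1)
    (hab : b < a) :
    (a - b) / 2 / (1 - (a + b) / 2) ∈ Set.Ioo (0 : ℝ) 1 ∧
      (a - b) / 2 / (1 + (a + b) / 2) ∈ Set.Ioo (0 : ℝ) 1 := by
  have h1 : 0 < 1 - (a + b) / 2 := by linarith [ha.2, hb.2]
  have h2 : 0 < 1 + (a + b) / 2 := by linarith [ha.1, hb.1]
  have h3 : 0 < (a - b) / 2 := by linarith
  refine ⟨⟨by positivity, ?_⟩, ⟨by positivity, ?_⟩⟩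
  · rw [div_lt_one h1]; linarith [ha.2]
  · rw [div_lt_one h2]; linarith [hb.1]

theorem side_ph {a b : ℝ} (ha : a ∈ Set.Ioo (-1 : ℝ) 1) (hb : b ∈ Set.Ioo (-1 : ℝ) 1)
    (hab : b < a) :
    hh ((a + b) / 2) - (hh a + hh b) / 2 =
      ((1 - (a + b) / 2) * ph ((a - b) / 2 / (1 - (a + b) / 2)) +
        (1 + (a + b) / 2) * ph ((a - b) / 2 / (1 + (a + b) / 2))) / 2 := by
  obtain ⟨hx, hy⟩ := side_mem ha hb hab
  have h1 : 0 < 1 - (a + b) / 2 := by linarith [ha.2, hb.2]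
  have h2 : 0 < 1 + (a + b) / 2 := by linarith [ha.1, hb.1]
  have hm : (a + b) / 2 ∈ Set.Ioo (-1 : ℝ) 1 := ⟨by linarith, by linarith⟩
  have e0 : hh ((a + b) / 2) - (hh a + hh b) / 2 = (ph a + ph b) / 2 - ph ((a + b) / 2) := by
    unfold ph; ring
  rw [e0, ph_eq_logs ha, ph_eq_logs hb, ph_eq_logs hm,
    ph_eq_logs ⟨by linarith [hx.1], hx.2⟩, ph_eq_logs ⟨by linarith [hy.1], hy.2⟩]
  have a1 : 0 < 1 + a := by linarith [ha.1]
  have a2 : 0 < 1 - a := by linarith [ha.2]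
  have b1 : 0 < 1 + b := by linarith [hb.1]
  have b2 : 0 < 1 - b := by linarith [hb.2]
  have x1 : 1 + (a - b) / 2 / (1 - (a + b) / 2) = (1 - b) / (1 - (a + b) / 2) :=
    one_add_div_aux h1.ne' (by ring)
  have x2 : 1 - (a - b) / 2 / (1 - (a + b) / 2) = (1 - a) / (1 - (a + b) / 2) :=
    one_sub_div_aux h1.ne' (by ring)
  have y1 : 1 + (a - b) / 2 / (1 + (a + b) / 2) = (1 + a) / (1 + (a + b) / 2) :=
    one_add_div_aux h2.ne' (by ring)
  have y2 : 1 - (a - b) / 2 / (1 + (a + b) / 2) = (1 + b) / (1 + (a + b) / 2) :=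
    one_sub_div_aux h2.ne' (by ring)
  rw [x1, x2, y1, y2, Real.log_div a2.ne' h1.ne', Real.log_div b2.ne' h1.ne',
    Real.log_div a1.ne' h2.ne', Real.log_div b1.ne' h2.ne']
  have s1 : ∀ l m : ℝ, (1 - (a + b) / 2) * (((1 - b) / (1 - (a + b) / 2) * l +
      (1 - a) / (1 - (a + b) / 2) * m) / 2) = ((1 - b) * l + (1 - a) * m) / 2 := by
    intro l m; exact side_aux3 h1.ne'
  have s2 : ∀ l m : ℝ, (1 + (a + b) / 2) * (((1 + a) / (1 + (a + b) / 2) * l +
      (1 + b) / (1 + (a + b) / 2) * m) / 2) = ((1 + a) * l + (1 + b) * m) / 2 := by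
    intro l m; exact side_aux3 h2.ne'
  rw [s1, s2]
  ring

theorem side_artanh {a b : ℝ} (ha : a ∈ Set.Ioo (-1 : ℝ) 1) (hb : b ∈ Set.Ioo (-1 : ℝ) 1)
    (hab : b < a) :
    Real.artanh ((a - b) / 2 / (1 - (a + b) / 2)) + Real.artanh ((a - b) / 2 / (1 + (a + b) / 2))
      = Real.artanh a - Real.artanh b := by
  obtain ⟨hx, hy⟩ := side_mem ha hb hab
  have h1 : 0 < 1 - (a + b) / 2 := by linarith [ha.2, hb.2]
  have h2 : 0 < 1 + (a + b) / 2 := by linarith [ha.1, hb.1]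
  have a1 : 0 < 1 + a := by linarith [ha.1]
  have a2 : 0 < 1 - a := by linarith [ha.2]
  have b1 : 0 < 1 + b := by linarith [hb.1]
  have b2 : 0 < 1 - b := by linarith [hb.2]
  have x1 : 1 + (a - b) / 2 / (1 - (a + b) / 2) = (1 - b) / (1 - (a + b) / 2) :=
    one_add_div_aux h1.ne' (by ring)
  have x2 : 1 - (a - b) / 2 / (1 - (a + b) / 2) = (1 - a) / (1 - (a + b) / 2) :=
    one_sub_div_aux h1.ne' (by ring)
  have y1 : 1 + (a - b) / 2 / (1 + (a + b) / 2) = (1 + a) / (1 + (a + b) / 2) :=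
    one_add_div_aux h2.ne' (by ring)
  have y2 : 1 - (a - b) / 2 / (1 + (a + b) / 2) = (1 + b) / (1 + (a + b) / 2) :=
    one_sub_div_aux h2.ne' (by ring)
  rw [artanh_eq_logs ⟨by linarith [hx.1], hx.2⟩, artanh_eq_logs ⟨by linarith [hy.1], hy.2⟩,
    artanh_eq_logs ha, artanh_eq_logs hb, x1, x2, y1, y2, Real.log_div a2.ne' h1.ne',
    Real.log_div b2.ne' h1.ne', Real.log_div a1.ne' h2.ne', Real.log_div b1.ne' h2.ne']
  ring

theorem side_d_pos {a b : ℝ} (ha : a ∈ Set.Ioo (-1 : ℝ) 1) (hb : b ∈ Set.Ioo (-1 : ℝ) 1)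
    (hab : b < a) : 0 < (Real.artanh a - Real.artanh b) / 2 := by
  have := Real.artanh_lt_artanh hb.1 ha.2 hab
  linarith

theorem KK_eq (a b : ℝ) :
    KK a b = (a - b) / 2 * ((Real.artanh a - Real.artanh b) / 2) := by
  unfold KK; ring

/-- (N1) -/
theorem N1_ineq {a b : ℝ} (ha : a ∈ Set.Ioo (-1 : ℝ) 1) (hb : b ∈ Set.Ioo (-1 : ℝ) 1)
    (hab : b < a) :
    hh ((a + b) / 2) - (hh a + hh b) / 2 ≤
      (a - b) / 2 * FN ((Real.artanh a - Real.artanh b) / 2) := by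
  obtain ⟨hx, hy⟩ := side_mem ha hb hab
  have h1 : 0 < 1 - (a + b) / 2 := by linarith [ha.2, hb.2]
  have h2 : 0 < 1 + (a + b) / 2 := by linarith [ha.1, hb.1]
  have h3 : 0 < (a - b) / 2 := by linarith
  rw [side_ph ha hb hab, ← side_artanh ha hb hab]
  set x := (a - b) / 2 / (1 - (a + b) / 2) with hxdef
  set y := (a - b) / 2 / (1 + (a + b) / 2) with hydef
  have hX : 0 < Real.artanh x := Real.artanh_pos hx
  have hY : 0 < Real.artanh y := Real.artanh_pos hy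
  have e1 : FN (Real.artanh x) = ph x / x := by
    rw [FN_eq hX, Real.tanh_artanh ⟨by linarith [hx.1], hx.2⟩]
  have e2 : FN (Real.artanh y) = ph y / y := by
    rw [FN_eq hY, Real.tanh_artanh ⟨by linarith [hy.1], hy.2⟩]
  have f1 : (1 - (a + b) / 2) * ph x = (a - b) / 2 * FN (Real.artanh x) := by
    rw [e1]
    have : (a - b) / 2 = (1 - (a + b) / 2) * x := side_aux4 h1.ne'
    have hx0 := hx.1.ne'
    rw [this]; field_simp
  have f2 : (1 + (a + b) / 2) * ph y = (a - b) / 2 * FN (Real.artanh y) := by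
    rw [e2]
    have : (a - b) / 2 = (1 + (a + b) / 2) * y := side_aux4 h2.ne'
    have hy0 := hy.1.ne'
    rw [this]; field_simp
  rw [f1, f2]
  have h := FN_mid hX hY
  nlinarith

theorem tanh_mid {s t : ℝ} (hs : 0 < s) (ht : 0 < t) :
    (Real.tanh s + Real.tanh t) / 2 ≤ Real.tanh ((s + t) / 2) := by
  have c1 := Real.cosh_pos s
  have c2 := Real.cosh_pos t
  have c3 := Real.cosh_pos ((s + t) / 2)
  have s3 := Real.sinh_pos_iff.mpr (show 0 < (s + t) / 2 by linarith)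
  have e1 : Real.tanh s + Real.tanh t = Real.sinh (s + t) / (Real.cosh s * Real.cosh t) := by
    rw [Real.tanh_eq_sinh_div_cosh, Real.tanh_eq_sinh_div_cosh, Real.sinh_add]
    field_simp
  have e2 : Real.sinh (s + t) = 2 * Real.sinh ((s + t) / 2) * Real.cosh ((s + t) / 2) := by
    rw [← Real.sinh_two_mul]; congr 1; ring
  have e3 : Real.cosh ((s + t) / 2) ^ 2 ≤ Real.cosh s * Real.cosh t := by
    have a1 : Real.cosh (s + t) = 2 * Real.cosh ((s + t) / 2) ^ 2 - 1 := by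
      rw [show s + t = 2 * ((s + t) / 2) by ring, Real.cosh_two_mul, Real.sinh_sq]
      rw [show 2 * ((s + t) / 2) / 2 = (s + t) / 2 by ring]
      ring
    have a2 := Real.one_le_cosh (s - t)
    have a3 := Real.cosh_add s t
    have a4 := Real.cosh_sub s t
    linarith
  rw [e1, e2, Real.tanh_eq_sinh_div_cosh, div_div, div_le_div_iff₀ (by positivity) c3]
  nlinarith

/-- `q = δ / tanh d ≤ 1 - m²` -/
theorem q_le {a b : ℝ} (ha : a ∈ Set.Ioo (-1 : ℝ) 1) (hb : b ∈ Set.Ioo (-1 : ℝ) 1)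
    (hab : b < a) :
    (a - b) / 2 ≤ (1 - ((a + b) / 2) ^ 2) * Real.tanh ((Real.artanh a - Real.artanh b) / 2) := by
  obtain ⟨hx, hy⟩ := side_mem ha hb hab
  have h1 : 0 < 1 - (a + b) / 2 := by linarith [ha.2, hb.2]
  have h2 : 0 < 1 + (a + b) / 2 := by linarith [ha.1, hb.1]
  have h3 : 0 < (a - b) / 2 := by linarith
  rw [← side_artanh ha hb hab]
  have h := tanh_mid (Real.artanh_pos hx) (Real.artanh_pos hy)
  rw [Real.tanh_artanh ⟨by linarith [hx.1], hx.2⟩, Real.tanh_artanh ⟨by linarith [hy.1], hy.2⟩] at h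
  have h4 : 0 < (1 - ((a + b) / 2) ^ 2) := by nlinarith
  calc (a - b) / 2 = (1 - ((a + b) / 2) ^ 2) *
        (((a - b) / 2 / (1 - (a + b) / 2) + (a - b) / 2 / (1 + (a + b) / 2)) / 2) :=
        side_aux5 h1.ne' h2.ne'
    _ ≤ _ := mul_le_mul_of_nonneg_left h h4.le

/-! ### `φ(m) ≤ m² log 2` -/

theorem two_ph_le_kk {x : ℝ} (h0 : 0 ≤ x) (h1 : x < 1) : 2 * ph x ≤ kk x := by
  have := RR_nonneg (ph_lt (x := x) ⟨by linarith, h1⟩)
  rw [RR_ph h0 h1] at this
  linarith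

theorem ph_le_sq {m : ℝ} (hm : m ∈ Set.Icc (-1 : ℝ) 1) : ph m ≤ m ^ 2 * Real.log 2 := by
  have key : ∀ m ∈ Set.Ioc (0 : ℝ) 1, ph m ≤ m ^ 2 * Real.log 2 := by
    intro m hm
    have hmono : MonotoneOn (fun x : ℝ => ph x / x ^ 2) (Set.Ioc 0 1) := by
      apply monotoneOn_of_deriv_nonneg (convex_Ioc 0 1)
      · apply ContinuousOn.div ph_continuous.continuousOn (by fun_prop)
        intro x hx
        have := hx.1
        positivity
      · intro x hx
        rw [interior_Ioc] at hx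
        have hx0 := hx.1
        have hd := (ph_hasDerivAt (x := x) ⟨by linarith, hx.2⟩).fun_div
          (hasDerivAt_pow 2 x) (by positivity)
        exact hd.differentiableAt.differentiableWithinAt
      · intro x hx
        rw [interior_Ioc] at hx
        have hx0 := hx.1
        have hd := (ph_hasDerivAt (x := x) ⟨by linarith, hx.2⟩).fun_div
          (hasDerivAt_pow 2 x) (by positivity)
        rw [hd.deriv]
        apply div_nonneg _ (by positivity)
        have := two_ph_le_kk hx0.le hx.2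
        unfold kk at this
        simp only [Nat.cast_ofNat, Nat.add_one_sub_one, pow_one]
        nlinarith
    have := hmono hm ⟨one_pos, le_refl _⟩ hm.2
    simp only [ph_one, one_pow, div_one] at this
    rw [div_le_iff₀ (by have := hm.1; positivity)] at this
    linarith
  rcases lt_trichotomy m 0 with h | h | h
  · have := key (-m) ⟨by linarith, by linarith [hm.1]⟩
    rw [ph_neg] at this
    nlinarith
  · subst h; rw [ph_zero]; norm_num
  · exact key m ⟨h, hm.2⟩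

theorem hh_ge_quad {m : ℝ} (hm : m ∈ Set.Icc (-1 : ℝ) 1) :
    (1 - m ^ 2) * Real.log 2 ≤ hh m := by
  have := ph_le_sq hm
  unfold ph at this
  linarith

/-! ### consequences at `n = 1` -/

/-- (N1) in the form `g ≤ q φ(tanh d)` with `q = δ / tanh d`, together with the data of `q` -/
theorem N1_data {a b : ℝ} (ha : a ∈ Set.Ioo (-1 : ℝ) 1) (hb : b ∈ Set.Ioo (-1 : ℝ) 1)
    (hab : b < a) : ∃ q J : ℝ, 0 < q ∧ q ≤ 1 - ((a + b) / 2) ^ 2 ∧ 0 < J ∧ J < Real.log 2 ∧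
      J = ph (Real.tanh ((Real.artanh a - Real.artanh b) / 2)) ∧
      hh ((a + b) / 2) - (hh a + hh b) / 2 ≤ q * J ∧ q * Psi J = KK a b := by
  set d := (Real.artanh a - Real.artanh b) / 2 with hd
  have hd0 : 0 < d := side_d_pos ha hb hab
  have ht0 : 0 < Real.tanh d := tanh_pos' hd0
  have ht1 : Real.tanh d < 1 := Real.tanh_lt_one d
  have h3 : 0 < (a - b) / 2 := by linarith
  refine ⟨(a - b) / 2 / Real.tanh d, ph (Real.tanh d), by positivity, ?_, ph_pos ht0 ht1.le,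
    ph_lt ⟨by linarith, ht1⟩, rfl, ?_, ?_⟩
  · rw [div_le_iff₀ ht0]; exact q_le ha hb hab
  · have := N1_ineq ha hb hab
    rw [← hd, FN_eq hd0] at this
    calc _ ≤ _ := this
      _ = _ := by ring
  · rw [Psi_ph ht0.le ht1, KK_eq, ← hd]
    unfold kk
    rw [Real.artanh_tanh]
    field_simp

theorem RR_smul_le {c J : ℝ} (hc0 : 0 ≤ c) (hc1 : c ≤ 1) (hJ : J < Real.log 2) :
    RR (c * J) ≤ c * RR J := by
  have p2 : 0 ≤ 1 - c := by linarith
  have h := RR_convexOn.2 (show J ∈ Set.Iio (Real.log 2) from hJ)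
    (show (0:ℝ) ∈ Set.Iio (Real.log 2) from log_two_pos') hc0 p2 (by ring)
  simp only [smul_eq_mul, mul_zero, add_zero, RR_of_nonpos le_rfl] at h
  exact h

/-- (N'') -/
theorem NPP_ineq {a b : ℝ} (ha : a ∈ Set.Ioo (-1 : ℝ) 1) (hb : b ∈ Set.Ioo (-1 : ℝ) 1)
    (hab : b < a) :
    (1 - ((a + b) / 2) ^ 2) * hh (Real.tanh ((Real.artanh a - Real.artanh b) / 2))
      ≤ (hh a + hh b) / 2 := by
  obtain ⟨q, J, hq0, hq, hJ0, hJ1, hJ, hg, _⟩ := N1_data ha hb hab
  have hm : (a + b) / 2 ∈ Set.Icc (-1 : ℝ) 1 :=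
    ⟨by linarith [ha.1, hb.1], by linarith [ha.2, hb.2]⟩
  have h1 := hh_ge_quad hm
  have h2 : hh (Real.tanh ((Real.artanh a - Real.artanh b) / 2)) = Real.log 2 - J := by
    rw [hJ]; unfold ph; ring
  rw [h2]
  nlinarith

/-- Jensen at `n = 1` -/
theorem Psi_g_le_KK {a b : ℝ} (ha : a ∈ Set.Ioo (-1 : ℝ) 1) (hb : b ∈ Set.Ioo (-1 : ℝ) 1)
    (hab : b < a) : Psi (hh ((a + b) / 2) - (hh a + hh b) / 2) ≤ KK a b := by
  obtain ⟨q, J, hq0, hq, hJ0, hJ1, hJ, hg, hK⟩ := N1_data ha hb hab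
  have hq1 : q ≤ 1 := by nlinarith [sq_nonneg ((a + b) / 2)]
  have hqJ : q * J < Real.log 2 := by nlinarith
  have h1 : Psi (hh ((a + b) / 2) - (hh a + hh b) / 2) ≤ Psi (q * J) :=
    Psi_strictMonoOn.monotoneOn (lt_of_le_of_lt hg hqJ) hqJ hg
  have h2 := RR_smul_le hq0.le hq1 hJ1
  rw [← hK]
  refine h1.trans ?_
  unfold Psi
  nlinarith

/-- (N) -/
theorem N_ineq {a b : ℝ} (ha : a ∈ Set.Ioo (-1 : ℝ) 1) (hb : b ∈ Set.Ioo (-1 : ℝ) 1)
    (hab : b < a) :
    2 * (hh ((a + b) / 2) - (hh a + hh b) / 2) +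
      PP (1 - ((a + b) / 2) ^ 2) ((hh a + hh b) / 2) ≤ KK a b := by
  obtain ⟨q, J, hq0, hq, hJ0, hJ1, hJ, hg, hK⟩ := N1_data ha hb hab
  have hm : (a + b) / 2 ∈ Set.Icc (-1 : ℝ) 1 :=
    ⟨by linarith [ha.1, hb.1], by linarith [ha.2, hb.2]⟩
  have h1 := hh_ge_quad hm
  set s := 1 - ((a + b) / 2) ^ 2 with hs
  set H := (hh a + hh b) / 2 with hH
  have hs0 : 0 < s := lt_of_lt_of_le hq0 hq
  have h2 : Real.log 2 - H / s ≤ q / s * J := by
    have : s * (Real.log 2 - H / s) ≤ s * (q / s * J) := by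
      have e1 : s * (Real.log 2 - H / s) = s * Real.log 2 - H := by field_simp
      have e2 : s * (q / s * J) = q * J := by field_simp
      rw [e1, e2]
      linarith
    exact le_of_mul_le_mul_left this hs0
  have hc1 : q / s ≤ 1 := by rw [div_le_one hs0]; exact hq
  have hc0 : 0 ≤ q / s := by positivity
  have hlt : q / s * J < Real.log 2 := by nlinarith
  have h3 : RR (Real.log 2 - H / s) ≤ q / s * RR J :=
    (RR_monotoneOn (lt_of_le_of_lt h2 hlt) hlt h2).trans (RR_smul_le hc0 hc1 hJ1)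
  have h4 : PP s H ≤ q * RR J := by
    unfold PP
    have := mul_le_mul_of_nonneg_left h3 hs0.le
    have e : s * (q / s * RR J) = q * RR J := by field_simp
    rwa [e] at this
  rw [← hK]
  unfold Psi
  nlinarith

/-! ### the end points of the ray -/

theorem one_sub_sq_avg_pos {a b : ℝ} (ha : a ∈ Set.Ioo (-1 : ℝ) 1) (hb : b ∈ Set.Ioo (-1 : ℝ) 1) :
    0 < 1 - ((a + b) / 2) ^ 2 - ((a - b) / 2) ^ 2 := by
  have h1 := one_sub_sq_pos ha
  have h2 := one_sub_sq_pos hb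
  nlinarith

theorem Phi2_end {a b : ℝ} (ha : a ∈ Set.Ioo (-1 : ℝ) 1) (hb : b ∈ Set.Ioo (-1 : ℝ) 1)
    (hab : b ≤ a) : Phi2 RR a b ((hh a + hh b) / 2) ≤ KK a b := by
  have hpos := one_sub_sq_avg_pos ha hb
  have hH : 0 < (hh a + hh b) / 2 := by
    have := hh_pos ha
    have := hh_pos hb
    linarith
  have hP : 0 ≤ PP (1 - ((a + b) / 2) ^ 2 - ((a - b) / 2) ^ 2) ((hh a + hh b) / 2) :=
    PP_nonneg hpos hH
  unfold Phi2
  rw [Pp_RR, Pp_RR]
  rcases hab.lt_or_eq with h | h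
  · have := N_ineq ha hb h
    linarith
  · subst h
    have e1 : (b + b) / 2 = b := by ring
    have e2 : (hh b + hh b) / 2 = hh b := by ring
    have e3 : (b - b) / 2 = 0 := by ring
    rw [e1, e2, e3]
    have : KK b b = 0 := by unfold KK; ring
    rw [this]
    have e4 : PP (1 - b ^ 2 - 0 ^ 2) (hh b) = PP (1 - b ^ 2) (hh b) := by norm_num
    rw [e4]
    linarith

theorem Phi1_end {J1 : ℝ} (h0 : 0 ≤ J1) (h1 : J1 < Real.log 2) {a b : ℝ}
    (ha : a ∈ Set.Ioo (-1 : ℝ) 1) (hb : b ∈ Set.Ioo (-1 : ℝ) 1)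
    (hab : b ≤ a) : Phi1 (Psi1 J1) a b ((hh a + hh b) / 2) ≤ KK a b := by
  unfold Phi1
  rw [sub_self, Psi1_zero h0, sub_zero]
  rcases hab.lt_or_eq with h | h
  · have hg : hh ((a + b) / 2) - (hh a + hh b) / 2 < Real.log 2 := by
      have := hh_pos ha
      have := hh_pos hb
      linarith [hh_le ((a + b) / 2)]
    exact (Psi1_le_Psi h1 hg).trans (Psi_g_le_KK ha hb h)
  · subst h
    have e1 : (b + b) / 2 = b := by ring
    have e2 : (hh b + hh b) / 2 = hh b := by ring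
    have : KK b b = 0 := by unfold KK; ring
    rw [e1, e2, sub_self, Psi1_zero h0, this]

end Vale.Agent.P322
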