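import Mathlib
import Vale.Agent.Lib.P322.Calc
import Vale.Agent.Lib.P322.R0
import Vale.Agent.Lib.P322.S4

/-!
Courtade-Kumar, module S3: the ray condition (W) for the member `B1`.
-/

namespace Vale.Agent.P322

open Finset

theorem ph_eq_logsW {x : ℝ} (hx : x ∈ Set.Ioo (-1 : ℝ) 1) :
    ph x = (x * (Real.log (1 + x) - Real.log (1 - x)) - (-Real.log (1 - x ^ 2))) / 2 := by
  have h1 : 0 < 1 + x := by linarith [hx.1]
  have h2 : 0 < 1 - x := by linarith [hx.2]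
  have e : (1 - x ^ 2) = (1 + x) * (1 - x) := by ring
  rw [e, Real.log_mul h1.ne' h2.ne']
  unfold ph hh Real.binEntropy
  have e2 : 1 - (1 + x) / 2 = (1 - x) / 2 := by ring
  rw [e2, Real.log_inv, Real.log_inv, Real.log_div h1.ne' (by norm_num),
    Real.log_div h2.ne' (by norm_num)]
  ring

theorem ph_hasSum {x : ℝ} (hx : x ∈ Set.Ioo (-1 : ℝ) 1) :
    HasSum (fun k : ℕ => x ^ (2 * k + 2) * (1 / ((2 * k + 1) * (2 * k + 2)))) (ph x) := by
  have ha : |x| < 1 := abs_lt.2 hx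
  have hb : |x ^ 2| < 1 := by
    rw [abs_pow]
    exact pow_lt_one₀ (abs_nonneg x) ha (by norm_num)
  have h1 := Real.hasSum_log_sub_log_of_abs_lt_one ha
  have h2 := Real.hasSum_pow_div_log_of_abs_lt_one hb
  have h3 := ((h1.mul_left x).sub h2).div_const 2
  rw [← ph_eq_logsW hx] at h3
  have e : (fun k : ℕ => x ^ (2 * k + 2) * (1 / ((2 * (k:ℝ) + 1) * (2 * k + 2)))) =
      fun k : ℕ => (x * ((2:ℝ) * (1 / (2 * k + 1)) * x ^ (2 * k + 1)) -
        (x ^ 2) ^ (k + 1) / (k + 1)) / 2 := by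
    funext k
    have p1 : (0:ℝ) < 2 * k + 1 := by positivity
    have p2 : (0:ℝ) < (k:ℝ) + 1 := by positivity
    have p3 : (0:ℝ) < 2 * (k:ℝ) + 2 := by positivity
    rw [← pow_mul]
    have q1 : x ^ (2 * (k + 1)) = x ^ (2 * k + 1) * x := by rw [← pow_succ]; ring_nf
    have q2 : x ^ (2 * k + 2) = x ^ (2 * k + 1) * x := by rw [← pow_succ]
    rw [q1, q2]
    field_simp
    ring
  rw [e]
  exact h3

theorem ak_sum_le (N : ℕ) :
    ∑ k ∈ Finset.range N, (1 / ((2 * (k:ℝ) + 1) * (2 * k + 2))) ≤ Real.log 2 := by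
  have hc : Filter.Tendsto (fun x : ℝ => ∑ k ∈ Finset.range N,
      x ^ (2 * k + 2) * (1 / ((2 * (k:ℝ) + 1) * (2 * k + 2)))) (nhdsWithin 1 (Set.Iio 1))
      (nhds (∑ k ∈ Finset.range N, (1:ℝ) ^ (2 * k + 2) * (1 / ((2 * (k:ℝ) + 1) * (2 * k + 2))))) := by
    apply Filter.Tendsto.mono_left _ nhdsWithin_le_nhds
    exact (Continuous.tendsto (by fun_prop) _)
  simp only [one_pow, one_mul] at hc
  refine le_of_tendsto hc ?_
  filter_upwards [Ioo_mem_nhdsLT (show (0:ℝ) < 1 by norm_num)] with x hx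
  have hx' : x ∈ Set.Ioo (-1:ℝ) 1 := ⟨by linarith [hx.1], hx.2⟩
  refine le_trans (sum_le_hasSum _ ?_ (ph_hasSum hx')) (ph_lt hx').le
  intro k _
  have := hx.1
  positivity

/-- `φ(x) ≤ x²/2 + (log 2 - 1/2) x⁴` -/
theorem ph_le_poly {x : ℝ} (h0 : 0 ≤ x) (h1 : x < 1) :
    ph x ≤ x ^ 2 / 2 + (Real.log 2 - 1 / 2) * x ^ 4 := by
  have hx : x ∈ Set.Ioo (-1 : ℝ) 1 := ⟨by linarith, h1⟩
  have hs : Summable (fun k : ℕ => (1 / ((2 * (k:ℝ) + 1) * (2 * k + 2)))) :=
    summable_of_sum_range_le (fun k => by positivity) ak_sum_le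
  have hle : ∑' k : ℕ, (1 / ((2 * (k:ℝ) + 1) * (2 * k + 2))) ≤ Real.log 2 :=
    Real.tsum_le_of_sum_range_le (fun k => by positivity) ak_sum_le
  have h2 : HasSum (fun k : ℕ => x ^ 4 * (1 / ((2 * (k:ℝ) + 1) * (2 * k + 2))) +
      (if k = 0 then (x ^ 2 / 2 - x ^ 4 / 2) else 0))
      (x ^ 4 * (∑' k : ℕ, (1 / ((2 * (k:ℝ) + 1) * (2 * k + 2)))) + (x ^ 2 / 2 - x ^ 4 / 2)) :=
    (hs.hasSum.mul_left _).add (hasSum_ite_eq 0 _)
  have h3 := hasSum_le (fun k => ?_) (ph_hasSum hx) h2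
  · have : x ^ 4 * (∑' k : ℕ, (1 / ((2 * (k:ℝ) + 1) * (2 * k + 2)))) ≤ x ^ 4 * Real.log 2 :=
      mul_le_mul_of_nonneg_left hle (by positivity)
    linarith
  · rcases k with _ | k
    · simp
      ring_nf
      rfl
    · rw [if_neg (by omega), add_zero]
      apply mul_le_mul_of_nonneg_right _ (by positivity)
      exact pow_le_pow_of_le_one h0 h1.le (by omega)

/-- `-(1/2) log (1 - y²) ≥ y²/2 + y⁴/4` -/
theorem e_ge_poly {y : ℝ} (hy : y ∈ Set.Ioo (-1 : ℝ) 1) :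
    y ^ 2 / 2 + y ^ 4 / 4 ≤ -(Real.log (1 - y ^ 2)) / 2 := by
  have ha : |y| < 1 := abs_lt.2 hy
  have hb : |y ^ 2| < 1 := by
    rw [abs_pow]
    exact pow_lt_one₀ (abs_nonneg y) ha (by norm_num)
  have h2 := sum_le_hasSum (Finset.range 2) (fun k _ => by positivity)
    (Real.hasSum_pow_div_log_of_abs_lt_one hb)
  simp [Finset.sum_range_succ] at h2
  linarith

/-- `log (1 + v) ≤ v (6 + v) / (6 + 4 v)` -/
theorem log_one_add_le_padeW {v : ℝ} (hv : 0 ≤ v) :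
    Real.log (1 + v) ≤ v * (6 + v) / (6 + 4 * v) := by
  have hd : ∀ w : ℝ, 0 ≤ w → HasDerivAt (fun w : ℝ => w * (6 + w) / (6 + 4 * w) - Real.log (1 + w))
      (((6 + 2 * w) * (6 + 4 * w) - w * (6 + w) * 4) / (6 + 4 * w) ^ 2 - 1 / (1 + w)) w := by
    intro w hw
    have a1 : HasDerivAt (fun w : ℝ => w * (6 + w)) (6 + 2 * w) w := by
      have := (hasDerivAt_id w).mul ((hasDerivAt_id w).const_add 6)
      refine this.congr_deriv ?_
      simp only [id_eq]
      ring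
    have a2 : HasDerivAt (fun w : ℝ => 6 + 4 * w) 4 w := by
      have := ((hasDerivAt_id w).const_mul 4).const_add 6
      simpa using this
    have a3 := ((hasDerivAt_id w).const_add 1).log (by simp only [id_eq]; positivity)
    exact (a1.div a2 (by positivity)).sub a3
  have hm : MonotoneOn (fun w : ℝ => w * (6 + w) / (6 + 4 * w) - Real.log (1 + w)) (Set.Ici 0) := by
    apply monotoneOn_of_deriv_nonneg (convex_Ici 0)
    · intro w hw
      exact (hd w hw).continuousAt.continuousWithinAt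
    · intro w hw
      rw [interior_Ici] at hw
      exact (hd w (le_of_lt hw)).differentiableAt.differentiableWithinAt
    · intro w hw
      rw [interior_Ici] at hw
      have hw' : 0 < w := hw
      rw [(hd w hw'.le).deriv, sub_nonneg, div_le_div_iff₀ (by positivity) (by positivity)]
      nlinarith [pow_pos hw' 3]
  have := hm (Set.mem_Ici.2 le_rfl) (Set.mem_Ici.2 hv) hv
  simp at this
  linarith



/-- the case `X = 0` -/
theorem W_poly0 {v J : ℝ} (hv : 0 < v) (hv1 : v ≤ 1) (hJ : 0 ≤ J) (hJ1 : J ≤ 0.328) :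
    v * (6 + v) - J * (6 + 4 * v) ≤ 3 * v * (6 + 4 * v) * (0.6931 - J) ^ 2 := by
  rcases le_total v 0.23 with h | h
  · have e : 3 * v * (6 + 4 * v) * (0.6931 - J) ^ 2 - (v * (6 + v) - J * (6 + 4 * v))
        = v * (3 * (6 + 4 * v) * 0.6931 ^ 2 - (6 + v)) +
          J * (6 + 4 * v) * (1 - 6 * v * 0.6931) + 3 * v * (6 + 4 * v) * J ^ 2 := by ring
    have t1 : 0 ≤ v * (3 * (6 + 4 * v) * 0.6931 ^ 2 - (6 + v)) :=
      mul_nonneg hv.le (by nlinarith)
    have t2 : 0 ≤ J * (6 + 4 * v) * (1 - 6 * v * 0.6931) :=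
      mul_nonneg (by positivity) (by nlinarith)
    have t3 : 0 ≤ 3 * v * (6 + 4 * v) * J ^ 2 := by positivity
    linarith
  · rcases le_total v 0.75 with h2 | h2
    · -- discriminant
      have hD : (6 + 4 * v) ≤ 12 * v * (0.6931 * (6 + 4 * v) - v * (6 + v)) := by
        nlinarith [mul_nonneg (sub_nonneg.2 h) (sub_nonneg.2 h2), mul_nonneg (mul_nonneg hv.le (sub_nonneg.2 h)) (sub_nonneg.2 h2)]
      have h3 : 0 ≤ (6 * v * (0.6931 - J) - 1) ^ 2 := sq_nonneg _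
      have h4 : 0 ≤ (6 + 4 * v) * (6 * v * (0.6931 - J) - 1) ^ 2 := by positivity
      nlinarith
    · have hz : 0.3651 ≤ 0.6931 - J := by linarith
      have h4 : 0 ≤ ((0.6931 - J) - 0.3651) * (3 * v * ((0.6931 - J) + 0.3651) - 1) :=
        mul_nonneg (by linarith) (by nlinarith)
      have h5 : 0 ≤ (6 + 4 * v) * (((0.6931 - J) - 0.3651) * (3 * v * ((0.6931 - J) + 0.3651) - 1)) :=
        mul_nonneg (by linarith) h4
      have h6 : v * (6 + v) - 0.328 * (6 + 4 * v) ≤ 3 * v * (6 + 4 * v) * 0.3651 ^ 2 := by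
        nlinarith [mul_nonneg (sub_nonneg.2 hv1) (sub_nonneg.2 h2)]
      nlinarith

/-- the case `X = 1` -/
theorem W_poly1 {v J : ℝ} (hv : 0 < v) (hv1 : v ≤ 1) (hJ : 0 ≤ J) (hJ1 : J ≤ 0.328) :
    (v * (6 + v) - J * (6 + 4 * v)) * (1 + 0.3863 * (1 - v + v ^ 2)) ≤
      3 * v * (6 + 4 * v) * (1 + v ^ 2 / 2) * (0.6931 - J) ^ 2 := by
  set G : ℝ := 1 + 0.3863 * (1 - v + v ^ 2) with hG
  have hG0 : 1 ≤ G := by rw [hG]; nlinarith [sq_nonneg (v - 1 / 2)]
  have hG1 : G ≤ 1.3863 := by rw [hG]; nlinarith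
  rcases le_total v 0.23 with h | h
  · have e : 3 * v * (6 + 4 * v) * (1 + v ^ 2 / 2) * (0.6931 - J) ^ 2 - (v * (6 + v) - J * (6 + 4 * v)) * G
        = v * (3 * (6 + 4 * v) * (1 + v ^ 2 / 2) * 0.6931 ^ 2 - (6 + v) * G) +
          J * (6 + 4 * v) * (G - 6 * v * (1 + v ^ 2 / 2) * 0.6931) +
          3 * v * (6 + 4 * v) * (1 + v ^ 2 / 2) * J ^ 2 := by ring
    have t1 : 0 ≤ v * (3 * (6 + 4 * v) * (1 + v ^ 2 / 2) * 0.6931 ^ 2 - (6 + v) * G) := by
      apply mul_nonneg hv.le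
      rw [hG]
      nlinarith [pow_pos hv 2, pow_pos hv 3]
    have t2 : 0 ≤ J * (6 + 4 * v) * (G - 6 * v * (1 + v ^ 2 / 2) * 0.6931) := by
      apply mul_nonneg (by positivity)
      have : v * (1 + v ^ 2 / 2) ≤ 0.23 * (1 + 0.23 ^ 2 / 2) := by
        have h0 : v ^ 2 ≤ 0.23 ^ 2 := by nlinarith
        have := mul_le_mul h (show 1 + v ^ 2 / 2 ≤ 1 + 0.23 ^ 2 / 2 by linarith) (by positivity) (by norm_num)
        linarith
      rw [hG]
      nlinarith [sq_nonneg (v - 1 / 2)]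
    have t3 : 0 ≤ 3 * v * (6 + 4 * v) * (1 + v ^ 2 / 2) * J ^ 2 := by positivity
    linarith
  · rcases le_total v 0.75 with h2 | h2
    · -- discriminant
      have hD : (6 + 4 * v) * G ≤ 12 * v * (1 + v ^ 2 / 2) * (0.6931 * (6 + 4 * v) - v * (6 + v)) := by
        rw [hG]
        have a := mul_nonneg (sub_nonneg.2 h) (sub_nonneg.2 h2)
        nlinarith [a, mul_nonneg hv.le a, mul_nonneg (pow_pos hv 2).le a, mul_nonneg (pow_pos hv 3).le a]
      have h4 : 0 ≤ (6 + 4 * v) * (6 * v * (1 + v ^ 2 / 2) * (0.6931 - J) - G) ^ 2 := by positivity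
      have h5 : 0 ≤ G * (12 * v * (1 + v ^ 2 / 2) * (0.6931 * (6 + 4 * v) - v * (6 + v)) - (6 + 4 * v) * G) :=
        mul_nonneg (by linarith) (by linarith)
      have e : 12 * v * (1 + v ^ 2 / 2) * (3 * v * (6 + 4 * v) * (1 + v ^ 2 / 2) * (0.6931 - J) ^ 2 - (v * (6 + v) - J * (6 + 4 * v)) * G)
        = (6 + 4 * v) * (6 * v * (1 + v ^ 2 / 2) * (0.6931 - J) - G) ^ 2 + G * (12 * v * (1 + v ^ 2 / 2) * (0.6931 * (6 + 4 * v) - v * (6 + v)) - (6 + 4 * v) * G) := by ring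
      have h6 : 0 ≤ 12 * v * (1 + v ^ 2 / 2) * (3 * v * (6 + 4 * v) * (1 + v ^ 2 / 2) * (0.6931 - J) ^ 2 - (v * (6 + v) - J * (6 + 4 * v)) * G) := by
        rw [e]; linarith
      have h7 : 0 < 12 * v * (1 + v ^ 2 / 2) := by positivity
      have := nonneg_of_mul_nonneg_right h6 h7
      linarith
    · have hz : 0.3651 ≤ 0.6931 - J := by linarith
      have hv2 : 0.5625 ≤ v ^ 2 := by nlinarith
      have h3 : 0 ≤ 3 * v * (1 + v ^ 2 / 2) * ((0.6931 - J) + 0.3651) - G := by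
        have : 0.75 * 1.28125 ≤ v * (1 + v ^ 2 / 2) :=
          mul_le_mul h2 (by linarith) (by norm_num) (by linarith)
        nlinarith
      have h4 : 0 ≤ ((0.6931 - J) - 0.3651) * (3 * v * (1 + v ^ 2 / 2) * ((0.6931 - J) + 0.3651) - G) :=
        mul_nonneg (by linarith) h3
      have h5 : 0 ≤ (6 + 4 * v) * (((0.6931 - J) - 0.3651) * (3 * v * (1 + v ^ 2 / 2) * ((0.6931 - J) + 0.3651) - G)) :=
        mul_nonneg (by linarith) h4
      have h6 : (v * (6 + v) - 0.328 * (6 + 4 * v)) * G ≤ 3 * v * (6 + 4 * v) * (1 + v ^ 2 / 2) * 0.3651 ^ 2 := by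
        rw [hG]
        nlinarith [mul_nonneg (sub_nonneg.2 hv1) (sub_nonneg.2 h2), pow_pos hv 3, mul_nonneg hv.le (mul_nonneg (sub_nonneg.2 hv1) (sub_nonneg.2 h2)), mul_nonneg (pow_pos hv 2).le (mul_nonneg (sub_nonneg.2 hv1) (sub_nonneg.2 h2))]
      nlinarith


theorem ph_tanh_one_lt : ph (Real.tanh 1) ≤ 0.328 := by
  rw [ph_tanh_one]
  have h1 : Real.tanh 1 ≤ 0.7617 := by
    rw [Real.tanh_eq_sinh_div_cosh, div_le_iff₀ (Real.cosh_pos 1)]
    have := sinh_one_lt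
    have := cosh_one_gt
    linarith
  have h2 : 0.4337 ≤ Real.log (Real.cosh 1) := by
    rw [Real.le_log_iff_exp_le (Real.cosh_pos 1)]
    have h := Real.exp_bound' (x := 0.4337) (by norm_num) (by norm_num) (n := 6) (by norm_num)
    have h2 := cosh_one_gt
    norm_num [Finset.sum_range_succ, Nat.factorial] at h
    linarith
  linarith

/-- the key scalar bound -/
theorem W_key {v x J : ℝ} (hv : 0 < v) (hv1 : v ≤ 1) (hx : 0 < x) (hx1 : x < 1)
    (hJ : 0 ≤ J) (hJ1 : J ≤ 0.328) :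
    (Real.log (1 + v) - J) * ((v * ph x + ph (v * x)) / (1 + v)) ≤
      3 * (-(1 / 2) * Real.log (1 - (v * x) ^ 2)) * (Real.log 2 - J) ^ 2 := by
  have hy0 : 0 < v * x := mul_pos hv hx
  have hy1 : v * x < 1 := by nlinarith
  have hy : v * x ∈ Set.Ioo (-1 : ℝ) 1 := ⟨by linarith, hy1⟩
  have he := e_ge_poly hy
  have h1 := ph_le_poly hx.le hx1
  have h2 := ph_le_poly hy0.le hy1
  have hl2 := Real.log_two_lt_d9
  have hl2' := Real.log_two_gt_d9
  have hp := log_one_add_le_padeW hv.le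
  have hX0 : 0 < x ^ 2 := by positivity
  have hX1 : x ^ 2 ≤ 1 := by nlinarith
  -- bound on `g`
  have hg : (v * ph x + ph (v * x)) / (1 + v) ≤
      v * x ^ 2 / 2 * (1 + 0.3863 * (1 - v + v ^ 2) * x ^ 2) := by
    rw [div_le_iff₀ (by linarith)]
    have e1 : v * x ^ 2 / 2 * (1 + 0.3863 * (1 - v + v ^ 2) * x ^ 2) * (1 + v)
        = v * (x ^ 2 / 2 + 0.3863 / 2 * x ^ 4) + ((v * x) ^ 2 / 2 + 0.3863 / 2 * (v * x) ^ 4) := by
      ring
    rw [e1]
    have a1 : ph x ≤ x ^ 2 / 2 + 0.3863 / 2 * x ^ 4 := by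
      have : (Real.log 2 - 1 / 2) * x ^ 4 ≤ 0.3863 / 2 * x ^ 4 :=
        mul_le_mul_of_nonneg_right (by linarith) (by positivity)
      linarith
    have a2 : ph (v * x) ≤ (v * x) ^ 2 / 2 + 0.3863 / 2 * (v * x) ^ 4 := by
      have : (Real.log 2 - 1 / 2) * (v * x) ^ 4 ≤ 0.3863 / 2 * (v * x) ^ 4 :=
        mul_le_mul_of_nonneg_right (by linarith) (by positivity)
      linarith
    have := mul_le_mul_of_nonneg_left a1 hv.le
    linarith
  have hg0 : 0 ≤ (v * ph x + ph (v * x)) / (1 + v) := by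
    have := ph_nonneg x
    have := ph_nonneg (v * x)
    positivity
  have hE : v ^ 2 * x ^ 2 / 2 * (1 + v ^ 2 * x ^ 2 / 2) ≤ -(1 / 2) * Real.log (1 - (v * x) ^ 2) := by
    have : v ^ 2 * x ^ 2 / 2 * (1 + v ^ 2 * x ^ 2 / 2) = (v * x) ^ 2 / 2 + (v * x) ^ 4 / 4 := by ring
    linarith
  have hE0 : 0 ≤ -(1 / 2) * Real.log (1 - (v * x) ^ 2) := le_trans (by positivity) hE
  have hsq : (0.6931 - J) ^ 2 ≤ (Real.log 2 - J) ^ 2 := by
    apply pow_le_pow_left₀ (by linarith)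
    linarith
  rcases le_or_gt (Real.log (1 + v) - J) 0 with hneg | hpos
  · have : (Real.log (1 + v) - J) * ((v * ph x + ph (v * x)) / (1 + v)) ≤ 0 :=
      mul_nonpos_of_nonpos_of_nonneg hneg hg0
    have h3 : 0 ≤ 3 * (-(1 / 2) * Real.log (1 - (v * x) ^ 2)) * (Real.log 2 - J) ^ 2 := by
      positivity
    linarith
  · have s1 : (Real.log (1 + v) - J) * ((v * ph x + ph (v * x)) / (1 + v)) ≤
        (v * (6 + v) / (6 + 4 * v) - J) *
          (v * x ^ 2 / 2 * (1 + 0.3863 * (1 - v + v ^ 2) * x ^ 2)) :=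
      mul_le_mul (by linarith) hg hg0 (by linarith)
    have s2 : 3 * (v ^ 2 * x ^ 2 / 2 * (1 + v ^ 2 * x ^ 2 / 2)) * (0.6931 - J) ^ 2 ≤
        3 * (-(1 / 2) * Real.log (1 - (v * x) ^ 2)) * (Real.log 2 - J) ^ 2 :=
      mul_le_mul (by linarith) hsq (by positivity) (by positivity)
    refine le_trans s1 (le_trans ?_ s2)
    have hP0 := W_poly0 hv hv1 hJ hJ1
    have hP1 := W_poly1 hv hv1 hJ hJ1
    have hlin : (v * (6 + v) - J * (6 + 4 * v)) * (1 + 0.3863 * (1 - v + v ^ 2) * x ^ 2) ≤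
        3 * v * (6 + 4 * v) * (1 + v ^ 2 * x ^ 2 / 2) * (0.6931 - J) ^ 2 := by
      have b1 := mul_le_mul_of_nonneg_left hP0 (show 0 ≤ 1 - x ^ 2 by linarith)
      have b2 := mul_le_mul_of_nonneg_left hP1 hX0.le
      linarith
    have hq : 0 < 6 + 4 * v := by linarith
    have e3 : (v * (6 + v) / (6 + 4 * v) - J) *
          (v * x ^ 2 / 2 * (1 + 0.3863 * (1 - v + v ^ 2) * x ^ 2)) =
        (v * x ^ 2 / 2) / (6 + 4 * v) *
          ((v * (6 + v) - J * (6 + 4 * v)) * (1 + 0.3863 * (1 - v + v ^ 2) * x ^ 2)) := by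
      field_simp
    have e4 : 3 * (v ^ 2 * x ^ 2 / 2 * (1 + v ^ 2 * x ^ 2 / 2)) * (0.6931 - J) ^ 2 =
        (v * x ^ 2 / 2) / (6 + 4 * v) *
          (3 * v * (6 + 4 * v) * (1 + v ^ 2 * x ^ 2 / 2) * (0.6931 - J) ^ 2) := by
      field_simp
    rw [e3, e4]
    exact mul_le_mul_of_nonneg_left hlin (by positivity)

theorem W_Rdd {J : ℝ} (h0 : 0 < J) (h1 : J < Real.log 2) :
    (Real.log 2 - J) ^ 2 * Rdd (xi J) ≤ 2 / 3 := by
  have hx0 := xi_pos h0 h1
  have hx1 := (xi_mem J).2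
  have hR := R0 (θ := xi J) ⟨hx0, hx1⟩
  have hh1 : hh (xi J) = Real.log 2 - J := by
    have := ph_xi h0.le h1
    unfold ph at this
    linarith
  rw [hh1] at hR
  have hp := one_sub_sq_pos (xi_mem' J)
  have ha := artanh_pos' hx0 hx1
  unfold Rdd
  rw [← mul_div_assoc, div_le_iff₀ (by positivity)]
  linarith

/-- `F(J) = Ψ₁'(J) (J - l) - Ψ₁(J)` is constant beyond `J₁` -/
theorem W_F_const {J1 l J : ℝ} (h : J1 ≤ J) :
    Psi1' J1 J * (J - l) - Psi1 J1 J = Psi1' J1 J1 * (J1 - l) - Psi1 J1 J1 := by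
  rw [Psi1'_of_ge h, Psi1_of_ge h, Psi1'_of_ge le_rfl, Psi1_of_ge le_rfl]
  ring

theorem W_F_min {J1 l J : ℝ} :
    Psi1' J1 J * (J - l) - Psi1 J1 J =
      Psi1' J1 (min J J1) * (min J J1 - l) - Psi1 J1 (min J J1) := by
  rcases le_total J J1 with h | h
  · rw [min_eq_left h]
  · rw [min_eq_right h, W_F_const h]

/-- the ray condition (W), with the cut `J₁ = φ(tanh 1)` -/
theorem W_main {v x C : ℝ} (hv : 0 < v) (hv1 : v ≤ 1) (hx : 0 < x) (hx1 : x < 1) (hC : 0 ≤ C) :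
    0 ≤ Psi1' (ph (Real.tanh 1)) C * (-(1 / 2) * Real.log (1 - (v * x) ^ 2)) +
      (Psi1' (ph (Real.tanh 1)) (C + (v * ph x + ph (v * x)) / (1 + v)) *
          ((C + (v * ph x + ph (v * x)) / (1 + v)) - Real.log (1 + v)) -
        Psi1 (ph (Real.tanh 1)) (C + (v * ph x + ph (v * x)) / (1 + v))) -
      (Psi1' (ph (Real.tanh 1)) C * (C - Real.log (1 + v)) - Psi1 (ph (Real.tanh 1)) C) := by
  set J1 := ph (Real.tanh 1) with hJ1
  set g := (v * ph x + ph (v * x)) / (1 + v) with hg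
  set e := -(1 / 2) * Real.log (1 - (v * x) ^ 2) with he
  set l := Real.log (1 + v) with hl
  have hy0 : 0 < v * x := mul_pos hv hx
  have hy1 : v * x < 1 := by nlinarith
  have hgpos : 0 < g := by
    have := ph_pos hx hx1.le
    have := ph_nonneg (v * x)
    positivity
  have hepos : 0 ≤ e := by
    have := e_ge_poly (y := v * x) ⟨by linarith, hy1⟩
    have h2 : 0 ≤ (v * x) ^ 2 / 2 + (v * x) ^ 4 / 4 := by positivity
    rw [he]
    linarith
  have hJ1le : J1 ≤ 0.328 := ph_tanh_one_lt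
  have hJ1lt : J1 < Real.log 2 := by linarith [Real.log_two_gt_d9]
  have hJ10 : 0 ≤ J1 := ph_nonneg _
  -- the monotone function
  have hmono : MonotoneOn (fun J => g * (Psi' J * (J - l) - Psi J) + 2 * e * J) (Set.Icc 0 J1) := by
    have hder : ∀ J, 0 < J → J < Real.log 2 →
        HasDerivAt (fun J => g * (Psi' J * (J - l) - Psi J) + 2 * e * J)
          (g * ((Rdd (xi J) * (J - l) + Psi' J * 1) - Psi' J) + 2 * e * 1) J := by
      intro J h0 h1
      have a1 := (Psi'_hasDerivAt h0 h1).mul ((hasDerivAt_id J).sub_const l)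
      have a2 := ((a1.sub (Psi_hasDerivAt h1)).const_mul g).add ((hasDerivAt_id J).const_mul (2 * e))
      exact a2
    apply monotoneOn_of_deriv_nonneg (convex_Icc 0 J1)
    · have hsub : Set.Icc 0 J1 ⊆ Set.Iio (Real.log 2) := fun J hJ => lt_of_le_of_lt hJ.2 hJ1lt
      have c1 := Psi'_continuousOn.mono hsub
      have c2 := Psi_continuousOn.mono hsub
      fun_prop
    · intro J hJ
      rw [interior_Icc] at hJ
      exact (hder J hJ.1 (lt_trans hJ.2 hJ1lt)).differentiableAt.differentiableWithinAt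
    · intro J hJ
      rw [interior_Icc] at hJ
      rw [(hder J hJ.1 (lt_trans hJ.2 hJ1lt)).deriv]
      have hk := W_key hv hv1 hx hx1 hJ.1.le (by linarith [hJ.2])
      rw [← hg, ← he, ← hl] at hk
      have hR := W_Rdd hJ.1 (lt_trans hJ.2 hJ1lt)
      have hx0 := xi_pos hJ.1 (lt_trans hJ.2 hJ1lt)
      have hRp := Rdd_pos hx0 (xi_mem J).2
      have k1 := mul_le_mul_of_nonneg_right hk hRp.le
      have k2 := mul_le_mul_of_nonneg_left hR (show 0 ≤ 3 * e by positivity)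
      nlinarith
  have hCA : min C J1 ≤ min (C + g) J1 := min_le_min_right _ (by linarith)
  have hdiff : min (C + g) J1 - min C J1 ≤ g := by
    rcases le_total C J1 with h | h
    · rw [min_eq_left h]
      have := min_le_left (C + g) J1
      linarith
    · rw [min_eq_right h]
      have := min_le_right (C + g) J1
      linarith
  have hm := hmono (a := min C J1) (b := min (C + g) J1) ⟨le_min hC hJ10, min_le_right _ _⟩
    ⟨le_min (by linarith) hJ10, min_le_right _ _⟩ hCA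
  simp only at hm
  have e1 : Psi1' J1 (C + g) * (C + g - l) - Psi1 J1 (C + g) =
      Psi' (min (C + g) J1) * (min (C + g) J1 - l) - Psi (min (C + g) J1) := by
    rw [W_F_min, Psi1'_of_le (min_le_right _ _), Psi1_of_le (min_le_right _ _)]
  have e2 : Psi1' J1 C * (C - l) - Psi1 J1 C =
      Psi' (min C J1) * (min C J1 - l) - Psi (min C J1) := by
    rw [W_F_min, Psi1'_of_le (min_le_right _ _), Psi1_of_le (min_le_right _ _)]
  rw [e1, e2]
  have h2 := mul_le_mul_of_nonneg_right (Psi1'_ge_two J1 C) hepos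
  have h3 : g * (2 * e + (Psi' (min (C + g) J1) * (min (C + g) J1 - l) - Psi (min (C + g) J1)) -
      (Psi' (min C J1) * (min C J1 - l) - Psi (min C J1))) ≥ 0 := by
    have := mul_le_mul_of_nonneg_left hdiff (show 0 ≤ 2 * e by positivity)
    nlinarith
  have h4 := nonneg_of_mul_nonneg_right h3 hgpos
  linarith

end Vale.Agent.P322
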