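import Vale.Agent.Lib.P322.Final
import Vale.Agent.Lib.P322.Ray
import Vale.Agent.Lib.P322.W
import Vale.Agent.Lib.P322.S
import Vale.Agent.Lib.P322.SideN
import Vale.Agent.Lib.P322.Corner
import Vale.Agent.Lib.P322.S4

/-!
The Courtade-Kumar conjecture: assembly of all parts.
-/

namespace Vale.Agent.P322

theorem WIneq_JJ : WIneq JJ := by
  intro v x C hv hv1 hx hx1 hC
  exact W_main hv hv1 hx hx1 hC

theorem SIneq_holds : SIneq := by
  intro v x T hv hv1 hx hx1 hT
  exact S_main hv hv1 hx hx1 hT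

theorem cornerCert_holds : CornerCert := corner_star

theorem costIneq_one : CostIneq (Phi1 (Psi1 JJ)) := by
  apply costIneq_Phi1 JJ_nonneg JJ_lt WIneq_JJ _ cornerCert_holds
  intro a b hb hab ha hs
  exact Psi_g_le_KK ⟨by linarith, ha⟩ ⟨hb, by linarith⟩ hab

theorem costIneq_two : CostIneq (Phi2 RR) := by
  apply costIneq_Phi2 SIneq_holds _ cornerCert_holds
  intro a b hb hab ha hs
  exact N_ineq ⟨by linarith, ha⟩ ⟨hb, by linarith⟩ hab

/-- The Courtade-Kumar conjecture. -/
theorem courtadeKumar {n : ℕ} (f : (Fin n → Bool) → Bool) {ε : ℝ} (h0 : 0 ≤ ε)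
    (h1 : ε ≤ 1 / 2) : mutualInfo (jointLaw ε f) ≤ 1 - entropy2 ε := by
  apply courtadeKumar_of_members costIneq_one costIneq_two _ f h0 h1
  intro m hm T hT hJ
  exact Q_main hm hT hJ

end Vale.Agent.P322
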