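import Mathlib
import Vale.Agent.Lib.P322.Calc

/-!
Courtade-Kumar: the one-edge inequality
`h(z) - (h x + h y)/2 ≤ q φ(tanh d)`, `x = tanh (w + d)`, `y = tanh (w - d)`, `z = (x + y)/2`,
`q = (1 + cosh 2d)/(cosh 2w + cosh 2d)`, and its consequences.
-/

namespace Vale.Agent.P322

open Finset

/-- `C (2w - ln A + ln B) ≤ S (ln A + ln B - ln (A + B))` with `A = e^{2w} + c`, `B = e^{-2w} + c`,
`C = cosh 2w`, `S = sinh 2w`. -/
theorem nOne_log {w c : ℝ} (hw : 0 ≤ w) (hc : 1 ≤ c) :
    Real.cosh (2 * w) * (2 * w - Real.log (Real.exp (2 * w) + c) + Real.log (Real.exp (-(2 * w)) + c))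
      ≤ Real.sinh (2 * w) * (Real.log (Real.exp (2 * w) + c) + Real.log (Real.exp (-(2 * w)) + c)
        - Real.log (Real.exp (2 * w) + Real.exp (-(2 * w)) + 2 * c)) := by
  set E := Real.exp (2 * w) with hE
  set F := Real.exp (-(2 * w)) with hF
  have hE0 : 0 < E := Real.exp_pos _
  have hF0 : 0 < F := Real.exp_pos _
  have hEF : E * F = 1 := by rw [hE, hF, ← Real.exp_add]; simp
  have hC : Real.cosh (2 * w) = (E + F) / 2 := by rw [Real.cosh_eq]
  have hS : Real.sinh (2 * w) = (E - F) / 2 := by rw [Real.sinh_eq]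
  have hFE : F ≤ E := by
    rw [hE, hF]; exact Real.exp_le_exp.mpr (by linarith)
  rw [hC, hS]
  set f : ℝ → ℝ := fun c => (E - F) / 2 * (Real.log (E + c) + Real.log (F + c)
    - Real.log (E + F + 2 * c)) - (E + F) / 2 * (2 * w - Real.log (E + c) + Real.log (F + c)) with hf
  have hder : ∀ c : ℝ, 1 ≤ c → HasDerivAt f ((E - F) / 2 * (1 / (E + c) + 1 / (F + c)
      - 2 / (E + F + 2 * c)) - (E + F) / 2 * (0 - 1 / (E + c) + 1 / (F + c))) c := by
    intro c hc
    have h1 : HasDerivAt (fun c : ℝ => Real.log (E + c)) (1 / (E + c)) c :=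
      ((hasDerivAt_id c).const_add E).log (by simp only [id]; positivity)
    have h2 : HasDerivAt (fun c : ℝ => Real.log (F + c)) (1 / (F + c)) c :=
      ((hasDerivAt_id c).const_add F).log (by simp only [id]; positivity)
    have h3 : HasDerivAt (fun c : ℝ => Real.log (E + F + 2 * c)) (2 / (E + F + 2 * c)) c := by
      have h := (((hasDerivAt_id c).const_mul 2).const_add (E + F)).log
        (by simp only [id]; positivity)
      simpa using h
    exact (((h1.add h2).sub h3).const_mul _).sub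
      ((((hasDerivAt_const c (2 * w)).sub h1).add h2).const_mul _)
  have hmono : MonotoneOn f (Set.Ici 1) := by
    apply monotoneOn_of_deriv_nonneg (convex_Ici 1)
    · intro x hx
      exact (hder x hx).continuousAt.continuousWithinAt
    · intro x hx
      rw [interior_Ici] at hx
      exact (hder x (le_of_lt hx)).differentiableAt.differentiableWithinAt
    · intro x hx
      rw [interior_Ici] at hx
      have hx1 : 1 < x := hx
      rw [(hder x hx1.le).deriv]
      have e1 : 0 < E + x := by positivity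
      have e2 : 0 < F + x := by positivity
      have e3 : 0 < E + F + 2 * x := by positivity
      have key : (E - F) / 2 * (1 / (E + x) + 1 / (F + x) - 2 / (E + F + 2 * x))
          - (E + F) / 2 * (0 - 1 / (E + x) + 1 / (F + x))
          = (E - F) * (x ^ 2 - E * F) / ((E + x) * (F + x) * (E + F + 2 * x)) := by
        field_simp
        ring
      rw [key, hEF]
      apply div_nonneg _ (by positivity)
      apply mul_nonneg (by linarith)
      nlinarith
  have h1 := hmono (Set.mem_Ici.mpr (le_refl (1:ℝ))) (Set.mem_Ici.mpr hc) hc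
  have h0 : f 1 = 0 := by
    rw [hf]
    have g1 : E + F + 2 * 1 = (E + 1) * (F + 1) := by linear_combination -hEF
    have g2 : E + 1 = E * (F + 1) := by linear_combination -hEF
    have g3 : Real.log (E + 1) = 2 * w + Real.log (F + 1) := by
      rw [g2, Real.log_mul hE0.ne' (by positivity), hE, Real.log_exp]
    simp only []
    rw [g1, Real.log_mul (by positivity) (by positivity), g3]
    ring
  rw [h0, hf] at h1
  linarith

/-- The function `Γ(w)` is nonpositive. -/
theorem nOne_gamma {w c : ℝ} (hw : 0 ≤ w) (hc : 1 ≤ c) :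
    (Real.cosh (2 * w) + c) / 2 * Real.log (2 * (Real.cosh (2 * w) + c)) + w * Real.sinh (2 * w)
      + (1 + c) / 2 * Real.log ((1 + c) / 2)
      - ((Real.exp (2 * w) + c) * Real.log (Real.exp (2 * w) + c)
        + (Real.exp (-(2 * w)) + c) * Real.log (Real.exp (-(2 * w)) + c)) / 2 ≤ 0 := by
  set G : ℝ → ℝ := fun w => (Real.cosh (2 * w) + c) / 2 * Real.log (2 * (Real.cosh (2 * w) + c))
      + w * Real.sinh (2 * w)
      + (1 + c) / 2 * Real.log ((1 + c) / 2)
      - ((Real.exp (2 * w) + c) * Real.log (Real.exp (2 * w) + c)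
        + (Real.exp (-(2 * w)) + c) * Real.log (Real.exp (-(2 * w)) + c)) / 2 with hG
  have hder : ∀ w : ℝ, HasDerivAt G
      (Real.sinh (2 * w) * Real.log (2 * (Real.cosh (2 * w) + c)) + 2 * w * Real.cosh (2 * w)
        - Real.exp (2 * w) * Real.log (Real.exp (2 * w) + c)
        + Real.exp (-(2 * w)) * Real.log (Real.exp (-(2 * w)) + c)) w := by
    intro w
    have hcp := Real.cosh_pos (2 * w)
    have p1 : 0 < Real.cosh (2 * w) + c := by positivity
    have p2 : 0 < Real.exp (2 * w) + c := by positivity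
    have p3 : 0 < Real.exp (-(2 * w)) + c := by positivity
    have hid : HasDerivAt (fun w : ℝ => 2 * w) 2 w := by
      simpa using (hasDerivAt_id w).const_mul (2 : ℝ)
    have hC : HasDerivAt (fun w : ℝ => Real.cosh (2 * w) + c) (2 * Real.sinh (2 * w)) w := by
      exact ((hid.cosh).add_const c).congr_deriv (by ring)
    have hS : HasDerivAt (fun w : ℝ => Real.sinh (2 * w)) (2 * Real.cosh (2 * w)) w := by
      exact (hid.sinh).congr_deriv (by ring)
    have hE : HasDerivAt (fun w : ℝ => Real.exp (2 * w) + c) (2 * Real.exp (2 * w)) w := by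
      exact ((hid.exp).add_const c).congr_deriv (by ring)
    have hF : HasDerivAt (fun w : ℝ => Real.exp (-(2 * w)) + c) (-2 * Real.exp (-(2 * w))) w := by
      have hneg : HasDerivAt (fun w : ℝ => -(2 * w)) (-2) w := hid.neg
      exact ((hneg.exp).add_const c).congr_deriv (by ring)
    have hLC : HasDerivAt (fun w : ℝ => Real.log (2 * (Real.cosh (2 * w) + c)))
        (2 * (2 * Real.sinh (2 * w)) / (2 * (Real.cosh (2 * w) + c))) w :=
      (hC.const_mul 2).log (by positivity)
    have hLE := hE.log p2.ne'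
    have hLF := hF.log p3.ne'
    have h := ((((hC.div_const 2).mul hLC).add ((hasDerivAt_id w).mul hS)).add_const
      ((1 + c) / 2 * Real.log ((1 + c) / 2))).sub (((hE.mul hLE).add (hF.mul hLF)).div_const 2)
    have e1 : Real.exp (2 * w) = Real.cosh (2 * w) + Real.sinh (2 * w) :=
      (Real.cosh_add_sinh _).symm
    have e2 : Real.exp (-(2 * w)) = Real.cosh (2 * w) - Real.sinh (2 * w) :=
      (Real.cosh_sub_sinh _).symm
    refine h.congr_deriv ?_
    simp only [id]
    field_simp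
    rw [e1, e2]
    ring
  have hanti : AntitoneOn G (Set.Ici 0) := by
    apply antitoneOn_of_deriv_nonpos (convex_Ici 0)
    · intro x _
      exact (hder x).continuousAt.continuousWithinAt
    · intro x _
      exact (hder x).differentiableAt.differentiableWithinAt
    · intro x hx
      rw [interior_Ici] at hx
      rw [(hder x).deriv]
      have h := nOne_log (w := x) (c := c) (le_of_lt hx) hc
      have e0 : Real.exp (2 * x) + Real.exp (-(2 * x)) + 2 * c = 2 * (Real.cosh (2 * x) + c) := by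
        rw [Real.cosh_eq]; ring
      rw [e0] at h
      have e1 : Real.exp (2 * x) = Real.cosh (2 * x) + Real.sinh (2 * x) :=
        (Real.cosh_add_sinh _).symm
      have e2 : Real.exp (-(2 * x)) = Real.cosh (2 * x) - Real.sinh (2 * x) :=
        (Real.cosh_sub_sinh _).symm
      set LA := Real.log (Real.exp (2 * x) + c)
      set LB := Real.log (Real.exp (-(2 * x)) + c)
      set L := Real.log (2 * (Real.cosh (2 * x) + c))
      rw [e1, e2]
      linarith
  have h1 := hanti (Set.mem_Ici.mpr (le_refl (0:ℝ))) (Set.mem_Ici.mpr hw) hw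
  have h0 : G 0 = 0 := by
    rw [hG]
    simp only [mul_zero, Real.cosh_zero, Real.sinh_zero, neg_zero, Real.exp_zero]
    have hc1 : (0:ℝ) < 1 + c := by linarith
    rw [Real.log_mul (by norm_num) hc1.ne', Real.log_div hc1.ne' (by norm_num)]
    ring
  rw [h0] at h1
  exact h1

/-- `h(S/(C + c))` in terms of `A`, `B`. -/
theorem hh_mid (w c : ℝ) (hc : 1 ≤ c) :
    hh (Real.sinh (2 * w) / (Real.cosh (2 * w) + c))
      = Real.log (2 * (Real.cosh (2 * w) + c))
        - ((Real.exp (2 * w) + c) * Real.log (Real.exp (2 * w) + c)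
          + (Real.exp (-(2 * w)) + c) * Real.log (Real.exp (-(2 * w)) + c))
            / (2 * (Real.cosh (2 * w) + c)) := by
  have hcp := Real.cosh_pos (2 * w)
  have p1 : 0 < Real.cosh (2 * w) + c := by positivity
  have p2 : 0 < Real.exp (2 * w) + c := by positivity
  have p3 : 0 < Real.exp (-(2 * w)) + c := by positivity
  have e1 : Real.exp (2 * w) = Real.cosh (2 * w) + Real.sinh (2 * w) :=
    (Real.cosh_add_sinh _).symm
  have e2 : Real.exp (-(2 * w)) = Real.cosh (2 * w) - Real.sinh (2 * w) :=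
    (Real.cosh_sub_sinh _).symm
  have h1 : (1 + Real.sinh (2 * w) / (Real.cosh (2 * w) + c)) / 2
      = (Real.exp (2 * w) + c) / (2 * (Real.cosh (2 * w) + c)) := by
    rw [e1]; field_simp; ring
  have h2 : 1 - (1 + Real.sinh (2 * w) / (Real.cosh (2 * w) + c)) / 2
      = (Real.exp (-(2 * w)) + c) / (2 * (Real.cosh (2 * w) + c)) := by
    rw [e2]; field_simp; ring
  unfold hh Real.binEntropy
  rw [Real.log_inv, Real.log_inv, h2, h1]
  rw [Real.log_div p2.ne' (by positivity), Real.log_div p3.ne' (by positivity)]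
  have h3 : (Real.exp (2 * w) + c) + (Real.exp (-(2 * w)) + c) = 2 * (Real.cosh (2 * w) + c) := by
    rw [e1, e2]; ring
  set LA := Real.log (Real.exp (2 * w) + c)
  set LB := Real.log (Real.exp (-(2 * w)) + c)
  set L := Real.log (2 * (Real.cosh (2 * w) + c))
  set A := Real.exp (2 * w) + c
  set B := Real.exp (-(2 * w)) + c
  rw [← h3]
  have : A + B ≠ 0 := by positivity
  field_simp
  ring

/-- `φ(tanh d)` -/
theorem ph_tanh (d : ℝ) : ph (Real.tanh d) = d * Real.tanh d - Real.log (Real.cosh d) := by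
  unfold ph
  rw [hh_tanh, Real.log_mul (by norm_num) (Real.cosh_pos d).ne']
  ring

theorem ph_tanh' (d : ℝ) : (1 + Real.cosh (2 * d)) * ph (Real.tanh d)
    = d * Real.sinh (2 * d) - (1 + Real.cosh (2 * d)) / 2 * Real.log ((1 + Real.cosh (2 * d)) / 2) := by
  have hc := Real.cosh_pos d
  have h1 : (1 + Real.cosh (2 * d)) / 2 = Real.cosh d ^ 2 := by
    rw [Real.cosh_two_mul, Real.sinh_sq]; ring
  have h2 : 1 + Real.cosh (2 * d) = 2 * Real.cosh d ^ 2 := by linarith
  rw [ph_tanh, h1, h2, Real.log_pow, Real.sinh_two_mul, Real.tanh_eq_sinh_div_cosh]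
  field_simp
  push_cast
  ring

/-- midpoint of `tanh (w + d)`, `tanh (w - d)` -/
theorem tanh_mid (w d : ℝ) : (Real.tanh (w + d) + Real.tanh (w - d)) / 2
    = Real.sinh (2 * w) / (Real.cosh (2 * w) + Real.cosh (2 * d)) := by
  have h := (pair_values w d).1
  have h1 : Real.tanh (d - w) = -Real.tanh (w - d) := by
    rw [← Real.tanh_neg]; ring_nf
  rw [add_comm w d, ← h, h1]
  ring

theorem nOne_aux {w : ℝ} (d : ℝ) (hw : 0 ≤ w) :
    hh ((Real.tanh (w + d) + Real.tanh (w - d)) / 2)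
      - (hh (Real.tanh (w + d)) + hh (Real.tanh (w - d))) / 2
      ≤ (1 + Real.cosh (2 * d)) / (Real.cosh (2 * w) + Real.cosh (2 * d)) * ph (Real.tanh d) := by
  have hc : 1 ≤ Real.cosh (2 * d) := Real.one_le_cosh _
  have hC := Real.cosh_pos (2 * w)
  have hp : 0 < Real.cosh (2 * w) + Real.cosh (2 * d) := by positivity
  have h1 := (pair_values d w).2
  have h2 := nOne_gamma hw hc
  have h3 := ph_tanh' d
  rw [tanh_mid, hh_mid w _ hc, h1, div_mul_eq_mul_div, h3]
  have hcd : Real.cosh (2 * d) + Real.cosh (2 * w) = Real.cosh (2 * w) + Real.cosh (2 * d) := by ring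
  rw [hcd]
  have key : Real.log (2 * (Real.cosh (2 * w) + Real.cosh (2 * d)))
        - ((Real.exp (2 * w) + Real.cosh (2 * d)) * Real.log (Real.exp (2 * w) + Real.cosh (2 * d))
          + (Real.exp (-(2 * w)) + Real.cosh (2 * d)) * Real.log (Real.exp (-(2 * w)) + Real.cosh (2 * d)))
            / (2 * (Real.cosh (2 * w) + Real.cosh (2 * d)))
        - (Real.log (2 * (Real.cosh (2 * w) + Real.cosh (2 * d))) / 2
          - (d * Real.sinh (2 * d) + w * Real.sinh (2 * w))
            / (Real.cosh (2 * w) + Real.cosh (2 * d)))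
      = ((Real.cosh (2 * w) + Real.cosh (2 * d)) / 2
          * Real.log (2 * (Real.cosh (2 * w) + Real.cosh (2 * d))) + w * Real.sinh (2 * w)
        - ((Real.exp (2 * w) + Real.cosh (2 * d)) * Real.log (Real.exp (2 * w) + Real.cosh (2 * d))
          + (Real.exp (-(2 * w)) + Real.cosh (2 * d))
            * Real.log (Real.exp (-(2 * w)) + Real.cosh (2 * d))) / 2
        + d * Real.sinh (2 * d)) / (Real.cosh (2 * w) + Real.cosh (2 * d)) := by
    field_simp
    ring
  rw [key]
  apply div_le_div_of_nonneg_right _ hp.le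
  linarith

/-- (N1): the one-edge inequality. -/
theorem nOne (w d : ℝ) :
    hh ((Real.tanh (w + d) + Real.tanh (w - d)) / 2)
      - (hh (Real.tanh (w + d)) + hh (Real.tanh (w - d))) / 2
      ≤ (1 + Real.cosh (2 * d)) / (Real.cosh (2 * w) + Real.cosh (2 * d)) * ph (Real.tanh d) := by
  rcases le_total 0 w with h | h
  · exact nOne_aux d h
  · have h1 := nOne_aux (w := -w) d (by linarith)
    have e1 : Real.tanh (-w + d) = -Real.tanh (w - d) := by rw [← Real.tanh_neg]; ring_nf
    have e2 : Real.tanh (-w - d) = -Real.tanh (w + d) := by rw [← Real.tanh_neg]; ring_nf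
    have e3 : Real.cosh (2 * -w) = Real.cosh (2 * w) := by
      rw [← Real.cosh_neg (2 * w)]; ring_nf
    rw [e1, e2, e3, hh_neg, hh_neg] at h1
    have e4 : (-Real.tanh (w - d) + -Real.tanh (w + d)) / 2
        = -((Real.tanh (w + d) + Real.tanh (w - d)) / 2) := by ring
    rw [e4, hh_neg] at h1
    linarith

/-! ### `φ(x) ≤ x² log 2` -/

/-- `x artanh x ≥ 2 φ(x)` -/
theorem two_ph_le {x : ℝ} (h0 : 0 ≤ x) (h1 : x < 1) : 2 * ph x ≤ x * Real.artanh x := by
  have hder : ∀ y ∈ Set.Ico (0 : ℝ) 1, HasDerivAt (fun y => y * Real.artanh y - 2 * ph y)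
      (y / (1 - y ^ 2) - Real.artanh y) y := by
    intro y hy
    have hy' : y ∈ Set.Ioo (-1 : ℝ) 1 := ⟨by linarith [hy.1], hy.2⟩
    have h := ((hasDerivAt_id y).mul (artanh_hasDerivAt hy')).sub
      (((hasDerivAt_const y (Real.log 2)).sub (hh_hasDerivAt hy')).const_mul 2)
    refine h.congr_deriv ?_
    simp only [id]
    ring
  have hmono : MonotoneOn (fun y => y * Real.artanh y - 2 * ph y) (Set.Ico (0 : ℝ) 1) := by
    apply monotoneOn_of_deriv_nonneg (convex_Ico 0 1)
    · intro y hy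
      exact (hder y hy).continuousAt.continuousWithinAt
    · intro y hy
      rw [interior_Ico] at hy
      exact (hder y ⟨hy.1.le, hy.2⟩).differentiableAt.differentiableWithinAt
    · intro y hy
      rw [interior_Ico] at hy
      rw [(hder y ⟨hy.1.le, hy.2⟩).deriv]
      linarith [artanh_le_div hy.1.le hy.2]
  have h := hmono ⟨le_refl _, zero_lt_one⟩ ⟨h0, h1⟩ h0
  simp only [ph, hh_zero] at h
  simp only [ph]
  linarith

/-- `φ(x) ≤ x² log 2` -/
theorem ph_le_sq {x : ℝ} (hx : x ∈ Set.Icc (-1 : ℝ) 1) : ph x ≤ x ^ 2 * Real.log 2 := by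
  have key : ∀ x ∈ Set.Icc (0 : ℝ) 1, ph x ≤ x ^ 2 * Real.log 2 := by
    intro x hx
    rcases eq_or_lt_of_le hx.1 with h | h0
    · rw [← h]; simp [ph, hh_zero]
    have hder : ∀ y ∈ Set.Ioo (0 : ℝ) 1, HasDerivAt (fun y => ph y / y ^ 2)
        ((y * Real.artanh y - 2 * ph y) / y ^ 3) y := by
      intro y hy
      have hy' : y ∈ Set.Ioo (-1 : ℝ) 1 := ⟨by linarith [hy.1], hy.2⟩
      have hy0 : y ≠ 0 := hy.1.ne'
      have h := (((hasDerivAt_const y (Real.log 2)).sub (hh_hasDerivAt hy'))).div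
        ((hasDerivAt_id y).pow 2) (by simp [hy0])
      refine h.congr_deriv ?_
      simp only [id, ph]
      field_simp
      simp
      ring
    have hmono : MonotoneOn (fun y => ph y / y ^ 2) (Set.Ioc (0 : ℝ) 1) := by
      apply monotoneOn_of_deriv_nonneg (convex_Ioc 0 1)
      · intro y hy
        apply ContinuousAt.continuousWithinAt
        exact ph_continuous.continuousAt.div (continuousAt_id.pow 2) (by
          have := hy.1; simp; exact this.ne')
      · intro y hy
        rw [interior_Ioc] at hy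
        exact (hder y hy).differentiableAt.differentiableWithinAt
      · intro y hy
        rw [interior_Ioc] at hy
        rw [(hder y hy).deriv]
        apply div_nonneg _ (by have := hy.1; positivity)
        linarith [two_ph_le hy.1.le hy.2]
    have h := hmono ⟨h0, hx.2⟩ ⟨zero_lt_one, le_refl _⟩ hx.2
    simp only [ph, hh_one] at h
    rw [div_le_iff₀ (by positivity)] at h
    unfold ph
    linarith
  rcases le_total 0 x with h | h
  · exact key x ⟨h, hx.2⟩
  · have h1 := key (-x) ⟨by linarith, by linarith [hx.1]⟩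
    have h2 : ph (-x) = ph x := by unfold ph; rw [hh_neg]
    rw [h2] at h1
    linarith [h1, neg_sq x]

/-- `h(x) ≥ (1 - x²) log 2` -/
theorem hh_ge_sq {x : ℝ} (hx : x ∈ Set.Icc (-1 : ℝ) 1) : (1 - x ^ 2) * Real.log 2 ≤ hh x := by
  have := ph_le_sq hx
  unfold ph at this
  linarith

/-! ### consequences in hyperbolic coordinates -/

/-- `q = (1 + cosh 2d)/(cosh 2w + cosh 2d)` -/
noncomputable def qwd (w d : ℝ) : ℝ :=
  (1 + Real.cosh (2 * d)) / (Real.cosh (2 * w) + Real.cosh (2 * d))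

theorem qwd_pos (w d : ℝ) : 0 < qwd w d := by
  have hC := Real.cosh_pos (2 * w)
  have hc := Real.cosh_pos (2 * d)
  unfold qwd; positivity

theorem qwd_le_one (w d : ℝ) : qwd w d ≤ 1 := by
  have hC := Real.one_le_cosh (2 * w)
  have hc := Real.cosh_pos (2 * d)
  unfold qwd
  rw [div_le_one (by positivity)]
  linarith

/-- `(1 - z²) - q = (C - 1)(c - 1)/(C + c)²` -/
theorem one_sub_mid_sq (w d : ℝ) :
    1 - ((Real.tanh (w + d) + Real.tanh (w - d)) / 2) ^ 2 - qwd w d
    = (Real.cosh (2 * w) - 1) * (Real.cosh (2 * d) - 1)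
        / (Real.cosh (2 * w) + Real.cosh (2 * d)) ^ 2 := by
  have hC := Real.cosh_pos (2 * w)
  have hc := Real.cosh_pos (2 * d)
  have hS := Real.sinh_sq (2 * w)
  rw [tanh_mid]
  unfold qwd
  have : Real.cosh (2 * w) + Real.cosh (2 * d) ≠ 0 := by positivity
  field_simp
  rw [hS]
  ring

theorem qwd_le_mid (w d : ℝ) :
    qwd w d ≤ 1 - ((Real.tanh (w + d) + Real.tanh (w - d)) / 2) ^ 2 := by
  have h := one_sub_mid_sq w d
  have hC := Real.one_le_cosh (2 * w)
  have hc := Real.one_le_cosh (2 * d)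
  have : 0 ≤ (Real.cosh (2 * w) - 1) * (Real.cosh (2 * d) - 1)
        / (Real.cosh (2 * w) + Real.cosh (2 * d)) ^ 2 :=
    div_nonneg (mul_nonneg (by linarith) (by linarith)) (by positivity)
  linarith

theorem mid_mem (w d : ℝ) : (Real.tanh (w + d) + Real.tanh (w - d)) / 2 ∈ Set.Icc (-1 : ℝ) 1 := by
  have h1 := tanh_mem (w + d)
  have h2 := tanh_mem (w - d)
  constructor <;> linarith [h1.1, h1.2, h2.1, h2.2]

/-- (N''): `(1 - z²) h(tanh d) ≤ (h x + h y)/2`. -/
theorem nTwo (w d : ℝ) :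
    (1 - ((Real.tanh (w + d) + Real.tanh (w - d)) / 2) ^ 2) * hh (Real.tanh d)
      ≤ (hh (Real.tanh (w + d)) + hh (Real.tanh (w - d))) / 2 := by
  have h1 := nOne w d
  have h2 := hh_ge_sq (mid_mem w d)
  have h3 := qwd_le_mid w d
  have h4 := hh_le (Real.tanh d)
  change _ ≤ qwd w d * ph (Real.tanh d) at h1
  unfold ph at h1
  nlinarith

/-- (P1): `q h(tanh d) ≤ (h x + h y)/2`. -/
theorem pOne (w d : ℝ) :
    qwd w d * hh (Real.tanh d) ≤ (hh (Real.tanh (w + d)) + hh (Real.tanh (w - d))) / 2 :=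
  (mul_le_mul_of_nonneg_right (qwd_le_mid w d) (hh_pos (tanh_mem d)).le).trans (nTwo w d)

/-- `(x - y)/2 = q tanh d` -/
theorem half_diff (w d : ℝ) :
    (Real.tanh (w + d) - Real.tanh (w - d)) / 2 = qwd w d * Real.tanh d := by
  have hC := Real.cosh_pos (2 * w)
  have hc := Real.cosh_pos (2 * d)
  have hd := Real.cosh_pos d
  have h2 : 1 + Real.cosh (2 * d) = 2 * Real.cosh d ^ 2 := by
    rw [Real.cosh_two_mul, Real.sinh_sq]; ring
  rw [(pair_values d w).1]
  unfold qwd
  rw [h2, Real.sinh_two_mul, Real.tanh_eq_sinh_div_cosh,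
    add_comm (Real.cosh (2 * d)) (Real.cosh (2 * w))]
  field_simp

/-- `K(x, y) = q d tanh d` -/
theorem KK_wd (w d : ℝ) : KK (Real.tanh (w + d)) (Real.tanh (w - d))
    = qwd w d * (d * Real.tanh d) := by
  unfold KK
  rw [Real.artanh_tanh, Real.artanh_tanh]
  have := half_diff w d
  linear_combination d * this

/-! ### the same in the variables `a`, `b` -/

/-- half the difference of the inverse hyperbolic tangents -/
noncomputable def dab (a b : ℝ) : ℝ := (Real.artanh a - Real.artanh b) / 2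

/-- half the sum of the inverse hyperbolic tangents -/
noncomputable def wab (a b : ℝ) : ℝ := (Real.artanh a + Real.artanh b) / 2

/-- `q` as a function of `a`, `b` -/
noncomputable def qab (a b : ℝ) : ℝ := qwd (wab a b) (dab a b)

theorem tanh_wd {a b : ℝ} (ha : a ∈ Set.Ioo (-1 : ℝ) 1) (hb : b ∈ Set.Ioo (-1 : ℝ) 1) :
    Real.tanh (wab a b + dab a b) = a ∧ Real.tanh (wab a b - dab a b) = b := by
  constructor
  · rw [show wab a b + dab a b = Real.artanh a by unfold wab dab; ring, Real.tanh_artanh ha]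
  · rw [show wab a b - dab a b = Real.artanh b by unfold wab dab; ring, Real.tanh_artanh hb]

theorem qab_pos (a b : ℝ) : 0 < qab a b := qwd_pos _ _

theorem qab_le_one (a b : ℝ) : qab a b ≤ 1 := qwd_le_one _ _

theorem half_diff_ab {a b : ℝ} (ha : a ∈ Set.Ioo (-1 : ℝ) 1) (hb : b ∈ Set.Ioo (-1 : ℝ) 1) :
    (a - b) / 2 = qab a b * Real.tanh (dab a b) := by
  have h := half_diff (wab a b) (dab a b)
  rw [(tanh_wd ha hb).1, (tanh_wd ha hb).2] at h
  exact h

theorem KK_ab {a b : ℝ} (ha : a ∈ Set.Ioo (-1 : ℝ) 1) (hb : b ∈ Set.Ioo (-1 : ℝ) 1) :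
    KK a b = qab a b * (dab a b * Real.tanh (dab a b)) := by
  have h := KK_wd (wab a b) (dab a b)
  rw [(tanh_wd ha hb).1, (tanh_wd ha hb).2] at h
  exact h

theorem KK_ab_kk {a b : ℝ} (ha : a ∈ Set.Ioo (-1 : ℝ) 1) (hb : b ∈ Set.Ioo (-1 : ℝ) 1) :
    KK a b = qab a b * kk (Real.tanh (dab a b)) := by
  rw [KK_ab ha hb]; unfold kk; rw [Real.artanh_tanh]; ring

/-- (N1) in the variables `a`, `b`. -/
theorem nOne_ab {a b : ℝ} (ha : a ∈ Set.Ioo (-1 : ℝ) 1) (hb : b ∈ Set.Ioo (-1 : ℝ) 1) :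
    hh ((a + b) / 2) - (hh a + hh b) / 2 ≤ qab a b * ph (Real.tanh (dab a b)) := by
  have h := nOne (wab a b) (dab a b)
  rw [(tanh_wd ha hb).1, (tanh_wd ha hb).2] at h
  exact h

theorem qab_le_mid {a b : ℝ} (ha : a ∈ Set.Ioo (-1 : ℝ) 1) (hb : b ∈ Set.Ioo (-1 : ℝ) 1) :
    qab a b ≤ 1 - ((a + b) / 2) ^ 2 := by
  have h := qwd_le_mid (wab a b) (dab a b)
  rw [(tanh_wd ha hb).1, (tanh_wd ha hb).2] at h
  exact h

/-- (N'') in the variables `a`, `b`. -/
theorem nTwo_ab {a b : ℝ} (ha : a ∈ Set.Ioo (-1 : ℝ) 1) (hb : b ∈ Set.Ioo (-1 : ℝ) 1) :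
    (1 - ((a + b) / 2) ^ 2) * hh (Real.tanh ((Real.artanh a - Real.artanh b) / 2))
      ≤ (hh a + hh b) / 2 := by
  have h := nTwo (wab a b) (dab a b)
  rw [(tanh_wd ha hb).1, (tanh_wd ha hb).2] at h
  exact h

/-- (P1) in the variables `a`, `b`. -/
theorem pOne_ab {a b : ℝ} (ha : a ∈ Set.Ioo (-1 : ℝ) 1) (hb : b ∈ Set.Ioo (-1 : ℝ) 1) :
    qab a b * hh (Real.tanh (dab a b)) ≤ (hh a + hh b) / 2 := by
  have h := pOne (wab a b) (dab a b)
  rw [(tanh_wd ha hb).1, (tanh_wd ha hb).2] at h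
  exact h

theorem dab_pos {a b : ℝ} (hb : -1 < b) (hab : b < a) (ha : a < 1) : 0 < dab a b := by
  have := Real.artanh_lt_artanh hb ha hab
  unfold dab; linarith

/-- (E1): `Ψ(h(m) - (h a + h b)/2) ≤ K(a, b)`. -/
theorem E_one {a b : ℝ} (hb : -1 < b) (hab : b < a) (ha : a < 1) :
    Psi (hh ((a + b) / 2) - (hh a + hh b) / 2) ≤ KK a b := by
  have ha' : a ∈ Set.Ioo (-1 : ℝ) 1 := ⟨by linarith, ha⟩
  have hb' : b ∈ Set.Ioo (-1 : ℝ) 1 := ⟨hb, by linarith⟩
  have hd := dab_pos hb hab ha
  have ht := tanh_mem (dab a b)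
  have ht0 : 0 < Real.tanh (dab a b) := tanh_pos' hd
  have hN := nOne_ab ha' hb'
  have hq0 := qab_pos a b
  have hq1 := qab_le_one a b
  have hJ0 := ph_pos ht0 ht.2.le
  have hJ1 := ph_lt ht
  have hK := KK_ab_kk ha' hb'
  have hP := Psi_ph ht0.le ht.2
  set J := ph (Real.tanh (dab a b))
  rw [hK, ← hP]
  have hqJ : qab a b * J ≤ J := by nlinarith
  have h1 : Psi (hh ((a + b) / 2) - (hh a + hh b) / 2) ≤ Psi (qab a b * J) :=
    Psi_strictMonoOn.monotoneOn (Set.mem_Iio.mpr (by linarith)) (Set.mem_Iio.mpr (by linarith)) hN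
  have h2 := Psi_convexOn.2 (Set.mem_Iio.mpr hJ1) (Set.mem_Iio.mpr log_two_pos')
    hq0.le (by linarith : 0 ≤ 1 - qab a b) (by ring)
  simp only [smul_eq_mul, Psi_zero, mul_zero, add_zero] at h2
  linarith

/-- (E2): `2 (h(m) - h̄) + P(1 - m², h̄) ≤ K(a, b)`. -/
theorem E_two {a b : ℝ} (hb : -1 < b) (hab : b < a) (ha : a < 1) :
    2 * (hh ((a + b) / 2) - (hh a + hh b) / 2)
      + PP (1 - ((a + b) / 2) ^ 2) ((hh a + hh b) / 2) ≤ KK a b := by
  have ha' : a ∈ Set.Ioo (-1 : ℝ) 1 := ⟨by linarith, ha⟩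
  have hb' : b ∈ Set.Ioo (-1 : ℝ) 1 := ⟨hb, by linarith⟩
  have hd := dab_pos hb hab ha
  have ht := tanh_mem (dab a b)
  have ht0 : 0 < Real.tanh (dab a b) := tanh_pos' hd
  have hN := nOne_ab ha' hb'
  have hN2 := nTwo_ab ha' hb'
  have hq0 := qab_pos a b
  have hq1 := qab_le_one a b
  have hJ0 := ph_pos ht0 ht.2.le
  have hJ1 := ph_lt ht
  have hK := KK_ab_kk ha' hb'
  have hP := Psi_ph ht0.le ht.2
  have hm : (a + b) / 2 ∈ Set.Ioo (-1 : ℝ) 1 := ⟨by linarith, by linarith⟩
  have hs := one_sub_sq_pos hm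
  have hge := hh_ge_sq ⟨hm.1.le, hm.2.le⟩
  have hJe : hh (Real.tanh ((Real.artanh a - Real.artanh b) / 2))
      = Real.log 2 - ph (Real.tanh (dab a b)) := by unfold ph dab; ring
  rw [hJe] at hN2
  set J := ph (Real.tanh (dab a b))
  set s := 1 - ((a + b) / 2) ^ 2
  set T := (hh a + hh b) / 2
  rw [hK, ← hP]
  unfold PP Psi
  have hR0 := RR_nonneg hJ1
  rcases le_or_gt (Real.log 2 - T / s) 0 with h | h
  · rw [RR_of_nonpos h, mul_zero, add_zero]
    nlinarith [mul_nonneg hq0.le hR0]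
  · set u := Real.log 2 - T / s with hu
    have hsu : s * u = s * Real.log 2 - T := by rw [hu]; field_simp
    have huJ : u ≤ J := by
      have : s * u ≤ s * J := by rw [hsu]; linarith
      exact le_of_mul_le_mul_left this hs
    have hsuq : s * u ≤ qab a b * J := by rw [hsu]; linarith
    have h2 := RR_convexOn.2 (Set.mem_Iio.mpr hJ1) (Set.mem_Iio.mpr log_two_pos')
      (div_nonneg h.le hJ0.le) (by
        rw [sub_nonneg, div_le_one hJ0]; exact huJ : 0 ≤ 1 - u / J) (by ring)
    simp only [smul_eq_mul, RR_of_nonpos le_rfl, mul_zero, add_zero, div_mul_cancel₀ u hJ0.ne'] at h2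
    have h3 : s * RR u ≤ qab a b * RR J := by
      calc s * RR u ≤ s * (u / J * RR J) := mul_le_mul_of_nonneg_left h2 hs.le
        _ = (s * u) / J * RR J := by ring
        _ ≤ qab a b * RR J := by
          apply mul_le_mul_of_nonneg_right _ hR0
          rw [div_le_iff₀ hJ0]; exact hsuq
    linarith

end Vale.Agent.P322
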