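import Mathlib
import Vale.Agent.Lib.P322.FixL2

/-!
Courtade-Kumar, fixed noise: the step property from the tangent bound and the scalar lemma.
-/

namespace Vale.Agent.P322

open Finset

/-- slope of the supporting plane at `(m + η, m - η)` touching the corner `(1, 1)` -/
noncomputable def lamT (ρ m η : ℝ) : ℝ :=
  Real.log (4 / ((1 + m) ^ 2 - ρ ^ 2 * η ^ 2)) / Real.log (4 / ((1 + m) ^ 2 - η ^ 2))

/-- the tangent bound (strong data processing inequality in expectation) -/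
def TangentBound (ρ : ℝ) : Prop :=
  ∀ (n : ℕ) (X Y : (Fin n → Bool) → ℝ), (∀ x, X x ∈ Set.Icc (-1 : ℝ) 1) →
    (∀ x, Y x ∈ Set.Icc (-1 : ℝ) 1) → EE X ∈ Set.Ioo (-1 : ℝ) 1 → EE Y ∈ Set.Ioo (-1 : ℝ) 1 →
    EE Y < EE X → 0 ≤ EE X + EE Y →
    NN ρ (EE X) (EE Y) - lamT ρ ((EE X + EE Y) / 2) ((EE X - EE Y) / 2)
      * ((hh (EE X) + hh (EE Y)) / 2 - (EE (fun x => hh (X x)) + EE (fun x => hh (Y x))) / 2)
      ≤ EE (fun x => NN ρ (X x) (Y x))

/-- the scalar inequality -/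
def ScalarLemma : Prop :=
  ∀ ρ ∈ Set.Ioo (0 : ℝ) 1, ∀ m η : ℝ, 0 ≤ m → 0 < η → m + η ≤ 1 → (m ≠ 0 ∨ η ≠ 1) →
    FF ρ m ≤ NN ρ (m + η) (m - η) - lamT ρ m η * ((hh (m + η) + hh (m - η)) / 2
      - (FF ρ (m + η) + FF ρ (m - η)) / 2) ∨
    ∃ x0 ∈ Set.Ioo (0 : ℝ) 1, x0 * ((FF ρ (m + η) + FF ρ (m - η)) / 2) = η * hh x0 ∧
      FF ρ m ≤ (η / x0) * hh (ρ * x0)

theorem hh_concave : ConcaveOn ℝ (Set.Icc (-1 : ℝ) 1) hh := by
  refine ⟨convex_Icc _ _, ?_⟩
  intro x hx y hy a b ha hb hab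
  have h := Real.strictConcave_binEntropy.concaveOn.2 (x := (1 + x) / 2) (y := (1 + y) / 2)
    ⟨by linarith [hx.1], by linarith [hx.2]⟩ ⟨by linarith [hy.1], by linarith [hy.2]⟩ ha hb hab
  unfold hh
  simp only [smul_eq_mul] at *
  have e : (1 + (a * x + b * y)) / 2 = a * ((1 + x) / 2) + b * ((1 + y) / 2) := by
    have : (1 : ℝ) = a + b := hab.symm
    nlinarith
  rw [e]
  exact h

theorem NN_ge_avg {ρ : ℝ} (h0 : 0 ≤ ρ) (h1 : ρ ≤ 1) {x y : ℝ} (hx : x ∈ Set.Icc (-1 : ℝ) 1)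
    (hy : y ∈ Set.Icc (-1 : ℝ) 1) : (hh x + hh y) / 2 ≤ NN ρ x y := by
  obtain ⟨_, hcc⟩ := hh_concave
  have p1 : 0 ≤ (1 + ρ) / 2 := by linarith
  have p2 : 0 ≤ (1 - ρ) / 2 := by linarith
  have a1 := hcc hx hy p1 p2 (by ring)
  have a2 := hcc hx hy p2 p1 (by ring)
  simp only [smul_eq_mul] at a1 a2
  unfold NN
  rw [show ((1 + ρ) * x + (1 - ρ) * y) / 2 = (1 + ρ) / 2 * x + (1 - ρ) / 2 * y by ring,
    show ((1 - ρ) * x + (1 + ρ) * y) / 2 = (1 - ρ) / 2 * x + (1 + ρ) / 2 * y by ring]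
  linarith

theorem NN_neg (ρ x y : ℝ) : NN ρ (-x) (-y) = NN ρ x y := by
  unfold NN
  rw [show ((1 + ρ) * -x + (1 - ρ) * -y) / 2 = -(((1 + ρ) * x + (1 - ρ) * y) / 2) by ring,
    show ((1 - ρ) * -x + (1 + ρ) * -y) / 2 = -(((1 - ρ) * x + (1 + ρ) * y) / 2) by ring,
    hh_neg, hh_neg]

theorem EE_neg {n : ℕ} (u : (Fin n → Bool) → ℝ) : EE (fun x => -u x) = -EE u := by
  have := EE_mul_left (-1) u
  simpa using this

theorem EE_mem_Icc {n : ℕ} {u : (Fin n → Bool) → ℝ} (hu : ∀ x, u x ∈ Set.Icc (-1 : ℝ) 1) :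
    EE u ∈ Set.Icc (-1 : ℝ) 1 := by
  constructor
  · have := EE_mono (n := n) (u := fun _ => (-1:ℝ)) (v := u) (fun x => (hu x).1)
    rwa [EE_const] at this
  · have := EE_mono (n := n) (v := fun _ => (1:ℝ)) (u := u) (fun x => (hu x).2)
    rwa [EE_const] at this

theorem eq_one_of_EE {n : ℕ} {u : (Fin n → Bool) → ℝ} (hu : ∀ x, u x ≤ 1) (h : EE u = 1) :
    ∀ x, u x = 1 := by
  have h1 : EE (fun x => 1 - u x) = 0 := by rw [EE_sub, EE_const, h, sub_self]
  unfold EE at h1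
  have h2 : (∑ x, (1 - u x)) = 0 := by
    rcases div_eq_zero_iff.mp h1 with h3 | h3
    · exact h3
    · exact absurd h3 (by positivity)
  rw [Finset.sum_eq_zero_iff_of_nonneg (fun x _ => by linarith [hu x])] at h2
  intro x
  have := h2 x (Finset.mem_univ x)
  linarith

theorem lamT_nonneg {ρ m η : ℝ} (hρ : ρ ∈ Set.Ioo (0 : ℝ) 1) (hm : 0 ≤ m) (hη : 0 < η)
    (hmη : m + η ≤ 1) (hne : m ≠ 0 ∨ η ≠ 1) : 0 ≤ lamT ρ m η := by
  unfold lamT
  have hm1 : m < 1 := by linarith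
  have h0 : 0 < 1 + m - η := by
    rcases hne with h | h
    · have : 0 < m := lt_of_le_of_ne hm (Ne.symm h)
      linarith
    · rcases lt_or_eq_of_le hm with h2 | h2
      · linarith
      · have : η < 1 := lt_of_le_of_ne (by linarith) h
        linarith
  have h1 : 0 < (1 + m) ^ 2 - η ^ 2 := by
    have : 0 < (1 + m - η) * (1 + m + η) := mul_pos h0 (by linarith)
    nlinarith
  have h2 : (1 + m) ^ 2 - η ^ 2 ≤ (1 + m) ^ 2 - ρ ^ 2 * η ^ 2 := by
    have : ρ ^ 2 * η ^ 2 ≤ 1 * η ^ 2 := by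
      apply mul_le_mul_of_nonneg_right _ (sq_nonneg η)
      nlinarith [hρ.1, hρ.2]
    linarith
  have h3 : (1 + m) ^ 2 - ρ ^ 2 * η ^ 2 ≤ 4 := by nlinarith [sq_nonneg (ρ * η)]
  apply div_nonneg
  · apply Real.log_nonneg
    rw [le_div_iff₀ (by linarith)]
    linarith
  · apply Real.log_nonneg
    rw [le_div_iff₀ h1]
    linarith

/-- the tangent bound extended to `EE X = 1` -/
theorem tangent_closed {ρ : ℝ} (hρ : ρ ∈ Set.Ioo (0 : ℝ) 1) (hT : TangentBound ρ) (n : ℕ)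
    (X Y : (Fin n → Bool) → ℝ) (hX : ∀ x, X x ∈ Set.Icc (-1 : ℝ) 1)
    (hY : ∀ x, Y x ∈ Set.Icc (-1 : ℝ) 1) (hYX : EE Y < EE X) (hs : 0 ≤ EE X + EE Y)
    (hYm : -1 < EE Y) :
    NN ρ (EE X) (EE Y) - lamT ρ ((EE X + EE Y) / 2) ((EE X - EE Y) / 2)
      * ((hh (EE X) + hh (EE Y)) / 2 - (EE (fun x => hh (X x)) + EE (fun x => hh (Y x))) / 2)
      ≤ EE (fun x => NN ρ (X x) (Y x)) := by
  have hEX := EE_mem_Icc hX
  have hEY := EE_mem_Icc hY
  set a := EE X with ha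
  set b := EE Y with hb
  have hb1 : b < 1 := by linarith [hEX.2]
  have hab : 0 < (1 + a) * (1 + b) := by
    apply mul_pos <;> linarith
  have hab4 : (1 + a) * (1 + b) < 4 := by nlinarith [hEX.1, hEX.2]
  -- the scaled laws
  have hev : ∀ᶠ s in nhdsWithin (0 : ℝ) (Set.Ioi 0),
      NN ρ ((1 - s) * a) ((1 - s) * b) - lamT ρ (((1 - s) * a + (1 - s) * b) / 2)
        (((1 - s) * a - (1 - s) * b) / 2)
      * ((hh ((1 - s) * a) + hh ((1 - s) * b)) / 2
        - (EE (fun x => hh ((1 - s) * X x)) + EE (fun x => hh ((1 - s) * Y x))) / 2)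
      ≤ EE (fun x => NN ρ ((1 - s) * X x) ((1 - s) * Y x)) := by
    have h1 : ∀ᶠ s in nhdsWithin (0 : ℝ) (Set.Ioi 0), s < 1 :=
      Filter.Eventually.filter_mono nhdsWithin_le_nhds (gt_mem_nhds one_pos)
    filter_upwards [h1, self_mem_nhdsWithin] with s hs1 hs0
    have hs0' : 0 < s := hs0
    have hmem : ∀ c ∈ Set.Icc (-1 : ℝ) 1, (1 - s) * c ∈ Set.Icc (-1 : ℝ) 1 := by
      intro c hc
      constructor <;> nlinarith [hc.1, hc.2]
    have hmem' : ∀ c ∈ Set.Icc (-1 : ℝ) 1, (1 - s) * c ∈ Set.Ioo (-1 : ℝ) 1 := by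
      intro c hc
      constructor <;> nlinarith [hc.1, hc.2]
    have h2 := hT n (fun x => (1 - s) * X x) (fun x => (1 - s) * Y x) (fun x => hmem _ (hX x))
      (fun x => hmem _ (hY x))
    rw [EE_mul_left, EE_mul_left, ← ha, ← hb] at h2
    exact h2 (hmem' a hEX) (hmem' b hEY) (by nlinarith) (by nlinarith)
  have hc := hh_continuous
  have hNNc : ∀ p q : ℝ, Continuous (fun s : ℝ => NN ρ ((1 - s) * p) ((1 - s) * q)) := by
    intro p q
    unfold NN
    fun_prop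
  have hEEc : ∀ u : (Fin n → Bool) → ℝ, Continuous (fun s : ℝ => EE (fun x => hh ((1 - s) * u x))) := by
    intro u
    unfold EE
    fun_prop
  have hR : Continuous (fun s : ℝ => EE (fun x => NN ρ ((1 - s) * X x) ((1 - s) * Y x))) := by
    unfold EE NN
    fun_prop
  have hlam : ContinuousAt (fun s : ℝ => lamT ρ (((1 - s) * a + (1 - s) * b) / 2)
        (((1 - s) * a - (1 - s) * b) / 2)) 0 := by
    unfold lamT
    have hden : (1 + ((1 - (0:ℝ)) * a + (1 - 0) * b) / 2) ^ 2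
        - (((1 - (0:ℝ)) * a - (1 - 0) * b) / 2) ^ 2 = (1 + a) * (1 + b) := by ring
    have hden2 : (1 + ((1 - (0:ℝ)) * a + (1 - 0) * b) / 2) ^ 2
        - ρ ^ 2 * (((1 - (0:ℝ)) * a - (1 - 0) * b) / 2) ^ 2
        = (1 + a) * (1 + b) + (1 - ρ ^ 2) * ((a - b) / 2) ^ 2 := by ring
    have hpos2 : 0 < (1 + a) * (1 + b) + (1 - ρ ^ 2) * ((a - b) / 2) ^ 2 := by
      have : 0 ≤ (1 - ρ ^ 2) * ((a - b) / 2) ^ 2 :=
        mul_nonneg (by nlinarith [hρ.1, hρ.2]) (sq_nonneg _)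
      linarith
    apply ContinuousAt.div
    · apply ContinuousAt.log
      · apply ContinuousAt.div
        · fun_prop
        · fun_prop
        · rw [hden2]; exact hpos2.ne'
      · rw [hden2]; positivity
    · apply ContinuousAt.log
      · apply ContinuousAt.div
        · fun_prop
        · fun_prop
        · rw [hden]; exact hab.ne'
      · rw [hden]; positivity
    · rw [hden]
      have : 0 < Real.log (4 / ((1 + a) * (1 + b))) := by
        apply Real.log_pos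
        rw [lt_div_iff₀ hab]; linarith
      exact this.ne'
  have hL : Filter.Tendsto (fun s : ℝ => NN ρ ((1 - s) * a) ((1 - s) * b)
      - lamT ρ (((1 - s) * a + (1 - s) * b) / 2) (((1 - s) * a - (1 - s) * b) / 2)
      * ((hh ((1 - s) * a) + hh ((1 - s) * b)) / 2
        - (EE (fun x => hh ((1 - s) * X x)) + EE (fun x => hh ((1 - s) * Y x))) / 2))
      (nhdsWithin (0 : ℝ) (Set.Ioi 0)) (nhds (NN ρ a b - lamT ρ ((a + b) / 2) ((a - b) / 2)
      * ((hh a + hh b) / 2 - (EE (fun x => hh (X x)) + EE (fun x => hh (Y x))) / 2))) := by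
    apply Filter.Tendsto.mono_left _ nhdsWithin_le_nhds
    have hcont : ContinuousAt (fun s : ℝ => NN ρ ((1 - s) * a) ((1 - s) * b)
      - lamT ρ (((1 - s) * a + (1 - s) * b) / 2) (((1 - s) * a - (1 - s) * b) / 2)
      * ((hh ((1 - s) * a) + hh ((1 - s) * b)) / 2
        - (EE (fun x => hh ((1 - s) * X x)) + EE (fun x => hh ((1 - s) * Y x))) / 2)) 0 := by
      apply ContinuousAt.sub
      · exact (hNNc a b).continuousAt
      · apply ContinuousAt.mul hlam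
        apply ContinuousAt.sub
        · fun_prop
        · exact (((hEEc X).add (hEEc Y)).div_const 2).continuousAt
    have := hcont.tendsto
    simpa using this
  have hR' : Filter.Tendsto (fun s : ℝ => EE (fun x => NN ρ ((1 - s) * X x) ((1 - s) * Y x)))
      (nhdsWithin (0 : ℝ) (Set.Ioi 0)) (nhds (EE (fun x => NN ρ (X x) (Y x)))) := by
    apply Filter.Tendsto.mono_left _ nhdsWithin_le_nhds
    have := hR.continuousAt.tendsto (x := (0:ℝ))
    simpa using this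
  exact le_of_tendsto_of_tendsto hL hR' hev

/-- the main case of the step -/
theorem step_main {ρ : ℝ} (hρ : ρ ∈ Set.Ioo (0 : ℝ) 1) (hT : TangentBound ρ)
    (hSL : ScalarLemma) (n : ℕ) (X Y : (Fin n → Bool) → ℝ) (hX : ∀ x, X x ∈ Set.Icc (-1 : ℝ) 1)
    (hY : ∀ x, Y x ∈ Set.Icc (-1 : ℝ) 1) (hFX : FF ρ (EE X) ≤ EE (fun x => hh (X x)))
    (hFY : FF ρ (EE Y) ≤ EE (fun x => hh (Y x))) (hYX : EE Y < EE X) (hs : 0 ≤ EE X + EE Y) :
    FF ρ ((EE X + EE Y) / 2) ≤ EE (fun x => NN ρ (X x) (Y x)) := by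
  have hEX := EE_mem_Icc hX
  have hEY := EE_mem_Icc hY
  by_cases hcorner : EE Y = -1
  · -- then `X = 1` and `Y = -1` identically
    have hX1 : EE X = 1 := by
      have h1 := hEX.2
      linarith
    have hx := eq_one_of_EE (fun x => (hX x).2) hX1
    have hy := eq_one_of_EE (u := fun x => -Y x) (fun x => by linarith [(hY x).1])
      (by rw [EE_neg, hcorner]; ring)
    have hy' : ∀ x, Y x = -1 := fun x => by have := hy x; linarith
    have hN : (fun x => NN ρ (X x) (Y x)) = fun _ => hh ρ := by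
      funext x
      rw [hx x, hy' x, NN_eq]
      norm_num [hh_neg]
    rw [hN, EE_const, hX1, hcorner]
    have : FF ρ ((1 + -1) / 2) = hh ρ := by
      norm_num [FF, hh_zero]
    rw [this]
  · have hYm : -1 < EE Y := lt_of_le_of_ne hEY.1 (Ne.symm hcorner)
    have hm0 : 0 ≤ (EE X + EE Y) / 2 := by linarith
    have hη0 : 0 < (EE X - EE Y) / 2 := by linarith
    have hmη : (EE X + EE Y) / 2 + (EE X - EE Y) / 2 ≤ 1 := by linarith [hEX.2]
    have hne : (EE X + EE Y) / 2 ≠ 0 ∨ (EE X - EE Y) / 2 ≠ 1 := by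
      by_contra hcon
      push Not at hcon
      have : EE Y = -1 := by linarith [hcon.1, hcon.2]
      exact hcorner this
    have hlam := lamT_nonneg hρ hm0 hη0 hmη hne
    have e1 : (EE X + EE Y) / 2 + (EE X - EE Y) / 2 = EE X := by ring
    have e2 : (EE X + EE Y) / 2 - (EE X - EE Y) / 2 = EE Y := by ring
    rcases hSL ρ hρ _ _ hm0 hη0 hmη hne with h | ⟨x0, hx0, h1, h2⟩
    · rw [e1, e2] at h
      have ht := tangent_closed hρ hT n X Y hX hY hYX hs hYm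
      refine le_trans h (le_trans ?_ ht)
      have : lamT ρ ((EE X + EE Y) / 2) ((EE X - EE Y) / 2)
          * ((hh (EE X) + hh (EE Y)) / 2 - (EE (fun x => hh (X x)) + EE (fun x => hh (Y x))) / 2)
          ≤ lamT ρ ((EE X + EE Y) / 2) ((EE X - EE Y) / 2)
          * ((hh (EE X) + hh (EE Y)) / 2 - (FF ρ (EE X) + FF ρ (EE Y)) / 2) := by
        apply mul_le_mul_of_nonneg_left _ hlam
        linarith
      linarith
    · rw [e1, e2] at h1
      have := EE_NN_ge_theta (T := (FF ρ (EE X) + FF ρ (EE Y)) / 2) hρ hx0 X Y hX hY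
        (by linarith) h1
      exact le_trans h2 this

/-- the step property -/
theorem step_of {ρ : ℝ} (hρ : ρ ∈ Set.Ioo (0 : ℝ) 1) (hT : TangentBound ρ)
    (hSL : ScalarLemma) : Step ρ (FF ρ) := by
  intro n X Y hX hY hFX hFY
  have hpos : ∀ (X Y : (Fin n → Bool) → ℝ), (∀ x, X x ∈ Set.Icc (-1 : ℝ) 1) →
      (∀ x, Y x ∈ Set.Icc (-1 : ℝ) 1) → FF ρ (EE X) ≤ EE (fun x => hh (X x)) →
      FF ρ (EE Y) ≤ EE (fun x => hh (Y x)) → 0 ≤ EE X + EE Y →
      FF ρ ((EE X + EE Y) / 2) ≤ EE (fun x => NN ρ (X x) (Y x)) := by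
    intro X Y hX hY hFX hFY hs
    rcases lt_trichotomy (EE Y) (EE X) with h | h | h
    · exact step_main hρ hT hSL n X Y hX hY hFX hFY h hs
    · have h1 : EE (fun x => (1 / 2) * (hh (X x) + hh (Y x))) ≤ EE (fun x => NN ρ (X x) (Y x)) := by
        apply EE_mono
        intro x
        have := NN_ge_avg hρ.1.le hρ.2.le (hX x) (hY x)
        linarith
      rw [EE_mul_left, EE_add] at h1
      rw [h] at hFY
      have e : (EE X + EE Y) / 2 = EE X := by rw [h]; ring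
      rw [e]
      linarith
    · have h2 := step_main hρ hT hSL n Y X hY hX hFY hFX h (by linarith)
      rw [add_comm (EE Y) (EE X)] at h2
      have h3 : (fun x => NN ρ (Y x) (X x)) = fun x => NN ρ (X x) (Y x) := by
        funext x; exact NN_comm _ _ _
      rwa [h3] at h2
  rcases le_total 0 (EE X + EE Y) with hs | hs
  · exact hpos X Y hX hY hFX hFY hs
  · have h := hpos (fun x => -X x) (fun x => -Y x)
      (fun x => ⟨by linarith [(hX x).2], by linarith [(hX x).1]⟩)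
      (fun x => ⟨by linarith [(hY x).2], by linarith [(hY x).1]⟩)
    rw [EE_neg, EE_neg] at h
    simp only [hh_neg, NN_neg, FF_neg] at h
    have h2 := h hFX hFY (by linarith)
    have e : (-EE X + -EE Y) / 2 = -((EE X + EE Y) / 2) := by ring
    rw [e, FF_neg] at h2
    exact h2

/-- The conjecture from the two remaining statements. -/
theorem courtadeKumar_of (hT : ∀ ρ ∈ Set.Ioo (0 : ℝ) 1, TangentBound ρ) (hSL : ScalarLemma)
    {n : ℕ} (f : (Fin n → Bool) → Bool) {ε : ℝ} (h0 : 0 ≤ ε) (h1 : ε ≤ 1 / 2) :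
    mutualInfo (jointLaw ε f) ≤ 1 - entropy2 ε :=
  courtadeKumar_of_step (fun ρ hρ => step_of hρ (hT ρ hρ) hSL) f h0 h1

end Vale.Agent.P322
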